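import Vale.Agent.P159.H859.Box
import Vale.Agent.P159.H963.NeuC

/-!
P159 / module WCOV (helper859), file 6: the neutral model.

* `e2_neu`: E2 for the neutral model (any blocks, any admissible mass form).
* `gmn_blocks`, `gmn_le_res`: the quadratic form, and the bare domination
  `Gm (nM ..) ≤ (M + κ (-Δ))⁻¹` on neutral vectors.
* `dat_neu`: the data `Dat` for the neutral cell covariance `Gnc`; `Sgn`: covariance of the source
  of the neutral channel, window comparison and sizes.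
-/

set_option linter.unusedSectionVars false

namespace Vale.Agent.P159.H859

open Finset Matrix Filter Topology
open Vale.Agent.P159.TM.H764 (Gh cN sN dt EE grd Q nrm bx)
open Vale.Agent.P159.TM.Spec (V)
open Vale.Agent.P159.TM.SpecC (Tor wT)
open Vale.Agent.P159.TM.H104 (EM Ex Cv Lg li Gr)
open Vale.Agent.P159.H37
open Vale.Agent.P159.H513 (dvT nC nK oK eE2 st EB)
open Vale.Agent.P159.H864
open Vale.Agent.P159.H963 (pin ntr MF GW nM Neu gw_wT Gnc GnC nMC)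

noncomputable section

/-! ### pinning as the limit of a strong mass at one site -/

/-- the limit -/
lemma tendsto_pin {A : Type*} [Fintype A] [DecidableEq A] {μ : (A → ℤ) → ℝ} (hμ : ∀ h, 0 ≤ μ h)
    (x₀ : A) (hs : Summable fun h : A → ℤ => μ h * Real.exp (-(1 * (h x₀ : ℝ) ^ 2 / 2))) :
    Tendsto (fun Λ : ℝ => ∑' h : A → ℤ, μ h * Real.exp (-(Λ * (h x₀ : ℝ) ^ 2 / 2))) atTop
      (𝓝 (∑' h : A → ℤ, pin μ x₀ h)) := by
  refine tendsto_tsum_of_dominated_convergence hs (fun h => ?_) ?_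
  · unfold pin
    by_cases h0 : h x₀ = 0
    · rw [if_pos h0]
      simp [h0]
    · rw [if_neg h0]
      have h1 : (0 : ℝ) < (h x₀ : ℝ) ^ 2 / 2 := by
        have : (h x₀ : ℝ) ≠ 0 := by exact_mod_cast h0
        positivity
      have h2 : Tendsto (fun Λ : ℝ => Λ * ((h x₀ : ℝ) ^ 2 / 2)) atTop atTop :=
        tendsto_id.atTop_mul_const h1
      have h3 := (Real.tendsto_exp_neg_atTop_nhds_zero.comp h2).const_mul (μ h)
      rw [mul_zero] at h3
      refine h3.congr fun Λ => ?_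
      simp only [Function.comp_apply]
      congr 2
      ring
  · filter_upwards [eventually_ge_atTop (1 : ℝ)] with Λ hΛ h
    rw [Real.norm_of_nonneg (mul_nonneg (hμ h) (Real.exp_pos _).le)]
    refine mul_le_mul_of_nonneg_left (Real.exp_le_exp.2 ?_) (hμ h)
    have : 0 ≤ (h x₀ : ℝ) ^ 2 := sq_nonneg _
    nlinarith

section one

variable {A : Type*} [Fintype A] [DecidableEq A]

/-- unit mass at one site -/
def e1M (x₀ : A) : Matrix A A ℝ := Matrix.of fun x y => if x = x₀ ∧ y = x₀ then 1 else 0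

lemma e1M_tr (x₀ : A) : (e1M x₀)ᵀ = e1M x₀ := by
  ext x y
  simp only [e1M, Matrix.transpose_apply, Matrix.of_apply]
  congr 1
  exact propext and_comm

lemma e1M_mulVec (x₀ : A) (u : A → ℝ) (x : A) :
    (e1M x₀ *ᵥ u) x = if x = x₀ then u x₀ else 0 := by
  unfold Matrix.mulVec dotProduct e1M
  simp only [Matrix.of_apply]
  by_cases h : x = x₀
  · simp [h]
  · simp [h]

lemma qf_e1M (x₀ : A) (u : A → ℝ) : qf (e1M x₀) u = u x₀ ^ 2 := by
  rw [qf_eq]
  unfold dotProduct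
  simp_rw [e1M_mulVec]
  simp only [mul_ite, mul_zero]
  rw [Finset.sum_ite_eq' Finset.univ x₀]
  simp only [Finset.mem_univ, if_true]
  ring

/-- adding a strong mass at one site makes the neutral mass form coercive -/
lemma coer_pin [Nonempty A] {M : Matrix A A ℝ} {m : ℝ} (hM : MF M m) (x₀ : A) :
    ∃ m0 : ℝ, 0 < m0 ∧ ∀ Λ : ℝ, 1 ≤ Λ → ∀ u : A → ℝ,
      m0 * ∑ x, u x ^ 2 ≤ qf (ntr M m + Λ • e1M x₀) u := by
  obtain ⟨m1, hm1, hc⟩ := hM.coer
  have hcard : (0 : ℝ) < Fintype.card A := by exact_mod_cast Fintype.card_pos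
  set a : ℝ := m1 / (2 * (1 + Fintype.card A)) with ha
  have ha0 : 0 < a := by positivity
  refine ⟨min (a / 2) (1 / (2 * Fintype.card A)), lt_min (by positivity) (by positivity),
    fun Λ hΛ u => ?_⟩
  have h1 := H963.gap_pin hm1.le (H963.ntr_gap hM.symm hM.row hc) x₀ u
  rw [← ha] at h1
  rw [qf_add_mat, qf_smul_mat, qf_e1M]
  have h2 : ∑ x, u x ^ 2 ≤ 2 * ∑ x, (u x - u x₀) ^ 2 + 2 * Fintype.card A * u x₀ ^ 2 := by
    calc ∑ x, u x ^ 2 ≤ ∑ x, (2 * (u x - u x₀) ^ 2 + 2 * u x₀ ^ 2) := by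
          refine Finset.sum_le_sum fun x _ => ?_
          nlinarith [sq_nonneg ((u x - u x₀) - u x₀)]
      _ = _ := by
          rw [Finset.sum_add_distrib, ← Finset.mul_sum, Finset.sum_const, Finset.card_univ,
            nsmul_eq_mul]
          ring
  have h3 : 0 ≤ ∑ x, (u x - u x₀) ^ 2 := Finset.sum_nonneg fun _ _ => sq_nonneg _
  have h4 : 0 ≤ u x₀ ^ 2 := sq_nonneg _
  have h5 : min (a / 2) (1 / (2 * Fintype.card A)) * (2 * ∑ x, (u x - u x₀) ^ 2) ≤
      a * ∑ x, (u x - u x₀) ^ 2 := by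
    have : min (a / 2) (1 / (2 * (Fintype.card A : ℝ))) ≤ a / 2 := min_le_left _ _
    nlinarith [mul_le_mul_of_nonneg_right this h3]
  have h6 : min (a / 2) (1 / (2 * Fintype.card A)) * (2 * Fintype.card A * u x₀ ^ 2) ≤
      1 * u x₀ ^ 2 := by
    have h7 : min (a / 2) (1 / (2 * (Fintype.card A : ℝ))) ≤ 1 / (2 * Fintype.card A) :=
      min_le_right _ _
    have h8 : 0 ≤ 2 * (Fintype.card A : ℝ) * u x₀ ^ 2 := by positivity
    refine (mul_le_mul_of_nonneg_right h7 h8).trans (le_of_eq ?_)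
    field_simp
  have h9 : 0 ≤ min (a / 2) (1 / (2 * (Fintype.card A : ℝ))) :=
    le_min (by positivity) (by positivity)
  have h10 := mul_le_mul_of_nonneg_left h2 h9
  have h11 : 1 * u x₀ ^ 2 ≤ Λ * u x₀ ^ 2 := mul_le_mul_of_nonneg_right hΛ h4
  linarith

lemma wM_e1M (w : (A → ℤ) → ℝ) (M : Matrix A A ℝ) (x₀ : A) (Λ : ℝ) (h : A → ℤ) :
    wM w (M + Λ • e1M x₀) h = wM w M h * Real.exp (-(Λ * (h x₀ : ℝ) ^ 2 / 2)) := by
  unfold wM
  rw [qf_add_mat, qf_smul_mat, qf_e1M, mul_assoc, ← Real.exp_add]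
  congr 2
  unfold re
  ring

end one

section e2

variable {N l n : ℕ} [NeZero N] {b : ℝ}

lemma lapM_const (c : ℝ) (w : V N → ℝ) : lapM *ᵥ (fun x => w x + c) = lapM *ᵥ w := by
  funext x
  rw [H340.lapM_mulVec, H340.lapM_mulVec]
  ring

/-- **E2 for the neutral model** -/
theorem e2_neu (hN : N = n * l) (hb : 0 ≤ b) (hl : 1 ≤ l) {M : Matrix (Tor N) (Tor N) ℝ} {m : ℝ}
    (hM : MF M m) (x₀ : Tor N) (J w : Tor N → ℝ) (c : Tor N → Bool → ℝ)
    (hc : ∀ x t, |c x t| ≤ 1) (hJ : ∀ x, J x = (ntr M m *ᵥ w) x + dvT c x)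
    {η : ℝ} (hη : 0 < η) :
    Zs (nM (wT b N) M m x₀) J ≤
      Real.exp (qf (ntr M m) w / 2 + eE2 N l n b η c) * Zs (nM (wT b N) M m x₀) 0 := by
  obtain ⟨m0, hm0, hco⟩ := coer_pin hM x₀
  have hsy := H963.ntr_transpose hM.symm m
  have hrow := H963.ntr_row hM.row
  set M0 := ntr M m with hM0
  set w' : Tor N → ℝ := fun x => w x + -(w x₀) with hw'
  have e1 : M0 *ᵥ w' = M0 *ᵥ w := by
    have : w' = w + fun _ => -(w x₀) := rfl
    rw [this, Matrix.mulVec_add]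
    have e2 : M0 *ᵥ (fun _ : Tor N => -(w x₀)) = 0 := by
      funext x
      simp only [Matrix.mulVec, dotProduct, Pi.zero_apply]
      rw [← Finset.sum_mul, hrow, zero_mul]
    rw [e2, add_zero]
  have e2 : qf M0 w' = qf M0 w := H963.qf_addc hsy hrow w (-(w x₀))
  have e3 : w' x₀ = 0 := by rw [hw']; ring
  -- the bound with the strong mass
  have key : ∀ Λ : ℝ, 1 ≤ Λ → Zs (nM (wT b N) M m x₀) J ≤
      Real.exp (qf M0 w / 2 + eE2 N l n b η c) *
        ∑' h : Tor N → ℤ, wM (wT b N) M0 h * Real.exp (-(Λ * (h x₀ : ℝ) ^ 2 / 2)) := by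
    intro Λ hΛ
    have hs : (M0 + Λ • e1M x₀)ᵀ = M0 + Λ • e1M x₀ := by
      rw [Matrix.transpose_add, Matrix.transpose_smul, hsy, e1M_tr]
    have h1 := H513.e2 hN hb hl hs hm0 (hco Λ hΛ) J w' c hc (fun x => by
      rw [hJ x, Matrix.add_mulVec, Matrix.smul_mulVec, Pi.add_apply, Pi.smul_apply, e1M_mulVec,
        e3, e1]
      simp) hη
    have h2 : qf (M0 + Λ • e1M x₀) w' = qf M0 w := by
      rw [qf_add_mat, qf_smul_mat, qf_e1M, e3, e2]
      ring
    rw [h2] at h1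
    have hE : EM (wM (wT b N) (M0 + Λ • e1M x₀)) := H789.em_wM_wT hb hm0 (hco Λ hΛ)
    have h3 : Zs (nM (wT b N) M m x₀) J ≤ Zs (wM (wT b N) (M0 + Λ • e1M x₀)) J := by
      unfold H37.Zs TM.H104.T
      refine Summable.tsum_le_tsum (fun h => ?_) ?_ (hE.summ (Gr.const 1) J)
      · refine mul_le_mul_of_nonneg_right ?_ (Real.exp_pos _).le
        rw [one_mul, one_mul, wM_e1M]
        unfold nM pin
        split_ifs with h0
        · rw [h0]
          simp only [Int.cast_zero, ne_eq, OfNat.ofNat_ne_zero, not_false_eq_true, zero_pow,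
            mul_zero, zero_div, neg_zero, Real.exp_zero, mul_one]
          exact le_rfl
        · exact mul_nonneg (mul_nonneg (H789.wT_nonneg hb N h) (Real.exp_pos _).le)
            (Real.exp_pos _).le
      · exact ((gw_wT hb).em_nM hM x₀).summ (Gr.const 1) J
    have h4 : Zs (wM (wT b N) (M0 + Λ • e1M x₀)) 0 =
        ∑' h : Tor N → ℤ, wM (wT b N) M0 h * Real.exp (-(Λ * (h x₀ : ℝ) ^ 2 / 2)) := by
      unfold H37.Zs TM.H104.T
      refine tsum_congr fun h => ?_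
      rw [wM_e1M, TM.H104.li_zero, Real.exp_zero, one_mul, mul_one]
    rw [h4] at h1
    exact h3.trans h1
  have hE1 : EM (wM (wT b N) (M0 + (1 : ℝ) • e1M x₀)) := H789.em_wM_wT hb hm0 (hco 1 le_rfl)
  have hlim := tendsto_pin (μ := wM (wT b N) M0)
    (fun h => mul_nonneg (H789.wT_nonneg hb N h) (Real.exp_pos _).le) x₀ (by
      have := hE1.summ (Gr.const 1) 0
      refine this.congr fun h => ?_
      rw [wM_e1M, TM.H104.li_zero, Real.exp_zero, one_mul, mul_one])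
  have h5 := ge_of_tendsto (hlim.const_mul (Real.exp (qf M0 w / 2 + eE2 N l n b η c)))
    (eventually_atTop.2 ⟨1, fun Λ hΛ => key Λ hΛ⟩)
  refine h5.trans (le_of_eq ?_)
  congr 1
  unfold H37.Zs TM.H104.T
  refine tsum_congr fun h => ?_
  rw [TM.H104.li_zero, Real.exp_zero, one_mul, mul_one]
  rfl

/-- logarithmic form -/
theorem e2_neu_Lg (hN : N = n * l) (hb : 0 ≤ b) (hl : 1 ≤ l) {M : Matrix (Tor N) (Tor N) ℝ}
    {m : ℝ} (hM : MF M m) (x₀ : Tor N) (J w : Tor N → ℝ) (c : Tor N → Bool → ℝ)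
    (hc : ∀ x t, |c x t| ≤ 1) (hJ : ∀ x, J x = (ntr M m *ᵥ w) x + dvT c x)
    {η : ℝ} (hη : 0 < η) :
    Lg (nM (wT b N) M m x₀) J - Lg (nM (wT b N) M m x₀) 0 ≤
      qf (ntr M m) w / 2 + eE2 N l n b η c := by
  have hE := (gw_wT (N := N) hb).em_nM hM x₀
  have h := e2_neu hN hb hl hM x₀ J w c hc hJ hη
  have h1 := H37.Zs_pos hE J
  have h0 := H37.Zs_pos hE 0
  have h2 := Real.log_le_log h1 h
  rw [Real.log_mul (Real.exp_pos _).ne' h0.ne', Real.log_exp] at h2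
  unfold Lg
  unfold H37.Zs at h2
  linarith

/-- **quadratic form of E2, neutral model** -/
theorem gmn_blocks (hN : N = n * l) (hb : 0 ≤ b) (hl : 1 ≤ l) {M : Matrix (Tor N) (Tor N) ℝ}
    {m : ℝ} (hM : MF M m) (x₀ : Tor N) (J w : Tor N → ℝ) (c : Tor N → Bool → ℝ)
    (hJ : ∀ x, J x = (ntr M m *ᵥ w) x + dvT c x) {η : ℝ} (hη : 0 < η) :
    qf (Gm (nM (wT b N) M m x₀)) J ≤ qf (ntr M m) w + (1 + η) * (stiff l b * nC c) +
      (1 + 1 / η) * (b * ∑ k, oK N l n c k) := by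
  have hE := (gw_wT (N := N) hb).em_nM hM x₀
  have hK := (gw_wT (N := N) hb).pk_nM hM x₀
  have he := (gw_wT (N := N) hb).ev_nM M m x₀
  obtain ⟨K, hK1, hKc⟩ : ∃ K : ℝ, 1 ≤ K ∧ ∀ x t, |c x t| ≤ K := by
    refine ⟨1 + ∑ x, ∑ t, |c x t|, ?_, fun x t => ?_⟩
    · have : 0 ≤ ∑ x, ∑ t, |c x t| :=
        Finset.sum_nonneg fun x _ => Finset.sum_nonneg fun t _ => abs_nonneg _
      linarith
    · have h1 : |c x t| ≤ ∑ t, |c x t| :=
        Finset.single_le_sum (f := fun t => |c x t|) (fun _ _ => abs_nonneg _) (Finset.mem_univ t)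
      have h2 : ∑ t, |c x t| ≤ ∑ x, ∑ t, |c x t| :=
        Finset.single_le_sum (f := fun x => ∑ t, |c x t|)
          (fun _ _ => Finset.sum_nonneg fun _ _ => abs_nonneg _) (Finset.mem_univ x)
      linarith
  set B : ℝ := 3 * max b 1 ^ 2 * ∑ k, nK N l n c k ^ 2 with hB
  have hB0 : 0 ≤ B := by
    rw [hB]
    exact mul_nonneg (by positivity) (Finset.sum_nonneg fun k _ => by positivity)
  refine le_of_forall_pos_le_add fun ε hε => ?_
  set δ : ℝ := min (1 / K) (ε / (2 * (B + 1))) with hδ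
  have hδ0 : 0 < δ := lt_min (by positivity) (by positivity)
  have hδK : δ * K ≤ 1 := by
    have : δ ≤ 1 / K := min_le_left _ _
    rwa [le_div_iff₀ (by linarith)] at this
  have hδ1 : δ ≤ 1 := by nlinarith
  have hδB : δ * (2 * (B + 1)) ≤ ε := by
    have : δ ≤ ε / (2 * (B + 1)) := min_le_right _ _
    rwa [le_div_iff₀ (by positivity)] at this
  have h1 := e2_neu_Lg hN hb hl hM x₀ (δ • J) (δ • w) (fun x t => δ * c x t)
    (fun x t => by
      rw [abs_mul, abs_of_pos hδ0]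
      exact (mul_le_mul_of_nonneg_left (hKc x t) hδ0.le).trans hδK)
    (fun x => by
      rw [dvT_smul, Pi.smul_apply, smul_eq_mul, hJ x, Matrix.mulVec_smul, Pi.smul_apply,
        smul_eq_mul]
      ring) hη
  have h2 := H789.Rs_nonneg hE he hK (δ • J)
  unfold Rs at h2
  rw [qf_smul] at h1 h2
  unfold eE2 at h1
  rw [nC_smul] at h1
  simp only [nK_smul, oK_smul] at h1
  have e1 : ∑ k, δ ^ 2 * oK N l n c k = δ ^ 2 * ∑ k, oK N l n c k := by rw [Finset.mul_sum]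
  have e2 : ∑ k, (δ ^ 2 * nK N l n c k) ^ 2 = δ ^ 4 * ∑ k, nK N l n c k ^ 2 := by
    rw [Finset.mul_sum]
    exact Finset.sum_congr rfl fun k _ => by ring
  rw [e1, e2] at h1
  have h4 := scal hδ0 h1 h2
  rw [← hB] at h4
  exact h4.trans (by
    have h6 : δ ^ 2 ≤ δ := by
      rw [pow_two]
      exact mul_le_of_le_one_right hδ0.le hδ1
    have h7 : δ ^ 2 * (2 * B) ≤ δ * (2 * B) := mul_le_mul_of_nonneg_right h6 (by positivity)
    have h8 : δ * (2 * B) ≤ δ * (2 * (B + 1)) :=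
      mul_le_mul_of_nonneg_left (by linarith) hδ0.le
    exact add_le_add le_rfl (h7.trans (h8.trans hδB)))

end e2

section bare

variable {N : ℕ} [NeZero N] {b : ℝ}

/-- bare form, neutral model -/
theorem gmn_bare (hb : 0 ≤ b) {M : Matrix (Tor N) (Tor N) ℝ} {m : ℝ} (hM : MF M m) (x₀ : Tor N)
    (J w : Tor N → ℝ) (c : Tor N → Bool → ℝ) (hJ : ∀ x, J x = (ntr M m *ᵥ w) x + dvT c x) :
    qf (Gm (nM (wT b N) M m x₀)) J ≤ qf (ntr M m) w + b * nC c := by
  refine le_of_forall_pos_le_add fun ε hε => ?_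
  have hS : stiff 1 b ≤ b := stiff_one_le hb
  have hC := H513.nC_nonneg c
  have h1 := gmn_blocks (n := N) (l := 1) (by simp) hb le_rfl hM x₀ J w c hJ
    (η := ε / (b * nC c + 1)) (by have := mul_nonneg hb hC; positivity)
  simp only [oK_one, Finset.sum_const_zero, mul_zero, add_zero] at h1
  have h2 : (1 + ε / (b * nC c + 1)) * (stiff 1 b * nC c) ≤
      (1 + ε / (b * nC c + 1)) * (b * nC c) := by
    have := mul_nonneg hb hC
    exact mul_le_mul_of_nonneg_left (mul_le_mul_of_nonneg_right hS hC) (by positivity)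
  have h3 : ε / (b * nC c + 1) * (b * nC c) ≤ ε := by
    have := mul_nonneg hb hC
    rw [div_mul_eq_mul_div, div_le_iff₀ (by positivity)]
    nlinarith
  linarith

/-- **bare domination, neutral model** -/
theorem gmn_le_res (hb : 0 ≤ b) {M : Matrix (V N) (V N) ℝ} {m : ℝ} (hM : MF M m) (x₀ : V N)
    {κ : ℝ} (hκ : 0 ≤ κ) (hbκ : b * κ ≤ 1) {v : V N → ℝ} (hv : Neu v) :
    qf (Gm (nM (wT b N) M m x₀)) v ≤ qf (M + κ • lapM)⁻¹ v := by
  obtain ⟨m0, hm0, hc⟩ := hM.coer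
  set A : Matrix (V N) (V N) ℝ := M + κ • lapM with hA
  have hA0 : ∀ u, m0 * ∑ x, u x ^ 2 ≤ qf A u := by
    intro u
    rw [hA, qf_add_mat, qf_smul_mat, qf_lapM]
    have := mul_nonneg hκ (grd_nonneg u)
    linarith [hc u]
  have hrl : ∀ x : V N, ∑ y, lapM x y = 0 := by
    intro x
    have h1 := H340.lapM_mulVec (fun _ : V N => (1 : ℝ)) x
    simp only [Matrix.mulVec, dotProduct, mul_one] at h1
    rw [h1]
    ring
  have hAM : MF A m := by
    refine ⟨?_, fun x => ?_, m0, hm0, hA0⟩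
    · rw [hA, Matrix.transpose_add, Matrix.transpose_smul, hM.symm, ti_lapM.transpose]
    · simp only [hA, Matrix.add_apply, Matrix.smul_apply, smul_eq_mul, Finset.sum_add_distrib,
        hM.row, ← Finset.mul_sum, hrl, mul_zero, add_zero]
  have hdet : IsUnit A.det := hAM.det
  have hAu : IsUnit A := (Matrix.isUnit_iff_isUnit_det A).2 hdet
  set w : V N → ℝ := A⁻¹ *ᵥ v with hw
  have hwn : Neu w := hAM.neu_inv hv
  have h0 : A *ᵥ w = v := hAM.mulVec_inv v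
  have h1 := gmn_bare hb hM x₀ v w (ge κ w) (fun x => by
    rw [H963.ntr_of_neu M m hwn, dvT_ge, ← h0, hA, Matrix.add_mulVec, Matrix.smul_mulVec,
      Pi.add_apply, Pi.smul_apply, smul_eq_mul])
  rw [nC_ge, H963.qf_ntr_neu M m hwn] at h1
  have h3 : qf A w = qf A⁻¹ v := qf_of_mul hAu v
  rw [hA, qf_add_mat, qf_smul_mat, qf_lapM, ← hA] at h3
  have h4 : b * (κ ^ 2 * grd w) ≤ κ * grd w := by
    have := mul_nonneg hκ (grd_nonneg w)
    nlinarith
  linarith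

end bare

/-! ### the neutral cell covariance -/

variable {N l : ℕ} [NeZero N] [NeZero (N / l)] {b t τ : ℝ}

/-- **bare domination of the neutral cell symbols** -/
theorem Gnck_dom (hb : 0 ≤ b) (hl : l ∣ N) {κ : ℝ} (hτ : 0 < τ) (hτt : τ ≤ t)
    (hκ : 0 ≤ κ) (hbκ : b * κ ≤ 1) (k : V (N / l)) :
    sym (Gnc N l b t τ) k ≤ (τ + κ / (l : ℝ) ^ 2 * EE k)⁻¹ := by
  have hl0 : (0 : ℝ) < (l : ℝ) ^ 2 := by
    have : (0 : ℝ) < l := by exact_mod_cast l_pos hl
    positivity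
  have hκl : 0 ≤ κ / (l : ℝ) ^ 2 := div_nonneg hκ hl0.le
  by_cases hk : k = 0
  · rw [hk, H963.sym_Gnc_zero hl hb hτ hτt]
    exact (inv_pos.2 (op_pos hτ hκl 0)).le
  · have key : ∀ φ : V (N / l) → ℝ, Neu φ →
        qf (Gnc N l b t τ) φ ≤ qf (Rk τ (κ / (l : ℝ) ^ 2)) φ := by
      intro φ hφ
      rw [H963.qf_Gnc_neu hl b t τ hφ]
      have h1 := gmn_le_res hb (H963.mf_MC hl hτ hτt) (0 : V N) hκ hbκ (H963.neu_cobV_tr hl hφ)
      refine h1.trans (cob_res_le hl (MC_tr N l t τ) hτ (fun u => qf_MC_ge hl hτt u) hτ hκ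
        (fun f => ?_) φ)
      rw [qf_MC' hl]
      have h1 : 0 ≤ t * ∑ x, (f x - (cellP N l *ᵥ f) x) ^ 2 :=
        mul_nonneg (hτ.le.trans hτt) (Finset.sum_nonneg fun _ _ => sq_nonneg _)
      linarith
    rw [← sym_Rk hτ hκl]
    exact H963.sym_le_of_waves' (H963.ti_Gnc hb hl hτ hτt) (ti_Rk _ _)
      (key _ (H963.neu_cN hk)) (key _ (H963.neu_sN k))

/-- **the data of the cell channel, neutral model** -/
theorem dat_neu (hb : 0 ≤ b) (hl : l ∣ N) {κ : ℝ} (ht : 0 < t) (hκ : 0 ≤ κ) (hbκ : b * κ ≤ 1) :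
    Dat (Gnc N l b t t) ((κ / (l : ℝ) ^ 2) • lapM) t := by
  have hl0 : (0 : ℝ) < (l : ℝ) ^ 2 := by
    have : (0 : ℝ) < l := by exact_mod_cast l_pos hl
    positivity
  have hκl : 0 ≤ κ / (l : ℝ) ^ 2 := div_nonneg hκ hl0.le
  have hTI : TI (Gnc N l b t t) := H963.ti_Gnc hb hl ht le_rfl
  refine ⟨ht, ?_, psd_klap hκl, hTI.comm (ti_lapM.smul _), ?_⟩
  · refine psd_of hTI.transpose fun u => ?_
    have h := (qf_le_iff TI.zero hTI).2 (fun k => by
      rw [H864.sym_zero]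
      exact H963.sym_Gnc_nonneg hb hl ht le_rfl k) u
    have h0 : qf (0 : Matrix (V (N / l)) (V (N / l)) ℝ) u = 0 := by
      unfold qf
      simp
    rwa [h0] at h
  · have h := (qf_le_iff hTI (ti_Rk t (κ / (l : ℝ) ^ 2))).2 (fun k => by
      rw [sym_Rk ht hκl]
      exact Gnck_dom hb hl ht le_rfl hκ hbκ k)
    refine psd_of ((ti_Rk t _).sub hTI).transpose fun u => ?_
    have h1 := qf_add_mat ((t • (1 : Matrix (V (N / l)) (V (N / l)) ℝ) +
      (κ / (l : ℝ) ^ 2) • lapM)⁻¹ - Gnc N l b t t) (Gnc N l b t t) u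
    rw [sub_add_cancel] at h1
    have h2 := h u
    unfold Rk at h2
    linarith

theorem dat_neu' (hb : 0 < b) (hl : l ∣ N) (ht : 0 < t) :
    Dat (Gnc N l b t t) ((1 / b / (l : ℝ) ^ 2) • lapM) t :=
  dat_neu hb.le hl ht (by positivity) (by rw [mul_one_div_cancel hb.ne'])

/-- covariance of the cell source, neutral model (its zero mode is `t - s` : harmless white noise on
the constant mode, invisible to neutral test vectors) -/
def Sgn (N l : ℕ) [NeZero N] [NeZero (N / l)] (b t s : ℝ) : Matrix (V (N / l)) (V (N / l)) ℝ :=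
  As (Gnc N l b t t) t s

/-- **(WC2)**, neutral model -/
theorem Sgn_win (hb : 0 < b) (hl : l ∣ N) (ht : 0 < t) {s r : ℝ} (hr : 0 < r) (hrs : r ≤ s)
    (hst : s ≤ t / 2) (c : V (N / l)) (ρ : ℕ) (u : V (N / l) → ℝ)
    (hu : ∀ x, x ∉ bx c ρ → u x = 0) (hn : ∑ x, u x = 0) :
    qf (Sgn N l b t r - Sgn N l b t s) u ≤ 8 * (s / t) * wc N l ρ b t r * qf (Sgn N l b t s) u := by
  have h := win_box (dat_neu' hb hl ht) (kcell_pos hl hb) hr hrs hst c ρ u hu hn
  rwa [wk_cell hl hb hr] at h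

theorem Sgn_inc (hb : 0 < b) (hl : l ∣ N) (ht : 0 < t) {s r : ℝ} (hr : 0 < r) (hrs : r ≤ s)
    (hst : s ≤ t / 2) (c : V (N / l)) (ρ : ℕ) (u : V (N / l) → ℝ)
    (hu : ∀ x, x ∉ bx c ρ → u x = 0) (hn : ∑ x, u x = 0) :
    qf (Sgn N l b t r - Sgn N l b t s) u ≤ 4 * s * wc N l ρ b t r * ∑ x, u x ^ 2 := by
  have h := inc_box (dat_neu' hb hl ht) (kcell_pos hl hb) hr hrs hst c ρ u hu hn
  rwa [wk_cell hl hb hr] at h

theorem Sgn_up (hb : 0 < b) (hl : l ∣ N) (ht : 0 < t) {s : ℝ} (hs : 0 < s) (hst : s < t)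
    (c : V (N / l)) (ρ : ℕ) (u : V (N / l) → ℝ)
    (hu : ∀ x, x ∉ bx c ρ → u x = 0) (hn : ∑ x, u x = 0) :
    qf (Sgn N l b t s) u ≤ 2 * t * wc N l ρ b t s * ∑ x, u x ^ 2 := by
  have h := up_box (dat_neu' hb hl ht) (kcell_pos hl hb) hs hst c ρ u hu hn
  rwa [wk_cell hl hb hs] at h

theorem Sgn_up_all (hb : 0 < b) (hl : l ∣ N) (ht : 0 < t) {s : ℝ} (hs : 0 < s) (hst : s < t)
    (u : V (N / l) → ℝ) : qf (Sgn N l b t s) u ≤ t ^ 2 / s * ∑ x, u x ^ 2 :=
  up_all (dat_neu' hb hl ht) (kcell_pos hl hb).le hs hst u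

theorem Sgn_low (hb : 0 < b) (hl : l ∣ N) (ht : 0 < t) {s : ℝ} (hs : 0 < s) (hst : s < t)
    (u : V (N / l) → ℝ) : (t - s) * ∑ x, u x ^ 2 ≤ qf (Sgn N l b t s) u := by
  have h := (dat_neu' hb hl ht).low' hs hst u
  have hsq : sq u = ∑ x, u x ^ 2 := by
    unfold sq dotProduct
    exact Finset.sum_congr rfl fun x _ => by ring
  rw [hsq] at h
  unfold Sgn
  rwa [qf_qd]

end

end Vale.Agent.P159.H859
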