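import Vale.Agent.P159.H859.NeuE
import Vale.Agent.P159.H692.Neut

/-!
P159 / module GTR (helper859): traces and norms of block cut-offs of covariances on the cell torus.

* `ravg`, `sq_row`, `qf_row`: a site minus an average over sites at distance at most `D`.
* `gtr`: `∑_{x ∈ B} <r_x, S Q S r_x> ≤ |B| 2 D² (1 / (s n² κ) + (1 + log n) / κ²)` when
  `0 ≤ sym S ≤ (s + κ EE)⁻¹` and `Q ≤ 1`.
* `gtr1`: `∑_{x ∈ B} <r_x, S r_x> ≤ |B| 4 (1 / (s n²) + (1 + log n) / κ)`.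
* `op_fine`: `<(1 - P) v, S (1 - P) v> ≤ 16 l² / κ |v|²`, `P` = averages over cells of side `l`.
-/

set_option linter.unusedSectionVars false

namespace Vale.Agent.P159.H859

open Finset Matrix
open Vale.Agent.P159.TM.H764 (Gh cN sN dt EE grd Q nrm bx)
open Vale.Agent.P159.TM.Spec (V)
open Vale.Agent.P159.TM.SpecC (Tor wT)
open Vale.Agent.P159.H37
open Vale.Agent.P159.H864
open Vale.Agent.P159.H963 (Neu Gnc)

noncomputable section

section gen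

variable {n : ℕ} [NeZero n]

/-- a site minus an average -/
def ravg (x : V n) (a : V n → ℝ) : V n → ℝ := fun z => Pi.single (M := fun _ : V n => ℝ) x 1 z - a z

lemma ravg_eq (x : V n) {a : V n → ℝ} (ha : ∑ y, a y = 1) :
    ravg x a = ∑ y, a y • (Pi.single x 1 - Pi.single y 1 : V n → ℝ) := by
  funext z
  unfold ravg
  rw [Finset.sum_apply]
  simp only [Pi.smul_apply, Pi.sub_apply, smul_eq_mul, mul_sub, Finset.sum_sub_distrib]
  rw [← Finset.sum_mul, ha, one_mul]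
  congr 1
  simp [Pi.single_apply]

lemma sum_ravg (x : V n) {a : V n → ℝ} (ha : ∑ y, a y = 1) : ∑ z, ravg x a z = 0 := by
  unfold ravg
  rw [Finset.sum_sub_distrib, ha]
  simp

/-- convexity -/
lemma sq_avg_le {I : Type*} [Fintype I] (T : Matrix I (V n) ℝ) (x : V n) {a : V n → ℝ}
    (ha0 : ∀ y, 0 ≤ a y) (ha : ∑ y, a y = 1) {K : ℝ} (hK : 0 ≤ K)
    (h : ∀ y, a y ≠ 0 → sq (T *ᵥ (Pi.single x 1 - Pi.single y 1)) ≤ K) :
    sq (T *ᵥ ravg x a) ≤ K := by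
  have e : T *ᵥ ravg x a = ∑ y ∈ univ.filter (fun y => a y ≠ 0),
      a y • (T *ᵥ (Pi.single x 1 - Pi.single y 1 : V n → ℝ)) := by
    rw [ravg_eq x ha, Matrix.mulVec_sum, Finset.sum_filter]
    refine Finset.sum_congr rfl fun y _ => ?_
    rw [Matrix.mulVec_smul]
    split_ifs with h0
    · rfl
    · push Not at h0
      rw [h0, zero_smul]
  rw [e]
  refine (sq_sum_le _ _ _ hK fun y hy => h y (Finset.mem_filter.1 hy).2).trans ?_
  have h1 : ∑ y ∈ univ.filter (fun y => a y ≠ 0), |a y| = 1 := by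
    rw [← ha, Finset.sum_filter]
    refine Finset.sum_congr rfl fun y _ => ?_
    split_ifs with h0
    · exact abs_of_nonneg (ha0 y)
    · push Not at h0
      exact h0.symm
  rw [h1]
  linarith

/-- the resolvent on a site minus an average -/
theorem sq_row {r κ : ℝ} (hr : 0 < r) (hκ : 0 < κ) (x : V n) {a : V n → ℝ}
    (ha0 : ∀ y, 0 ≤ a y) (ha : ∑ y, a y = 1) {D : ℝ}
    (hD : ∀ y, a y ≠ 0 → (nrm (y - x) : ℝ) ≤ D) :
    sq (Rk r κ *ᵥ ravg x a) ≤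
      2 * D ^ 2 * (1 / (r * (n : ℝ) ^ 2 * κ) + (1 + Real.log n) / κ ^ 2) := by
  have hn : (0 : ℝ) < n := by exact_mod_cast Nat.pos_of_ne_zero (NeZero.ne n)
  have hlog := log_nn n
  refine sq_avg_le _ x ha0 ha (by positivity) fun y hy => ?_
  refine (sq_diff_le hr hκ x y).trans ?_
  have h1 : (nrm (y - x) : ℝ) ^ 2 ≤ D ^ 2 := pow_le_pow_left₀ (Nat.cast_nonneg _) (hD y hy) 2
  have h2 : gd n r κ / κ ≤ 1 / (r * (n : ℝ) ^ 2 * κ) + (1 + Real.log n) / κ ^ 2 := by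
    rw [div_le_iff₀ hκ]
    refine (gd_le (n := n) hr hκ).trans (le_of_eq ?_)
    field_simp
  have h3 : 0 ≤ gd n r κ / κ := div_nonneg (gd_nonneg hr hκ.le) hκ.le
  exact mul_le_mul (mul_le_mul_of_nonneg_left h1 (by norm_num)) h2 h3 (by positivity)

/-- the form of a positive semidefinite matrix as a square -/
lemma qf_sq {I : Type*} [Fintype I] [DecidableEq I] {S : Matrix I I ℝ} (hS : S.PosSemidef) :
    ∃ T : Matrix I I ℝ, ∀ u, qf S u = sq (T *ᵥ u) := by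
  obtain ⟨A, hA⟩ := exists_gram hS
  refine ⟨Aᵀ, fun u => ?_⟩
  rw [← hA]
  have := qf_gram Aᵀ u
  rw [Matrix.transpose_transpose] at this
  rw [this]
  unfold sq dotProduct
  exact Finset.sum_congr rfl fun x _ => by ring

lemma qf_Rk_single {r κ : ℝ} (x : V n) :
    qf (Rk r κ : Matrix (V n) (V n) ℝ) (Pi.single x 1) = gd n r κ := by
  unfold qf gd
  have h : (Rk r κ : Matrix (V n) (V n) ℝ) x x = (Rk r κ : Matrix (V n) (V n) ℝ) 0 0 := by
    rw [(ti_Rk r κ).eq x x, sub_self]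
  simp [Pi.single_apply, h]

/-- the form of the resolvent on a site minus an average -/
theorem qf_row {r κ : ℝ} (hr : 0 < r) (hκ : 0 < κ) (x : V n) {a : V n → ℝ}
    (ha0 : ∀ y, 0 ≤ a y) (ha : ∑ y, a y = 1) :
    qf (Rk r κ : Matrix (V n) (V n) ℝ) (ravg x a) ≤
      4 * (1 / (r * (n : ℝ) ^ 2) + (1 + Real.log n) / κ) := by
  have hn : (0 : ℝ) < n := by exact_mod_cast Nat.pos_of_ne_zero (NeZero.ne n)
  have hlog := log_nn n
  obtain ⟨T, hT⟩ := qf_sq (pd_Rk (n := n) hr hκ.le).posSemidef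
  rw [hT]
  refine sq_avg_le _ x ha0 ha (by positivity) fun y hy => ?_
  have e : T *ᵥ (Pi.single x 1 - Pi.single y 1 : V n → ℝ) =
      T *ᵥ Pi.single x 1 + (-1 : ℝ) • (T *ᵥ Pi.single y 1) := by
    rw [Matrix.mulVec_sub, neg_smul, one_smul, sub_eq_add_neg]
  rw [e]
  refine (sq_add_le _ _).trans ?_
  rw [sq_smul, ← hT, ← hT, qf_Rk_single, qf_Rk_single]
  have := gd_le (n := n) hr hκ
  linarith

/-- comparison of the square by symbols -/
lemma sq_mulVec_le {S : Matrix (V n) (V n) ℝ} (hS : TI S) {r κ : ℝ} (hr : 0 < r) (hκ : 0 ≤ κ)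
    (h0 : ∀ k, 0 ≤ sym S k) (h1 : ∀ k, sym S k ≤ (r + κ * EE k)⁻¹) (u : V n → ℝ) :
    sq (S *ᵥ u) ≤ sq (Rk r κ *ᵥ u) := by
  have hR := ti_Rk (n := n) r κ
  have h := (qf_le_iff (hS.mul hS) (hR.mul hR)).2 (fun k => by
    rw [sym_mul hS hS, sym_mul hR hR, sym_Rk hr hκ]
    exact mul_le_mul (h1 k) (h1 k) (h0 k) (inv_pos.2 (op_pos hr hκ k)).le) u
  rwa [qf_qd, qf_qd, qd_mul_self hS.transpose, qd_mul_self hR.transpose] at h

lemma qf_sandwich {I : Type*} [Fintype I] [DecidableEq I] {S W : Matrix I I ℝ} (hS : Sᵀ = S)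
    (hW : ∀ u, qf W u ≤ ∑ x, u x ^ 2) (u : I → ℝ) : qf (S * W * S) u ≤ sq (S *ᵥ u) := by
  have e : qf (S * W * S) u = qf W (S *ᵥ u) := by
    rw [qf_eq, qf_eq, ← Matrix.mulVec_mulVec, ← Matrix.mulVec_mulVec, Matrix.dotProduct_mulVec u S,
      ← Matrix.mulVec_transpose, hS]
  rw [e]
  refine (hW _).trans (le_of_eq ?_)
  unfold sq dotProduct
  exact Finset.sum_congr rfl fun x _ => by ring

/-- averaging kernel on a set of sites -/
structure Avg (A : Matrix (V n) (V n) ℝ) (B : Finset (V n)) (D : ℝ) : Prop where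
  nn : ∀ x y, 0 ≤ A x y
  one : ∀ x ∈ B, ∑ y, A x y = 1
  dist : ∀ x ∈ B, ∀ y, A x y ≠ 0 → (nrm (y - x) : ℝ) ≤ D

/-- **GTR** -/
theorem gtr {S W : Matrix (V n) (V n) ℝ} (hS : TI S) {r κ : ℝ} (hr : 0 < r) (hκ : 0 < κ)
    (h0 : ∀ k, 0 ≤ sym S k) (h1 : ∀ k, sym S k ≤ (r + κ * EE k)⁻¹)
    (hW : ∀ u, qf W u ≤ ∑ x, u x ^ 2) {A : Matrix (V n) (V n) ℝ} {B : Finset (V n)} {D : ℝ}
    (hA : Avg A B D) :
    ∑ x ∈ B, qf (S * W * S) (ravg x (A x)) ≤
      B.card * (2 * D ^ 2 * (1 / (r * (n : ℝ) ^ 2 * κ) + (1 + Real.log n) / κ ^ 2)) := by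
  have h : ∀ x ∈ B, qf (S * W * S) (ravg x (A x)) ≤
      2 * D ^ 2 * (1 / (r * (n : ℝ) ^ 2 * κ) + (1 + Real.log n) / κ ^ 2) := fun x hx =>
    (qf_sandwich hS.transpose hW _).trans ((sq_mulVec_le hS hr hκ.le h0 h1 _).trans
      (sq_row hr hκ x (hA.nn x) (hA.one x hx) (hA.dist x hx)))
  refine (Finset.sum_le_sum h).trans (le_of_eq ?_)
  rw [Finset.sum_const, nsmul_eq_mul]

/-- first order version -/
theorem gtr1 {S : Matrix (V n) (V n) ℝ} (hS : TI S) {r κ : ℝ} (hr : 0 < r) (hκ : 0 < κ)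
    (h1 : ∀ k, sym S k ≤ (r + κ * EE k)⁻¹) {A : Matrix (V n) (V n) ℝ} {B : Finset (V n)} {D : ℝ}
    (hA : Avg A B D) :
    ∑ x ∈ B, qf S (ravg x (A x)) ≤
      B.card * (4 * (1 / (r * (n : ℝ) ^ 2) + (1 + Real.log n) / κ)) := by
  have h2 : ∀ u, qf S u ≤ qf (Rk r κ) u := (qf_le_iff hS (ti_Rk r κ)).2 fun k => by
    rw [sym_Rk hr hκ.le]
    exact h1 k
  have h : ∀ x ∈ B, qf S (ravg x (A x)) ≤
      4 * (1 / (r * (n : ℝ) ^ 2) + (1 + Real.log n) / κ) := fun x hx =>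
    (h2 _).trans (qf_row hr hκ x (hA.nn x) (hA.one x hx))
  refine (Finset.sum_le_sum h).trans (le_of_eq ?_)
  rw [Finset.sum_const, nsmul_eq_mul]

/-! ### traces -/

/-- trace of a conjugated form as a sum over rows -/
lemma trace_conj {I : Type*} [Fintype I] (L : Matrix I (V n) ℝ) (S : Matrix (V n) (V n) ℝ) :
    (L * S * Lᵀ).trace = ∑ i, qf S (L i) := by
  unfold Matrix.trace
  refine Finset.sum_congr rfl fun i _ => ?_
  rw [Matrix.diag_apply, Matrix.mul_apply]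
  simp only [Matrix.mul_apply, Matrix.transpose_apply, Finset.sum_mul]
  unfold qf
  rw [Finset.sum_comm]

/-- restriction to a set of sites -/
def dB (B : Finset (V n)) : Matrix (V n) (V n) ℝ := Matrix.diagonal fun x => if x ∈ B then 1 else 0

lemma dB_row (B : Finset (V n)) (A : Matrix (V n) (V n) ℝ) (x : V n) :
    (dB B * (1 - A)) x = if x ∈ B then ravg x (A x) else 0 := by
  funext z
  unfold dB
  rw [Matrix.diagonal_mul]
  split_ifs with h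
  · rw [one_mul, Matrix.sub_apply]
    unfold ravg
    rw [Matrix.one_apply, Pi.single_apply]
    congr 1
    by_cases hx : x = z
    · rw [if_pos hx, if_pos hx.symm]
    · rw [if_neg hx, if_neg fun h => hx h.symm]
  · rw [zero_mul]
    rfl

/-- trace of the block cut-off `1_B (1 - A)` -/
lemma trace_dB (B : Finset (V n)) (A S : Matrix (V n) (V n) ℝ) :
    (dB B * (1 - A) * S * (dB B * (1 - A))ᵀ).trace = ∑ x ∈ B, qf S (ravg x (A x)) := by
  rw [trace_conj]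
  simp_rw [dB_row]
  rw [← Finset.sum_filter_add_sum_filter_not univ (fun x => x ∈ B)]
  have h1 : ∑ x ∈ univ.filter (fun x => ¬ x ∈ B), qf S (if x ∈ B then ravg x (A x) else 0) = 0 := by
    refine Finset.sum_eq_zero fun x hx => ?_
    rw [if_neg (Finset.mem_filter.1 hx).2, qf_zero_vec]
  rw [h1, add_zero, Finset.filter_mem_eq_inter, Finset.univ_inter]
  exact Finset.sum_congr rfl fun x hx => by rw [if_pos hx]

end gen

/-! ### blocks = cells of a torus -/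

section blocks

variable {n l : ℕ} [NeZero n] [NeZero (n / l)]

lemma natAbs_valMinAbs_cast_le (z : ℤ) : ((z : ZMod n)).valMinAbs.natAbs ≤ z.natAbs :=
  ZMod.natAbs_min_of_le_div_two n _ z (by simp) (ZMod.natAbs_valMinAbs_le _)

lemma cl1_dist (hl : l ∣ n) {a b : ZMod n} (h : (cl1 a : ZMod (n / l)) = cl1 b) :
    (b - a).valMinAbs.natAbs ≤ l := by
  have h1 : a.val / l = b.val / l := by rw [← cl1_val hl a, ← cl1_val hl b, h]
  have e : b - a = (((b.val : ℤ) - (a.val : ℤ) : ℤ) : ZMod n) := by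
    push_cast
    rw [ZMod.natCast_zmod_val, ZMod.natCast_zmod_val]
  rw [e]
  refine (natAbs_valMinAbs_cast_le _).trans ?_
  have hl0 : 0 < l := l_pos hl
  have h2 := Nat.div_add_mod a.val l
  have h3 := Nat.div_add_mod b.val l
  have h4 := Nat.mod_lt a.val hl0
  have h5 := Nat.mod_lt b.val hl0
  rw [h1] at h2
  omega

lemma cl_dist (hl : l ∣ n) {x y : V n} (h : (cl x : V (n / l)) = cl y) : nrm (y - x) ≤ l := by
  unfold nrm
  refine max_le ?_ ?_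
  · exact cl1_dist hl (congrArg Prod.fst h)
  · exact cl1_dist hl (congrArg Prod.snd h)

/-- averages over cells -/
lemma avg_cellP (hl : l ∣ n) (B : Finset (V n)) : Avg (cellP n l) B l where
  nn := cellP_nonneg hl
  one x _ := H963.cellP_ones hl x
  dist x _ y hy := by
    have h : (cl x : V (n / l)) = cl y := by
      by_contra h
      rw [cellP_apply hl, if_neg h] at hy
      exact hy rfl
    exact_mod_cast cl_dist hl h

lemma cellP_eq_Pc (hl : l ∣ n) (u : V n → ℝ) (x : V n) :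
    (cellP n l *ᵥ u) x = H692.Pc (n / l) l u x := by
  rw [cellP_mulVec hl]
  unfold H692.Pc H692.av
  congr 1

/-- Poincare inequality, letters `cellP`, `grd` -/
lemma poin_cellP (hl : l ∣ n) (u : V n → ℝ) :
    ∑ x, (u x - (cellP n l *ᵥ u) x) ^ 2 ≤ 16 * (l : ℝ) ^ 2 * grd u := by
  have hN : n = n / l * l := (Nat.div_mul_cancel hl).symm
  have : NeZero l := ⟨(l_pos hl).ne'⟩
  have h := H692.poin hN u
  simp_rw [cellP_eq_Pc hl]
  refine h.trans (le_of_eq ?_)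
  congr 1
  unfold TM.H859.dirE grd Q
  rw [Finset.sum_add_distrib]

/-- **operator norm of the fine part** -/
theorem op_fine (hl : l ∣ n) {S : Matrix (V n) (V n) ℝ} (hS : TI S) {r κ : ℝ} (hr : 0 < r)
    (hκ : 0 < κ) (h1 : ∀ k, sym S k ≤ (r + κ * EE k)⁻¹) (v : V n → ℝ) :
    qf S ((1 - cellP n l) *ᵥ v) ≤ 16 * (l : ℝ) ^ 2 / κ * ∑ x, v x ^ 2 := by
  have h2 : ∀ u, qf S u ≤ qf (Rk r κ) u := (qf_le_iff hS (ti_Rk r κ)).2 fun k => by
    rw [sym_Rk hr hκ.le]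
    exact h1 k
  refine (h2 _).trans ?_
  set P : Matrix (V n) (V n) ℝ := cellP n l with hP
  set w : V n → ℝ := (1 - P) *ᵥ v with hw
  set y : V n → ℝ := (Rk r κ : Matrix (V n) (V n) ℝ) *ᵥ w with hy
  have hu : IsUnit (r • (1 : Matrix (V n) (V n) ℝ) + κ • lapM) :=
    (pd_add (psd_klap hκ.le) hr).isUnit
  have h3 : qf (r • (1 : Matrix (V n) (V n) ℝ) + κ • lapM) y = qf (Rk r κ) w := qf_of_mul hu w
  rw [qf_Rk_inv] at h3
  have h4 : qf (Rk r κ : Matrix (V n) (V n) ℝ) w = v ⬝ᵥ ((1 - P) *ᵥ y) := by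
    rw [qf_eq, ← hy, hw, Matrix.dotProduct_mulVec v, ← Matrix.mulVec_transpose,
      Matrix.transpose_sub, Matrix.transpose_one, hP, cellP_tr]
  have h5 : (v ⬝ᵥ ((1 - P) *ᵥ y)) ^ 2 ≤ (∑ x, v x ^ 2) * ∑ x, ((1 - P) *ᵥ y) x ^ 2 := by
    have := Finset.sum_mul_sq_le_sq_mul_sq Finset.univ v ((1 - P) *ᵥ y)
    unfold dotProduct
    exact this
  have h6 : ∑ x, ((1 - P) *ᵥ y) x ^ 2 ≤ 16 * (l : ℝ) ^ 2 * grd y := by
    refine le_trans (le_of_eq ?_) (poin_cellP hl y)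
    refine Finset.sum_congr rfl fun x _ => ?_
    rw [Matrix.sub_mulVec, Matrix.one_mulVec]
    rfl
  set X : ℝ := qf (Rk r κ : Matrix (V n) (V n) ℝ) w with hX
  have h7 : κ * grd y ≤ X := by
    rw [← h3]
    have : 0 ≤ r * ∑ x, y x ^ 2 := mul_nonneg hr.le (Finset.sum_nonneg fun _ _ => sq_nonneg _)
    linarith
  have hV : 0 ≤ ∑ x, v x ^ 2 := Finset.sum_nonneg fun _ _ => sq_nonneg _
  have hX0 : 0 ≤ X := le_trans (mul_nonneg hκ.le (grd_nonneg y)) h7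
  rw [← h4] at h5
  have h8 : X ^ 2 ≤ (16 * (l : ℝ) ^ 2 / κ * ∑ x, v x ^ 2) * X := by
    calc X ^ 2 ≤ (∑ x, v x ^ 2) * ∑ x, ((1 - P) *ᵥ y) x ^ 2 := h5
      _ ≤ (∑ x, v x ^ 2) * (16 * (l : ℝ) ^ 2 * grd y) := mul_le_mul_of_nonneg_left h6 hV
      _ = (16 * (l : ℝ) ^ 2 / κ * ∑ x, v x ^ 2) * (κ * grd y) := by field_simp
      _ ≤ _ := mul_le_mul_of_nonneg_left h7 (by positivity)
  rcases hX0.eq_or_lt with h9 | h9
  · rw [← h9]
    positivity
  · rw [pow_two] at h8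
    exact le_of_mul_le_mul_right h8 h9

/-- the same after restriction to a set of sites -/
theorem op_fine_dB (hl : l ∣ n) {S : Matrix (V n) (V n) ℝ} (hS : TI S) {r κ : ℝ} (hr : 0 < r)
    (hκ : 0 < κ) (h1 : ∀ k, sym S k ≤ (r + κ * EE k)⁻¹) (B : Finset (V n)) (v : V n → ℝ) :
    qf (dB B * (1 - cellP n l) * S * (dB B * (1 - cellP n l))ᵀ) v ≤
      16 * (l : ℝ) ^ 2 / κ * ∑ x, v x ^ 2 := by
  rw [qf_conj, Matrix.transpose_mul, ← Matrix.mulVec_mulVec]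
  have e : (1 - cellP n l)ᵀ = 1 - cellP n l := by
    rw [Matrix.transpose_sub, Matrix.transpose_one, cellP_tr]
  rw [e]
  refine (op_fine hl hS hr hκ h1 _).trans (mul_le_mul_of_nonneg_left ?_ (by positivity))
  refine Finset.sum_le_sum fun x _ => ?_
  unfold dB
  rw [Matrix.diagonal_transpose, Matrix.mulVec_diagonal]
  split_ifs
  · rw [one_mul]
  · rw [zero_mul]
    nlinarith [sq_nonneg (v x)]

end blocks

/-! ### the covariances of the model -/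

section model

variable {N l : ℕ} [NeZero N] [NeZero (N / l)] {b t s : ℝ}

lemma Gck_nn (hb : 0 < b) (hl : l ∣ N) (hs : 0 < s) (hst : s ≤ t) (k : V (N / l)) :
    0 ≤ sym (Gc l (GM N l b t s)) k := (Gck_pos hb hl hs hst k).le

lemma const2 (hl : l ∣ N) (hb : 0 < b) (hs : 0 < s) :
    1 / (s * ((N / l : ℕ) : ℝ) ^ 2 * (1 / b / (l : ℝ) ^ 2)) +
      (1 + Real.log ((N / l : ℕ) : ℝ)) / (1 / b / (l : ℝ) ^ 2) ^ 2 =
      (l : ℝ) ^ 4 * (b / (s * (N : ℝ) ^ 2) + b ^ 2 * (1 + Real.log ((N / l : ℕ) : ℝ))) := by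
  have h0 : (0 : ℝ) < l := by exact_mod_cast l_pos hl
  have hN : (0 : ℝ) < N := by exact_mod_cast NeZero.pos N
  have e : ((N / l : ℕ) : ℝ) = (N : ℝ) / l := by rw [Nat.cast_div hl h0.ne']
  generalize Real.log ((N / l : ℕ) : ℝ) = q
  rw [e]
  field_simp

lemma const1 (hl : l ∣ N) (hb : 0 < b) (hs : 0 < s) :
    1 / (s * ((N / l : ℕ) : ℝ) ^ 2) + (1 + Real.log ((N / l : ℕ) : ℝ)) / (1 / b / (l : ℝ) ^ 2) =
      (l : ℝ) ^ 2 * (1 / (s * (N : ℝ) ^ 2) + b * (1 + Real.log ((N / l : ℕ) : ℝ))) := by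
  have h0 : (0 : ℝ) < l := by exact_mod_cast l_pos hl
  have hN : (0 : ℝ) < N := by exact_mod_cast NeZero.pos N
  have e : ((N / l : ℕ) : ℝ) = (N : ℝ) / l := by rw [Nat.cast_div hl h0.ne']
  generalize Real.log ((N / l : ℕ) : ℝ) = q
  rw [e]
  field_simp

/-- **GTR**, integer model, prior mass `MC N l t s`; `B` a set of at most `(ξ / l)²` cells,
averages over cells at distance at most `ξ / l` -/
theorem gtr_int (hb : 0 < b) (hl : l ∣ N) (hs : 0 < s) (hst : s ≤ t)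
    {W : Matrix (V (N / l)) (V (N / l)) ℝ} (hW : ∀ u, qf W u ≤ ∑ x, u x ^ 2)
    {A : Matrix (V (N / l)) (V (N / l)) ℝ} {B : Finset (V (N / l))} {D : ℝ} (hA : Avg A B D)
    {ξ : ℝ} (hD0 : 0 ≤ D) (hD : D * l ≤ ξ) (hB : B.card * (l : ℝ) ^ 2 ≤ ξ ^ 2) :
    ∑ x ∈ B, qf (Gc l (GM N l b t s) * W * Gc l (GM N l b t s)) (ravg x (A x)) ≤
      2 * ξ ^ 4 * (b / (s * (N : ℝ) ^ 2) + b ^ 2 * (1 + Real.log ((N / l : ℕ) : ℝ))) := by
  have h := gtr (ti_Gc_GM hl b t s) hs (kcell_pos hl hb) (Gck_nn hb hl hs hst)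
    (fun k => Gck_dom hb.le hl hs hst (κ := 1 / b) (by positivity)
      (by rw [mul_one_div_cancel hb.ne']) k) hW hA
  refine h.trans ?_
  rw [const2 hl hb hs]
  have hlog := log_nn (N / l)
  have hN : (0 : ℝ) < N := by exact_mod_cast NeZero.pos N
  have hq : 0 ≤ b / (s * (N : ℝ) ^ 2) + b ^ 2 * (1 + Real.log ((N / l : ℕ) : ℝ)) := by positivity
  have h1 : (D * l) ^ 2 ≤ ξ ^ 2 := pow_le_pow_left₀ (by positivity) hD 2
  have h2 : (B.card * (l : ℝ) ^ 2) * (D * l) ^ 2 ≤ ξ ^ 2 * ξ ^ 2 :=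
    mul_le_mul hB h1 (by positivity) (by positivity)
  calc (B.card : ℝ) * (2 * D ^ 2 * ((l : ℝ) ^ 4 *
        (b / (s * (N : ℝ) ^ 2) + b ^ 2 * (1 + Real.log ((N / l : ℕ) : ℝ)))))
      = 2 * ((B.card * (l : ℝ) ^ 2) * (D * l) ^ 2) *
        (b / (s * (N : ℝ) ^ 2) + b ^ 2 * (1 + Real.log ((N / l : ℕ) : ℝ))) := by ring
    _ ≤ 2 * (ξ ^ 2 * ξ ^ 2) *
        (b / (s * (N : ℝ) ^ 2) + b ^ 2 * (1 + Real.log ((N / l : ℕ) : ℝ))) :=
        mul_le_mul_of_nonneg_right (by linarith) hq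
    _ = _ := by ring

/-- **GTR**, neutral model -/
theorem gtr_neu (hb : 0 < b) (hl : l ∣ N) (hs : 0 < s) (hst : s ≤ t)
    {W : Matrix (V (N / l)) (V (N / l)) ℝ} (hW : ∀ u, qf W u ≤ ∑ x, u x ^ 2)
    {A : Matrix (V (N / l)) (V (N / l)) ℝ} {B : Finset (V (N / l))} {D : ℝ} (hA : Avg A B D)
    {ξ : ℝ} (hD0 : 0 ≤ D) (hD : D * l ≤ ξ) (hB : B.card * (l : ℝ) ^ 2 ≤ ξ ^ 2) :
    ∑ x ∈ B, qf (Gnc N l b t s * W * Gnc N l b t s) (ravg x (A x)) ≤
      2 * ξ ^ 4 * (b / (s * (N : ℝ) ^ 2) + b ^ 2 * (1 + Real.log ((N / l : ℕ) : ℝ))) := by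
  have h := gtr (H963.ti_Gnc hb.le hl hs hst) hs (kcell_pos hl hb)
    (H963.sym_Gnc_nonneg hb.le hl hs hst)
    (fun k => Gnck_dom hb.le hl hs hst (κ := 1 / b) (by positivity)
      (by rw [mul_one_div_cancel hb.ne']) k) hW hA
  refine h.trans ?_
  rw [const2 hl hb hs]
  have hlog := log_nn (N / l)
  have hN : (0 : ℝ) < N := by exact_mod_cast NeZero.pos N
  have hq : 0 ≤ b / (s * (N : ℝ) ^ 2) + b ^ 2 * (1 + Real.log ((N / l : ℕ) : ℝ)) := by positivity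
  have h1 : (D * l) ^ 2 ≤ ξ ^ 2 := pow_le_pow_left₀ (by positivity) hD 2
  have h2 : (B.card * (l : ℝ) ^ 2) * (D * l) ^ 2 ≤ ξ ^ 2 * ξ ^ 2 :=
    mul_le_mul hB h1 (by positivity) (by positivity)
  calc (B.card : ℝ) * (2 * D ^ 2 * ((l : ℝ) ^ 4 *
        (b / (s * (N : ℝ) ^ 2) + b ^ 2 * (1 + Real.log ((N / l : ℕ) : ℝ)))))
      = 2 * ((B.card * (l : ℝ) ^ 2) * (D * l) ^ 2) *
        (b / (s * (N : ℝ) ^ 2) + b ^ 2 * (1 + Real.log ((N / l : ℕ) : ℝ))) := by ring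
    _ ≤ 2 * (ξ ^ 2 * ξ ^ 2) *
        (b / (s * (N : ℝ) ^ 2) + b ^ 2 * (1 + Real.log ((N / l : ℕ) : ℝ))) :=
        mul_le_mul_of_nonneg_right (by linarith) hq
    _ = _ := by ring

/-- the bare covariance on the cells -/
abbrev Gbc (N l : ℕ) [NeZero N] [NeZero (N / l)] (b s : ℝ) : Matrix (V (N / l)) (V (N / l)) ℝ :=
  Rk s (1 / b / (l : ℝ) ^ 2)

/-- trace of the bare covariance on a block -/
theorem gtr_bare (hb : 0 < b) (hl : l ∣ N) (hs : 0 < s)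
    {A : Matrix (V (N / l)) (V (N / l)) ℝ} {B : Finset (V (N / l))} {D : ℝ} (hA : Avg A B D)
    {ξ : ℝ} (hB : B.card * (l : ℝ) ^ 2 ≤ ξ ^ 2) :
    ∑ x ∈ B, qf (Gbc N l b s) (ravg x (A x)) ≤
      4 * ξ ^ 2 * (1 / (s * (N : ℝ) ^ 2) + b * (1 + Real.log ((N / l : ℕ) : ℝ))) := by
  have hk := kcell_pos hl hb
  have h := gtr1 (ti_Rk (n := N / l) s (1 / b / (l : ℝ) ^ 2)) hs hk
    (fun k => le_of_eq (sym_Rk hs hk.le k)) hA
  refine h.trans ?_
  rw [const1 hl hb hs]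
  have hlog := log_nn (N / l)
  have hN : (0 : ℝ) < N := by exact_mod_cast NeZero.pos N
  have hq : 0 ≤ 1 / (s * (N : ℝ) ^ 2) + b * (1 + Real.log ((N / l : ℕ) : ℝ)) := by positivity
  calc (B.card : ℝ) * (4 * ((l : ℝ) ^ 2 *
        (1 / (s * (N : ℝ) ^ 2) + b * (1 + Real.log ((N / l : ℕ) : ℝ)))))
      = 4 * (B.card * (l : ℝ) ^ 2) *
        (1 / (s * (N : ℝ) ^ 2) + b * (1 + Real.log ((N / l : ℕ) : ℝ))) := by ring
    _ ≤ _ := mul_le_mul_of_nonneg_right (by linarith) hq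

/-- norm of the bare covariance on the fine part: sub-blocks of `l₀ × l₀` cells, side `l₀ l` -/
theorem op_bare (hb : 0 < b) (hl : l ∣ N) (hs : 0 < s) {l₀ : ℕ} [NeZero (N / l / l₀)]
    (hl₀ : l₀ ∣ N / l) (v : V (N / l) → ℝ) :
    qf (Gbc N l b s) ((1 - cellP (N / l) l₀) *ᵥ v) ≤
      16 * b * ((l₀ : ℝ) * l) ^ 2 * ∑ x, v x ^ 2 := by
  have hk := kcell_pos hl hb
  have h0 : (0 : ℝ) < l := by exact_mod_cast l_pos hl
  have h := op_fine hl₀ (ti_Rk (n := N / l) s (1 / b / (l : ℝ) ^ 2)) hs hk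
    (fun k => le_of_eq (sym_Rk hs hk.le k)) v
  refine h.trans (le_of_eq ?_)
  field_simp

end model

end

end Vale.Agent.P159.H859
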