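import Vale.Agent.P159.H859.Gtr
import Vale.Agent.P159.H447.Cg1

/-!
P159 / module COVW (helper859): the covariances of the window laws, in the letters of CONTRG.

Window cut on the cells: `Lw w w₀ u = 1_w (u - mean of u over w₀)`. For a covariance
`As G t s = A Aᵀ` and an increment `B Bᵀ = As G t r - As G t s`, any matrix `C`:

* `cov_inc`  : `8 (s / t) wk • A' A'ᵀ - H Hᵀ ≥ 0`, `A' = C Lw A`, `H = C Lw B`;
* `cov_up`   : `A' A'ᵀ ≤ 2 t wk (2 + 2 |w| / |w₀|) • C 1_w Cᵀ`;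
* `cov_low`  : `(t - s) • C 1_B Cᵀ ≤ A' A'ᵀ` for `B ⊆ w \ w₀`;
* `bump_vec` : `C u = A' a` with `|a|² ≤ |u|² / (t - s)`, `u` supported in `w`, sum `0` over `w₀`;
* `cov_add`  : `A'' A''ᵀ = A' A'ᵀ + H Hᵀ`;
* `K4S_family` : `∑_w K4S (C 1_w Cᵀ) (C 1_w Cᵀ) ≤ K4S (C Cᵀ) (C Cᵀ)` for disjoint `w`.
-/

set_option linter.unusedSectionVars false

namespace Vale.Agent.P159.H859

open Finset Matrix
open Vale.Agent.P159.TM.H764 (Gh cN sN dt EE grd Q nrm bx)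
open Vale.Agent.P159.TM.Spec (V)
open Vale.Agent.P159.TM.H104 (EM)
open Vale.Agent.P159.H37
open Vale.Agent.P159.H864

noncomputable section

variable {n : ℕ} [NeZero n]

/-- uniform average over `w₀` (all rows equal) -/
def Aw (w₀ : Finset (V n)) : Matrix (V n) (V n) ℝ :=
  Matrix.of fun _ y => if y ∈ w₀ then ((w₀.card : ℝ))⁻¹ else 0

/-- the window cut -/
def Lw (w w₀ : Finset (V n)) : Matrix (V n) (V n) ℝ := dB w * (1 - Aw w₀)

lemma sum_Aw {w₀ : Finset (V n)} (h : w₀.Nonempty) (x : V n) : ∑ y, Aw w₀ x y = 1 := by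
  have hc : (w₀.card : ℝ) ≠ 0 := by exact_mod_cast h.card_pos.ne'
  unfold Aw
  simp only [Matrix.of_apply, Finset.sum_ite_mem, Finset.univ_inter, Finset.sum_const,
    nsmul_eq_mul]
  exact mul_inv_cancel₀ hc

lemma Aw_nonneg (w₀ : Finset (V n)) (x y : V n) : 0 ≤ Aw w₀ x y := by
  unfold Aw
  simp only [Matrix.of_apply]
  split_ifs
  · positivity
  · exact le_rfl

lemma avg_Aw {w w₀ : Finset (V n)} (h : w₀.Nonempty) {D : ℝ}
    (hD : ∀ x ∈ w, ∀ y ∈ w₀, (nrm (y - x) : ℝ) ≤ D) : Avg (Aw w₀) w D where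
  nn := Aw_nonneg w₀
  one x _ := sum_Aw h x
  dist x hx y hy := by
    refine hD x hx y ?_
    by_contra hc
    apply hy
    unfold Aw
    rw [Matrix.of_apply, if_neg hc]

lemma Lw_apply (w w₀ : Finset (V n)) (x y : V n) :
    Lw w w₀ x y = if x ∈ w then ravg x (Aw w₀ x) y else 0 := by
  unfold Lw
  rw [dB_row]
  split_ifs <;> rfl

lemma wmap_Lw {w w₀ : Finset (V n)} (h : w₀.Nonempty) {c : V n} {ρ : ℕ} (hw : w ⊆ bx c ρ)
    (hw₀ : w₀ ⊆ bx c ρ) : Wmap (Lw w w₀) c ρ where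
  row x := by
    simp_rw [Lw_apply]
    split_ifs with hx
    · exact sum_ravg x (sum_Aw h x)
    · simp
  supp x y hy := by
    rw [Lw_apply]
    split_ifs with hx
    · unfold ravg
      have h1 : y ≠ x := fun h => hy (h ▸ hw hx)
      have h2 : y ∉ w₀ := fun h => hy (hw₀ h)
      rw [Pi.single_eq_of_ne h1]
      unfold Aw
      rw [Matrix.of_apply, if_neg h2, sub_zero]
    · rfl

lemma Lw_mulVec (w w₀ : Finset (V n)) (u : V n → ℝ) (x : V n) :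
    (Lw w w₀ *ᵥ u) x = if x ∈ w then u x - (w₀.card : ℝ)⁻¹ * ∑ y ∈ w₀, u y else 0 := by
  unfold Lw
  rw [← Matrix.mulVec_mulVec]
  unfold dB
  rw [Matrix.mulVec_diagonal, Matrix.sub_mulVec, Matrix.one_mulVec, Pi.sub_apply]
  have e : (Aw w₀ *ᵥ u) x = (w₀.card : ℝ)⁻¹ * ∑ y ∈ w₀, u y := by
    unfold Matrix.mulVec dotProduct Aw
    simp only [Matrix.of_apply, ite_mul, zero_mul, Finset.sum_ite_mem, Finset.univ_inter]
    rw [Finset.mul_sum]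
  rw [e]
  split_ifs
  · rw [one_mul]
  · rw [zero_mul]

lemma Lw_tr_mulVec (w w₀ : Finset (V n)) (v : V n → ℝ) (y : V n) :
    ((Lw w w₀)ᵀ *ᵥ v) y = (if y ∈ w then v y else 0) -
      (if y ∈ w₀ then (w₀.card : ℝ)⁻¹ * ∑ x ∈ w, v x else 0) := by
  unfold Matrix.mulVec dotProduct
  simp_rw [Matrix.transpose_apply, Lw_apply]
  simp only [ite_mul, zero_mul, Finset.sum_ite_mem, Finset.univ_inter]
  unfold ravg Aw
  simp only [Matrix.of_apply, sub_mul, Finset.sum_sub_distrib]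
  congr 1
  · have : ∀ x ∈ w, (Pi.single x 1 : V n → ℝ) y * v x = if y = x then v x else 0 := by
      intro x _
      rw [Pi.single_apply]
      split_ifs <;> simp
    rw [Finset.sum_congr rfl this, Finset.sum_ite_eq]
  · split_ifs
    · rw [Finset.mul_sum]
    · simp

/-- upper bound of the norm of the cut -/
lemma Lw_tr_le {w w₀ : Finset (V n)} (h : w₀.Nonempty) (v : V n → ℝ) :
    ∑ y, ((Lw w w₀)ᵀ *ᵥ v) y ^ 2 ≤ (2 + 2 * (w.card : ℝ) / w₀.card) * ∑ x ∈ w, v x ^ 2 := by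
  have hc : (0 : ℝ) < w₀.card := by exact_mod_cast h.card_pos
  have h1 : ∀ y, ((Lw w w₀)ᵀ *ᵥ v) y ^ 2 ≤ 2 * (if y ∈ w then v y ^ 2 else 0) +
      2 * (if y ∈ w₀ then ((w₀.card : ℝ)⁻¹ * ∑ x ∈ w, v x) ^ 2 else 0) := by
    intro y
    rw [Lw_tr_mulVec]
    split_ifs <;> nlinarith [sq_nonneg (v y + (w₀.card : ℝ)⁻¹ * ∑ x ∈ w, v x)]
  refine (Finset.sum_le_sum fun y _ => h1 y).trans ?_
  rw [Finset.sum_add_distrib, ← Finset.mul_sum, ← Finset.mul_sum]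
  simp only [Finset.sum_ite_mem, Finset.univ_inter, Finset.sum_const, nsmul_eq_mul]
  have h2 : (∑ x ∈ w, v x) ^ 2 ≤ w.card * ∑ x ∈ w, v x ^ 2 := sq_sum_le_card_mul_sum_sq
  have h3 : (w₀.card : ℝ) * ((w₀.card : ℝ)⁻¹ * ∑ x ∈ w, v x) ^ 2 =
      (∑ x ∈ w, v x) ^ 2 / w₀.card := by
    field_simp
  rw [h3]
  have h4 : (∑ x ∈ w, v x) ^ 2 / w₀.card ≤ w.card * (∑ x ∈ w, v x ^ 2) / w₀.card :=
    div_le_div_of_nonneg_right h2 hc.le
  calc 2 * ∑ x ∈ w, v x ^ 2 + 2 * ((∑ x ∈ w, v x) ^ 2 / w₀.card)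
      ≤ 2 * ∑ x ∈ w, v x ^ 2 + 2 * (w.card * (∑ x ∈ w, v x ^ 2) / w₀.card) := by linarith
    _ = _ := by ring

/-- lower bound away from `w₀` -/
lemma Lw_tr_ge {w w₀ B : Finset (V n)} (hB : B ⊆ w) (hd : Disjoint B w₀) (v : V n → ℝ) :
    ∑ x ∈ B, v x ^ 2 ≤ ∑ y, ((Lw w w₀)ᵀ *ᵥ v) y ^ 2 := by
  have h1 : ∑ x ∈ B, v x ^ 2 = ∑ x ∈ B, ((Lw w w₀)ᵀ *ᵥ v) x ^ 2 := by
    refine Finset.sum_congr rfl fun x hx => ?_
    rw [Lw_tr_mulVec, if_pos (hB hx), if_neg (Finset.disjoint_left.1 hd hx), sub_zero]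
  rw [h1]
  exact Finset.sum_le_sum_of_subset_of_nonneg (Finset.subset_univ _) fun _ _ _ => sq_nonneg _

lemma Lw_of_supp {w w₀ : Finset (V n)} {u : V n → ℝ} (hu : ∀ x, x ∉ w → u x = 0)
    (h0 : ∑ y ∈ w₀, u y = 0) : Lw w w₀ *ᵥ u = u := by
  funext x
  rw [Lw_mulVec]
  split_ifs with h
  · rw [h0, mul_zero, sub_zero]
  · exact (hu x h).symm

lemma qf_dB (w : Finset (V n)) (v : V n → ℝ) : qf (dB w) v = ∑ x ∈ w, v x ^ 2 := by
  rw [qf_eq]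
  unfold dotProduct dB
  simp_rw [Matrix.mulVec_diagonal]
  have : ∀ x, v x * ((if x ∈ w then (1 : ℝ) else 0) * v x) = if x ∈ w then v x ^ 2 else 0 := by
    intro x
    split_ifs <;> ring
  rw [Finset.sum_congr rfl fun x _ => this x, Finset.sum_ite_mem, Finset.univ_inter]

lemma dB_tr (w : Finset (V n)) : (dB w)ᵀ = dB w := by
  unfold dB
  rw [Matrix.diagonal_transpose]

/-! ### the covariances -/

section cov

variable {G : Matrix (V n) (V n) ℝ} {t κ s r : ℝ} {W : Type*} [Fintype W]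
  {I J K : Type*} [Fintype I] [Fintype J] [Fintype K]
  (C : Matrix W (V n) ℝ) {A : Matrix (V n) I ℝ} {A₂ : Matrix (V n) K ℝ} {B : Matrix (V n) J ℝ}

lemma gram_eq {M : Matrix (V n) (V n) ℝ} (L : Matrix (V n) (V n) ℝ) {A : Matrix (V n) I ℝ}
    (hA : A * Aᵀ = M) : (C * L * A) * (C * L * A)ᵀ = C * (L * M * Lᵀ) * Cᵀ := by
  rw [← hA, Matrix.transpose_mul, Matrix.transpose_mul]
  simp only [Matrix.mul_assoc]

lemma qf_gram_tr (M : Matrix W I ℝ) (v : W → ℝ) : qf (M * Mᵀ) v = ∑ i, (Mᵀ *ᵥ v) i ^ 2 := by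
  have := qf_gram Mᵀ v
  rwa [Matrix.transpose_transpose] at this

lemma gram_symm (M : Matrix W I ℝ) : (M * Mᵀ)ᵀ = M * Mᵀ := by
  rw [Matrix.transpose_mul, Matrix.transpose_transpose]

lemma conj_symm {M : Matrix (V n) (V n) ℝ} (hM : Mᵀ = M) : (C * M * Cᵀ)ᵀ = C * M * Cᵀ := by
  rw [Matrix.transpose_mul, Matrix.transpose_mul, Matrix.transpose_transpose, hM,
    Matrix.mul_assoc]

lemma qf_conj' {U : Type*} [Fintype U] (M : Matrix U U ℝ) (C : Matrix W U ℝ) (v : W → ℝ) :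
    qf (C * M * Cᵀ) v = qf M (Cᵀ *ᵥ v) := by
  rw [qf_eq, qf_eq, ← Matrix.mulVec_mulVec, ← Matrix.mulVec_mulVec, Matrix.dotProduct_mulVec v C,
    ← Matrix.mulVec_transpose]

lemma qf_sub_m {U : Type*} [Fintype U] (M M' : Matrix U U ℝ) (v : U → ℝ) :
    qf (M - M') v = qf M v - qf M' v := by
  rw [qf_eq, qf_eq, qf_eq, Matrix.sub_mulVec, dotProduct_sub]

/-- **the increment against the covariance** -/
theorem cov_inc (h : Dat G (κ • lapM) t) (hκ : 0 < κ) (hr : 0 < r) (hrs : r ≤ s)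
    (hst : s ≤ t / 2) (hA : A * Aᵀ = As G t s) (hB : B * Bᵀ = As G t r - As G t s)
    {c : V n} {ρ : ℕ} {L : Matrix (V n) (V n) ℝ} (hL : Wmap L c ρ) :
    ((8 * (s / t) * wk n ρ t r κ) • ((C * L * A) * (C * L * A)ᵀ) -
      (C * L * B) * (C * L * B)ᵀ).PosSemidef := by
  refine psd_of ?_ fun v => ?_
  · rw [Matrix.transpose_sub, Matrix.transpose_smul, gram_symm, gram_symm]
  · rw [qf_sub_m, qf_smul_mat, gram_eq C L hA, gram_eq C L hB,
      qf_conj' (L * As G t s * Lᵀ) C v, qf_conj' (L * (As G t r - As G t s) * Lᵀ) C v]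
    have := win_map h hκ hr hrs hst hL (Cᵀ *ᵥ v)
    linarith

/-- **upper bound of the covariance** -/
theorem cov_up (h : Dat G (κ • lapM) t) (hκ : 0 < κ) (hs : 0 < s) (hst : s < t)
    (hA : A * Aᵀ = As G t s) {w w₀ : Finset (V n)} (hw₀ : w₀.Nonempty) {c : V n} {ρ : ℕ}
    (hL : Wmap (Lw w w₀) c ρ) :
    ((2 * t * wk n ρ t s κ * (2 + 2 * (w.card : ℝ) / w₀.card)) • (C * dB w * Cᵀ) -
      (C * Lw w w₀ * A) * (C * Lw w w₀ * A)ᵀ).PosSemidef := by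
  have t0 := h.t0
  refine psd_of ?_ fun v => ?_
  · rw [Matrix.transpose_sub, Matrix.transpose_smul, gram_symm, conj_symm C (dB_tr w)]
  · rw [qf_sub_m, qf_smul_mat, gram_eq C _ hA, qf_conj' (dB w) C v,
      qf_conj' (Lw w w₀ * As G t s * (Lw w w₀)ᵀ) C v, qf_dB]
    have h1 := up_map h hκ hs hst hL (Cᵀ *ᵥ v)
    rw [qf_gram_tr] at h1
    have h2 := Lw_tr_le (w := w) hw₀ (Cᵀ *ᵥ v)
    have h3 : 0 ≤ 2 * t * wk n ρ t s κ := by
      have := wk_ge (n := n) (ρ := ρ) (t := t) hs hκ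
      positivity
    have h4 := mul_le_mul_of_nonneg_left h2 h3
    linarith

/-- upper bound of the increment -/
theorem cov_inc_up (h : Dat G (κ • lapM) t) (hκ : 0 < κ) (hr : 0 < r) (hrs : r ≤ s)
    (hst : s ≤ t / 2) (hB : B * Bᵀ = As G t r - As G t s) {w w₀ : Finset (V n)}
    (hw₀ : w₀.Nonempty) {c : V n} {ρ : ℕ} (hL : Wmap (Lw w w₀) c ρ) :
    ((4 * s * wk n ρ t r κ * (2 + 2 * (w.card : ℝ) / w₀.card)) • (C * dB w * Cᵀ) -
      (C * Lw w w₀ * B) * (C * Lw w w₀ * B)ᵀ).PosSemidef := by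
  have t0 := h.t0
  refine psd_of ?_ fun v => ?_
  · rw [Matrix.transpose_sub, Matrix.transpose_smul, gram_symm, conj_symm C (dB_tr w)]
  · rw [qf_sub_m, qf_smul_mat, gram_eq C _ hB, qf_conj' (dB w) C v,
      qf_conj' (Lw w w₀ * (As G t r - As G t s) * (Lw w w₀)ᵀ) C v, qf_dB]
    have h1 := inc_map h hκ hr hrs hst hL (Cᵀ *ᵥ v)
    rw [qf_gram_tr] at h1
    have h2 := Lw_tr_le (w := w) hw₀ (Cᵀ *ᵥ v)
    have h3 : 0 ≤ 4 * s * wk n ρ t r κ := by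
      have := wk_ge (n := n) (ρ := ρ) (t := t) hr hκ
      have : 0 < s := by linarith
      positivity
    have h4 := mul_le_mul_of_nonneg_left h2 h3
    linarith

/-- **lower bound of the covariance** -/
theorem cov_low (h : Dat G (κ • lapM) t) (hs : 0 < s) (hst : s < t)
    (hA : A * Aᵀ = As G t s) {w w₀ B' : Finset (V n)} (hB : B' ⊆ w) (hd : Disjoint B' w₀) :
    ((C * Lw w w₀ * A) * (C * Lw w w₀ * A)ᵀ - (t - s) • (C * dB B' * Cᵀ)).PosSemidef := by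
  refine psd_of ?_ fun v => ?_
  · rw [Matrix.transpose_sub, Matrix.transpose_smul, gram_symm, conj_symm C (dB_tr B')]
  · rw [qf_sub_m, qf_smul_mat, gram_eq C _ hA, qf_conj' (dB B') C v,
      qf_conj' (Lw w w₀ * As G t s * (Lw w w₀)ᵀ) C v, qf_dB, qf_conj]
    have h1 := h.low' hs hst ((Lw w w₀)ᵀ *ᵥ (Cᵀ *ᵥ v))
    have h2 := Lw_tr_ge (w₀ := w₀) hB hd (Cᵀ *ᵥ v)
    have h3 : sq ((Lw w w₀)ᵀ *ᵥ (Cᵀ *ᵥ v)) = ∑ y, ((Lw w w₀)ᵀ *ᵥ (Cᵀ *ᵥ v)) y ^ 2 := by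
      unfold sq dotProduct
      exact Finset.sum_congr rfl fun x _ => by ring
    rw [h3] at h1
    rw [qf_qd]
    have h4 := mul_le_mul_of_nonneg_left h2 (by linarith : 0 ≤ t - s)
    linarith

/-- the covariance of the second law -/
theorem cov_add (L : Matrix (V n) (V n) ℝ) (hA : A * Aᵀ = As G t s)
    (hB : B * Bᵀ = As G t r - As G t s) (hA₂ : A₂ * A₂ᵀ = As G t r) :
    (C * L * A₂) * (C * L * A₂)ᵀ =
      (C * L * A) * (C * L * A)ᵀ + (C * L * B) * (C * L * B)ᵀ := by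
  rw [gram_eq C L hA, gram_eq C L hB, gram_eq C L hA₂, ← Matrix.add_mul, ← Matrix.mul_add,
    ← Matrix.add_mul, ← Matrix.mul_add, add_sub_cancel]

/-- **bump directions** -/
theorem bump_vec (h : Dat G (κ • lapM) t) (hs : 0 < s) (hst : s < t) (hA : A * Aᵀ = As G t s)
    {w w₀ : Finset (V n)} {u : V n → ℝ} (hu : ∀ x, x ∉ w → u x = 0) (h0 : ∑ y ∈ w₀, u y = 0) :
    (C * Lw w w₀ * A) *ᵥ (Aᵀ *ᵥ ((As G t s)⁻¹ *ᵥ u)) = C *ᵥ u ∧
      A *ᵥ (Aᵀ *ᵥ ((As G t s)⁻¹ *ᵥ u)) = u ∧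
      ∑ i, (Aᵀ *ᵥ ((As G t s)⁻¹ *ᵥ u)) i ^ 2 ≤ (t - s)⁻¹ * ∑ x, u x ^ 2 := by
  have hpd := h.pd hs hst
  have hu' := pd_unit hpd
  have e1 : A *ᵥ (Aᵀ *ᵥ ((As G t s)⁻¹ *ᵥ u)) = u := by
    rw [Matrix.mulVec_mulVec, Matrix.mulVec_mulVec, hA, Matrix.mul_nonsing_inv _ hu',
      Matrix.one_mulVec]
  refine ⟨?_, e1, ?_⟩
  · rw [← Matrix.mulVec_mulVec, e1, ← Matrix.mulVec_mulVec, Lw_of_supp hu h0]
  · have e2 : ∑ i, (Aᵀ *ᵥ ((As G t s)⁻¹ *ᵥ u)) i ^ 2 = qd (As G t s)⁻¹ u := by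
      rw [← qf_gram_tr, hA, qf_eq, Matrix.mulVec_mulVec, Matrix.mul_nonsing_inv _ hu',
        Matrix.one_mulVec, dotProduct_comm]
    rw [e2]
    refine (h.inv_le hs hst u).trans (le_of_eq ?_)
    congr 1
    unfold sq dotProduct
    exact Finset.sum_congr rfl fun x _ => by ring

end cov

/-! ### disjoint windows -/

section fam

variable {W : Type} [Fintype W] {μ : (W → ℤ) → ℝ}

lemma dB_sum {ι : Type*} (s : Finset ι) (w : ι → Finset (V n))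
    (hd : ∀ i ∈ s, ∀ j ∈ s, i ≠ j → Disjoint (w i) (w j)) :
    ∑ i ∈ s, dB (w i) = dB (s.biUnion w) := by
  classical
  ext x y
  rw [Matrix.sum_apply]
  unfold dB
  by_cases hxy : x = y
  · subst hxy
    simp only [Matrix.diagonal_apply_eq]
    by_cases hx : x ∈ s.biUnion w
    · rw [if_pos hx]
      obtain ⟨i, hi, hxi⟩ := Finset.mem_biUnion.1 hx
      rw [Finset.sum_eq_single i]
      · rw [if_pos hxi]
      · intro j hj hne
        rw [if_neg fun h => Finset.disjoint_left.1 (hd j hj i hi hne) h hxi]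
      · intro h
        exact absurd hi h
    · rw [if_neg hx]
      refine Finset.sum_eq_zero fun i hi => ?_
      rw [if_neg fun h => hx (Finset.mem_biUnion.2 ⟨i, hi, h⟩)]
  · simp only [Matrix.diagonal_apply_ne _ hxy, Finset.sum_const_zero]

lemma psd_conj_dB (C : Matrix W (V n) ℝ) (w : Finset (V n)) : (C * dB w * Cᵀ).PosSemidef :=
  psd_of (conj_symm C (dB_tr w)) fun v => by
    rw [qf_conj', qf_dB]
    exact Finset.sum_nonneg fun _ _ => sq_nonneg _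

/-- superadditivity over disjoint windows -/
theorem K4S_family (hμ : EM μ) (he : Ev μ) (hK : PK μ) (C : Matrix W (V n) ℝ) {ι : Type*}
    (s : Finset ι) (w : ι → Finset (V n))
    (hd : ∀ i ∈ s, ∀ j ∈ s, i ≠ j → Disjoint (w i) (w j)) :
    ∑ i ∈ s, H447.K4S μ (C * dB (w i) * Cᵀ) (C * dB (w i) * Cᵀ) ≤
      H447.K4S μ (C * Cᵀ) (C * Cᵀ) := by
  classical
  have hpos : ∀ i j, 0 ≤ H447.K4S μ (C * dB (w i) * Cᵀ) (C * dB (w j) * Cᵀ) := by
    intro i j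
    obtain ⟨P, hP⟩ := exists_gram (psd_conj_dB C (w i))
    obtain ⟨R, hR⟩ := exists_gram (psd_conj_dB C (w j))
    have h := H447.K4S_gram_nonneg (I₁ := W) (I₂ := W) hμ he hK Pᵀ Rᵀ
    rwa [Matrix.transpose_transpose, Matrix.transpose_transpose, hP, hR] at h
  have h1 : H447.K4S μ (∑ i ∈ s, C * dB (w i) * Cᵀ) (∑ i ∈ s, C * dB (w i) * Cᵀ) =
      ∑ i ∈ s, ∑ j ∈ s, H447.K4S μ (C * dB (w i) * Cᵀ) (C * dB (w j) * Cᵀ) := by
    rw [H447.K4S_sum_left hμ]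
    refine Finset.sum_congr rfl fun i _ => ?_
    rw [H447.K4S_sum_right hμ]
  have h2 : ∑ i ∈ s, H447.K4S μ (C * dB (w i) * Cᵀ) (C * dB (w i) * Cᵀ) ≤
      ∑ i ∈ s, ∑ j ∈ s, H447.K4S μ (C * dB (w i) * Cᵀ) (C * dB (w j) * Cᵀ) := by
    refine Finset.sum_le_sum fun i hi => ?_
    exact Finset.single_le_sum
      (f := fun j => H447.K4S μ (C * dB (w i) * Cᵀ) (C * dB (w j) * Cᵀ))
      (fun j _ => hpos i j) hi
  refine h2.trans ?_
  rw [← h1]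
  have h3 : ∑ i ∈ s, C * dB (w i) * Cᵀ = C * dB (s.biUnion w) * Cᵀ := by
    rw [← dB_sum s w hd, Matrix.mul_sum, Matrix.sum_mul]
  rw [h3]
  refine H447.K4S_psd hμ he hK (psd_conj_dB C _) (psd_of ?_ fun v => ?_)
  · rw [Matrix.transpose_sub, conj_symm C (dB_tr _), gram_symm]
  · rw [qf_sub_m, qf_conj', qf_dB, qf_gram_tr]
    have := Finset.sum_le_sum_of_subset_of_nonneg (Finset.subset_univ (s.biUnion w))
      (f := fun x => (Cᵀ *ᵥ v) x ^ 2) fun _ _ _ => sq_nonneg _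
    linarith

end fam

end

end Vale.Agent.P159.H859
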