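import Vale.Agent.P159.H859.Win
import Vale.Agent.P159.H447.Cg5
import Vale.Agent.P159.H640.Dt6
import Vale.Agent.P159.H972.Good

/-!
P159 / module COVW, part 2 (helper859): the window laws of the NEUTRAL model, in the letters of
CONTRG. Sources `J = CNᵀ Lw F`, `F` Gaussian with covariance `Sgn N l b t s` on the cells of side
`l`, posterior `nwt N b t 0`.

* `K4S_dB` : `K4S (CNᵀ 1_w CN) (CNᵀ 1_w' CN) = l⁴ ∑_{c ∈ w, c' ∈ w'} Kp c c'`.
* `K4S_dB_le` : `K4S (CNᵀ 1_w CN)² ≤ (|w| l² / N²) K4S SN SN`.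
* `WN` : the hypotheses of a window; `inc, up, add, K4, K4_DN, test, dir, pr_le, blocks`.
* `full_up, full_K4` : no window.
-/

set_option linter.unusedSectionVars false

namespace Vale.Agent.P159.H859

open Finset Matrix
open Vale.Agent.P159.TM.H764 (Gh cN sN dt EE grd Q nrm bx)
open Vale.Agent.P159.TM.Spec (V)
open Vale.Agent.P159.TM.H104 (EM)
open Vale.Agent.P159.H37
open Vale.Agent.P159.H864
open Vale.Agent.P159.H963 (nwt Pn Gnc em_nwt ev_nwt pk_nwt)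
open Vale.Agent.P159.H447 (K4S SN CN CN_gram pr)
open Vale.Agent.P159.H640 (Kp ne CN_row K4_homog K4S_SN Kp_tra)

noncomputable section

/-! ### tests below the covariance -/

section tests

variable {n : ℕ} [NeZero n] {G : Matrix (V n) (V n) ℝ} {t κ s r : ℝ} {W : Type*} [Fintype W]
  {I K : Type*} [Fintype I] [Fintype K] (C : Matrix W (V n) ℝ) {A : Matrix (V n) I ℝ}

lemma dB_sub_gram {B' : Finset (V n)} {B : Matrix (V n) K ℝ} (hB : ∀ x, x ∉ B' → ∀ k, B x k = 0)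
    (hc : (1 - B * Bᵀ).PosSemidef) : (dB B' - B * Bᵀ).PosSemidef := by
  refine psd_of ?_ fun v => ?_
  · rw [Matrix.transpose_sub, dB_tr, gram_symm]
  · have h1 : Bᵀ *ᵥ v = Bᵀ *ᵥ (dB B' *ᵥ v) := by
      funext k
      simp only [Matrix.mulVec, dotProduct, Matrix.transpose_apply]
      refine Finset.sum_congr rfl fun x _ => ?_
      by_cases hx : x ∈ B'
      · have e : ∑ y, dB B' x y * v y = v x := by
          have := Matrix.mulVec_diagonal (fun x => if x ∈ B' then (1 : ℝ) else 0) v x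
          unfold Matrix.mulVec dotProduct at this
          unfold dB
          rw [this, if_pos hx, one_mul]
        rw [e]
      · rw [hB x hx, zero_mul, zero_mul]
    have h2 : qf (B * Bᵀ) v = qf (B * Bᵀ) (dB B' *ᵥ v) := by
      rw [qf_gram_tr, qf_gram_tr, ← h1]
    have h3 := hc.dotProduct_mulVec_nonneg (dB B' *ᵥ v)
    have h4 : 0 ≤ qf (1 - B * Bᵀ) (dB B' *ᵥ v) := by
      rw [qf_eq]
      simpa using h3
    rw [qf_sub_m] at h4 ⊢
    rw [h2, qf_dB]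
    have h5 : qf (1 : Matrix (V n) (V n) ℝ) (dB B' *ᵥ v) = ∑ x ∈ B', v x ^ 2 := by
      rw [qf_eq, Matrix.one_mulVec]
      unfold dotProduct dB
      simp_rw [Matrix.mulVec_diagonal]
      have : ∀ x, ((if x ∈ B' then (1 : ℝ) else 0) * v x) * ((if x ∈ B' then (1 : ℝ) else 0) * v x)
          = if x ∈ B' then v x ^ 2 else 0 := by
        intro x
        split_ifs <;> ring
      rw [Finset.sum_congr rfl fun x _ => this x, Finset.sum_ite_mem, Finset.univ_inter]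
    rw [h5] at h4
    exact h4

lemma psd_conj {M : Matrix (V n) (V n) ℝ} (hM : M.PosSemidef) : (C * M * Cᵀ).PosSemidef := by
  have h := hM.mul_mul_conjTranspose_same C
  rwa [Matrix.conjTranspose_eq_transpose_of_trivial] at h

/-- **contractions below the covariance** -/
theorem cov_test (h : Dat G (κ • lapM) t) (hs : 0 < s) (hst : s < t)
    (hA : A * Aᵀ = As G t s) {w w₀ B' : Finset (V n)} (hB' : B' ⊆ w) (hd : Disjoint B' w₀)
    {B : Matrix (V n) K ℝ} (hB : ∀ x, x ∉ B' → ∀ k, B x k = 0) (hc : (1 - B * Bᵀ).PosSemidef) :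
    ((C * Lw w w₀ * A) * (C * Lw w w₀ * A)ᵀ - (t - s) • ((C * B) * (C * B)ᵀ)).PosSemidef := by
  have h1 := cov_low C h hs hst hA hB' hd
  have h2 := (psd_conj C (dB_sub_gram hB hc)).smul (by linarith : 0 ≤ t - s)
  have h3 := h1.add h2
  have e : (C * Lw w w₀ * A) * (C * Lw w w₀ * A)ᵀ - (t - s) • (C * dB B' * Cᵀ) +
      (t - s) • (C * (dB B' - B * Bᵀ) * Cᵀ) =
      (C * Lw w w₀ * A) * (C * Lw w w₀ * A)ᵀ - (t - s) • ((C * B) * (C * B)ᵀ) := by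
    have e1 : (C * B) * (C * B)ᵀ = C * (B * Bᵀ) * Cᵀ := by
      rw [Matrix.transpose_mul]
      simp only [Matrix.mul_assoc]
    rw [e1, Matrix.mul_sub, Matrix.sub_mul, smul_sub]
    abel
  rwa [e] at h3

/-- one direction below the covariance -/
theorem cov_dir (h : Dat G (κ • lapM) t) (hs : 0 < s) (hst : s < t)
    (hA : A * Aᵀ = As G t s) {w w₀ B' : Finset (V n)} (hB' : B' ⊆ w) (hd : Disjoint B' w₀)
    {f : V n → ℝ} (hf : ∀ x, x ∉ B' → f x = 0) {F : ℝ} (hF : ∑ x, f x ^ 2 ≤ F) (hF0 : 0 < F) :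
    ((C * Lw w w₀ * A) * (C * Lw w w₀ * A)ᵀ -
      ((t - s) / F) • vecMulVec (C *ᵥ f) (C *ᵥ f)).PosSemidef := by
  set B : Matrix (V n) Unit ℝ := Matrix.of fun x _ => f x / √F with hBd
  have hF1 : √F ≠ 0 := (Real.sqrt_pos.2 hF0).ne'
  have hF2 : √F * √F = F := Real.mul_self_sqrt hF0.le
  have hB : ∀ x, x ∉ B' → ∀ k, B x k = 0 := by
    intro x hx k
    rw [hBd, Matrix.of_apply, hf x hx, zero_div]
  have hc : (1 - B * Bᵀ).PosSemidef := by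
    refine psd_of ?_ fun v => ?_
    · rw [Matrix.transpose_sub, Matrix.transpose_one, gram_symm]
    · rw [qf_sub_m, qf_gram_tr]
      have e1 : qf (1 : Matrix (V n) (V n) ℝ) v = ∑ x, v x ^ 2 := by
        rw [qf_eq, Matrix.one_mulVec]
        unfold dotProduct
        exact Finset.sum_congr rfl fun x _ => by ring
      have e2 : ∑ i : Unit, (Bᵀ *ᵥ v) i ^ 2 = (∑ x, f x * v x) ^ 2 / F := by
        rw [Finset.univ_unique, Finset.sum_singleton]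
        simp only [hBd, Matrix.mulVec, dotProduct, Matrix.transpose_apply, Matrix.of_apply]
        have : ∑ x, f x / √F * v x = (∑ x, f x * v x) / √F := by
          rw [Finset.sum_div]
          exact Finset.sum_congr rfl fun x _ => by ring
        rw [this, div_pow, Real.sq_sqrt hF0.le]
      rw [e1, e2]
      have h2 := Finset.sum_mul_sq_le_sq_mul_sq Finset.univ f v
      have h3 : 0 ≤ ∑ x, v x ^ 2 := Finset.sum_nonneg fun _ _ => sq_nonneg _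
      have h4 : (∑ x, f x * v x) ^ 2 / F ≤ ∑ x, v x ^ 2 := by
        rw [div_le_iff₀ hF0]
        nlinarith [mul_le_mul_of_nonneg_right hF h3]
      linarith
  have key := cov_test C h hs hst hA hB' hd hB hc
  have e : (t - s) • ((C * B) * (C * B)ᵀ) = ((t - s) / F) • vecMulVec (C *ᵥ f) (C *ᵥ f) := by
    have h1 : ∀ i, (C * B) i () = (C *ᵥ f) i / √F := by
      intro i
      rw [Matrix.mul_apply]
      simp only [hBd, Matrix.of_apply, Matrix.mulVec, dotProduct]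
      rw [Finset.sum_div]
      exact Finset.sum_congr rfl fun x _ => by ring
    ext i j
    rw [Matrix.smul_apply, Matrix.smul_apply, vecMulVec_apply, Matrix.mul_apply]
    simp only [Finset.univ_unique, Finset.sum_singleton, Matrix.transpose_apply, smul_eq_mul,
      PUnit.default_eq_unit]
    rw [h1, h1, div_mul_div_comm, hF2]
    ring
  rwa [e] at key

end tests

/-! ### fourth cumulants of windows -/

section torus

variable {N l : ℕ} [NeZero N] [NeZero (N / l)] {b t s r : ℝ}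

lemma gram_dB (w : Finset (V (N / l))) : (CN N l)ᵀ * dB w * CN N l =
    ∑ c ∈ w, vecMulVec (CN N l c) (CN N l c) := by
  ext x y
  rw [Matrix.sum_apply, Matrix.mul_apply]
  have h1 : ∀ c, ((CN N l)ᵀ * dB w) x c = if c ∈ w then CN N l c x else 0 := by
    intro c
    unfold dB
    rw [Matrix.mul_diagonal, Matrix.transpose_apply]
    split_ifs
    · rw [mul_one]
    · rw [mul_zero]
  simp only [h1, ite_mul, zero_mul, Finset.sum_ite_mem, Finset.univ_inter, vecMulVec_apply]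

theorem K4S_dB (hb : 0 ≤ b) (ht : 0 < t) (hl : l ∣ N) (w w' : Finset (V (N / l))) :
    K4S (nwt N b t 0) ((CN N l)ᵀ * dB w * CN N l) ((CN N l)ᵀ * dB w' * CN N l) =
      (l : ℝ) ^ 4 * ∑ c ∈ w, ∑ c' ∈ w', Kp N l b t c c' := by
  have hE := em_nwt (N := N) hb ht 0
  have he := ev_nwt (N := N) hb t 0
  rw [gram_dB, gram_dB, H447.K4S_sum_left hE, Finset.mul_sum]
  refine Finset.sum_congr rfl fun c _ => ?_
  rw [H447.K4S_sum_right hE, Finset.mul_sum]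
  refine Finset.sum_congr rfl fun c' _ => ?_
  rw [H447.K4S_rank hE he, CN_row hl, CN_row hl, K4_homog]
  rfl

theorem Kp_nonneg (hb : 0 ≤ b) (ht : 0 < t) (c c' : V (N / l)) : 0 ≤ Kp N l b t c c' :=
  H789.K4_nonneg' (em_nwt hb ht 0) (ev_nwt hb t 0) (pk_nwt hb ht 0) _ _

/-- the cumulant of a window per cell is at most the cumulant of the torus per cell -/
theorem K4S_dB_le (hb : 0 ≤ b) (ht : 0 < t) (hl : l ∣ N) (w : Finset (V (N / l))) :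
    K4S (nwt N b t 0) ((CN N l)ᵀ * dB w * CN N l) ((CN N l)ᵀ * dB w * CN N l) ≤
      (w.card : ℝ) * (l : ℝ) ^ 2 / (N : ℝ) ^ 2 * K4S (nwt N b t 0) (SN N l) (SN N l) := by
  have hN : (0 : ℝ) < N := by exact_mod_cast NeZero.pos N
  rw [K4S_dB hb ht hl, K4S_SN hb ht hl 0]
  have h1 : ∀ c ∈ w, ∑ c' ∈ w, Kp N l b t c c' ≤ ∑ c', Kp N l b t 0 c' := by
    intro c _
    have h2 : ∑ c', Kp N l b t 0 c' = ∑ c', Kp N l b t c c' := by
      rw [← Equiv.sum_comp (Equiv.addRight c) fun c' => Kp N l b t c c']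
      refine Finset.sum_congr rfl fun c' _ => ?_
      have h3 := Kp_tra (N := N) hb ht hl 0 c' c
      rw [zero_add] at h3
      exact h3.symm
    rw [h2]
    exact Finset.sum_le_sum_of_subset_of_nonneg (Finset.subset_univ _) fun _ _ _ =>
      Kp_nonneg hb ht _ _
  have h4 := Finset.sum_le_sum h1
  rw [Finset.sum_const, nsmul_eq_mul] at h4
  have h5 := mul_le_mul_of_nonneg_left h4 (by positivity : (0 : ℝ) ≤ (l : ℝ) ^ 4)
  refine h5.trans (le_of_eq ?_)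
  generalize ∑ c', Kp N l b t 0 c' = q
  field_simp

/-! ### traces and unions -/

lemma psd_dB (w : Finset (V (N / l))) :
    (dB w : Matrix (V (N / l)) (V (N / l)) ℝ).PosSemidef :=
  psd_of (dB_tr w) fun v => by
    rw [qf_dB]
    exact Finset.sum_nonneg fun _ _ => sq_nonneg _

lemma psd_dB_mono {w w' : Finset (V (N / l))} (hw : w ⊆ w') :
    (dB w' - dB w : Matrix (V (N / l)) (V (N / l)) ℝ).PosSemidef := by
  refine psd_of ?_ fun v => ?_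
  · rw [Matrix.transpose_sub, dB_tr, dB_tr]
  · rw [qf_sub_m, qf_dB, qf_dB]
    have := Finset.sum_le_sum_of_subset_of_nonneg hw (f := fun x => v x ^ 2)
      fun _ _ _ => sq_nonneg _
    linarith

lemma dB_mul_dB (w : Finset (V (N / l))) :
    (dB w * dB w : Matrix (V (N / l)) (V (N / l)) ℝ) = dB w := by
  unfold dB
  rw [Matrix.diagonal_mul_diagonal]
  congr 1
  funext x
  split_ifs <;> simp

lemma dB_univ : (dB Finset.univ : Matrix (V (N / l)) (V (N / l)) ℝ) = 1 := by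
  unfold dB
  simp only [Finset.mem_univ, if_true]
  exact Matrix.diagonal_one

lemma sq_CN_row (hl : l ∣ N) (c : V (N / l)) : ∑ x, CN N l c x ^ 2 ≤ 1 := by
  have h1 : CN N l * (CN N l)ᵀ = (Pn : Matrix (V (N / l)) (V (N / l)) ℝ) := by
    unfold CN
    rw [Matrix.transpose_mul, H963.Pn_transpose, Matrix.mul_assoc,
      ← Matrix.mul_assoc (cobV N l), cobV_mul_tr hl, Matrix.one_mul, H963.Pn_mul_Pn]
  have h2 : ∑ x, CN N l c x ^ 2 = (Pn : Matrix (V (N / l)) (V (N / l)) ℝ) c c := by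
    rw [← h1, Matrix.mul_apply]
    exact Finset.sum_congr rfl fun x _ => by rw [Matrix.transpose_apply]; ring
  rw [h2]
  have h3 := congrFun (H963.Pn_mulVec (Pi.single c (1 : ℝ))) c
  rw [Matrix.mulVec_single_one] at h3
  have h4 : (Pn : Matrix (V (N / l)) (V (N / l)) ℝ) c c = 1 - 1 / Fintype.card (V (N / l)) := by
    rw [show (Pn : Matrix (V (N / l)) (V (N / l)) ℝ) c c =
      (Pn : Matrix (V (N / l)) (V (N / l)) ℝ).col c c from rfl, h3, Pi.single_eq_same,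
      Finset.sum_pi_single', if_pos (Finset.mem_univ _)]
  rw [h4]
  have : (0 : ℝ) ≤ 1 / Fintype.card (V (N / l)) := by positivity
  linarith

lemma pr_dB_le (hl : l ∣ N) {Bm : Matrix (V N) (V N) ℝ} (hB0 : ∀ u, 0 ≤ qf Bm u) {β : ℝ}
    (hB : ∀ u, qf Bm u ≤ β * ∑ x, u x ^ 2) (w : Finset (V (N / l))) :
    pr Bm ((CN N l)ᵀ * dB w * CN N l) ≤ w.card * β := by
  rw [gram_dB, H447.pr_sum]
  have hβ : 0 ≤ β := by
    have h1 := (hB0 (Pi.single 0 1)).trans (hB (Pi.single 0 1))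
    have h2 : ∑ x, (Pi.single (0 : V N) (1 : ℝ) : V N → ℝ) x ^ 2 = 1 := by
      rw [Finset.sum_eq_single 0]
      · rw [Pi.single_eq_same, one_pow]
      · intro x _ hx
        rw [Pi.single_eq_of_ne hx]
        norm_num
      · intro hx
        exact absurd (Finset.mem_univ _) hx
    rw [h2, mul_one] at h1
    exact h1
  refine (Finset.sum_le_card_nsmul w _ β fun c _ => ?_).trans (le_of_eq (nsmul_eq_mul _ _))
  rw [H447.pr_rank]
  refine (hB _).trans ?_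
  have := mul_le_mul_of_nonneg_left (sq_CN_row hl c) hβ
  rwa [mul_one] at this

/-! ### the window laws -/

/-- the constant `κ₂ = 2 t wc(s) (2 + 2 |w| / |w₀|)` -/
def kap2 (N l ρ : ℕ) (b t s : ℝ) (k k₀ : ℕ) : ℝ :=
  2 * t * wc N l ρ b t s * (2 + 2 * (k : ℝ) / k₀)

lemma wc_ge (hl : l ∣ N) (hb : 0 < b) {r : ℝ} (hr : 0 < r) (ρ : ℕ) : 1 ≤ wc N l ρ b t r := by
  rw [← wk_cell hl hb hr]
  exact wk_ge hr (kcell_pos hl hb)

lemma kap2_nonneg (hl : l ∣ N) (hb : 0 < b) (ht : 0 < t) (hs : 0 < s) (ρ k k₀ : ℕ) :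
    0 ≤ kap2 N l ρ b t s k k₀ := by
  have := wc_ge (t := t) hl hb hs ρ
  unfold kap2
  positivity

/-- a window `w`, a reference box `w₀`, both in `bx c ρ` (cells of side `l`) -/
structure WN (N l : ℕ) [NeZero N] [NeZero (N / l)] (b t s r : ℝ) (w w₀ : Finset (V (N / l)))
    (c : V (N / l)) (ρ : ℕ) : Prop where
  hb : 0 < b
  hl : l ∣ N
  hr : 0 < r
  hrs : r ≤ s
  hst : s ≤ t / 2
  hw₀ : w₀.Nonempty
  hw : w ⊆ bx c ρ
  hw₀c : w₀ ⊆ bx c ρ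

namespace WN

variable {w w₀ : Finset (V (N / l))} {c : V (N / l)} {ρ : ℕ} (h : WN N l b t s r w w₀ c ρ)
  {I J K : Type*} [Fintype I] [Fintype J] [Fintype K]
  {A : Matrix (V (N / l)) I ℝ} {A₂ : Matrix (V (N / l)) K ℝ} {B : Matrix (V (N / l)) J ℝ}
include h

lemma s0 : 0 < s := h.hr.trans_le h.hrs

lemma t0 : 0 < t := by linarith [h.s0, h.hst]

lemma st : s < t := by linarith [h.s0, h.hst]

lemma dat : Dat (Gnc N l b t t) ((1 / b / (l : ℝ) ^ 2) • lapM) t := dat_neu' h.hb h.hl h.t0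

lemma wmap : Wmap (Lw w w₀) c ρ := wmap_Lw h.hw₀ h.hw h.hw₀c

/-- the increment against the covariance -/
theorem inc (hA : A * Aᵀ = Sgn N l b t s) (hB : B * Bᵀ = Sgn N l b t r - Sgn N l b t s) :
    ((8 * (s / t) * wc N l ρ b t r) • (((CN N l)ᵀ * Lw w w₀ * A) * ((CN N l)ᵀ * Lw w w₀ * A)ᵀ) -
      ((CN N l)ᵀ * Lw w w₀ * B) * ((CN N l)ᵀ * Lw w w₀ * B)ᵀ).PosSemidef := by
  have h1 := cov_inc (CN N l)ᵀ h.dat (kcell_pos h.hl h.hb) h.hr h.hrs h.hst hA hB h.wmap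
  rwa [wk_cell h.hl h.hb h.hr] at h1

/-- upper bound -/
theorem up (hA : A * Aᵀ = Sgn N l b t s) :
    ((kap2 N l ρ b t s w.card w₀.card) • ((CN N l)ᵀ * dB w * CN N l) -
      ((CN N l)ᵀ * Lw w w₀ * A) * ((CN N l)ᵀ * Lw w w₀ * A)ᵀ).PosSemidef := by
  have h1 := cov_up (CN N l)ᵀ h.dat (kcell_pos h.hl h.hb) h.s0 h.st hA h.hw₀ h.wmap
  rwa [wk_cell h.hl h.hb h.s0, Matrix.transpose_transpose] at h1

/-- the second law -/
theorem add (_h : WN N l b t s r w w₀ c ρ) (hA : A * Aᵀ = Sgn N l b t s)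
    (hB : B * Bᵀ = Sgn N l b t r - Sgn N l b t s) (hA₂ : A₂ * A₂ᵀ = Sgn N l b t r) :
    ((CN N l)ᵀ * Lw w w₀ * A₂) * ((CN N l)ᵀ * Lw w w₀ * A₂)ᵀ =
      ((CN N l)ᵀ * Lw w w₀ * A) * ((CN N l)ᵀ * Lw w w₀ * A)ᵀ +
      ((CN N l)ᵀ * Lw w w₀ * B) * ((CN N l)ᵀ * Lw w w₀ * B)ᵀ :=
  cov_add (CN N l)ᵀ (Lw w w₀) hA hB hA₂

/-- **fourth cumulant of the window law** -/
theorem K4 (hA : A * Aᵀ = Sgn N l b t s) :
    K4S (nwt N b t 0) (((CN N l)ᵀ * Lw w w₀ * A) * ((CN N l)ᵀ * Lw w w₀ * A)ᵀ)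
        (((CN N l)ᵀ * Lw w w₀ * A) * ((CN N l)ᵀ * Lw w w₀ * A)ᵀ) ≤
      (kap2 N l ρ b t s w.card w₀.card) ^ 2 * ((w.card : ℝ) * (l : ℝ) ^ 2 / (N : ℝ) ^ 2 *
        K4S (nwt N b t 0) (SN N l) (SN N l)) := by
  have hb := h.hb.le
  have h1 := H447.K4S_psd (em_nwt hb h.t0 0) (ev_nwt hb t 0) (pk_nwt hb h.t0 0)
    (psd_of (gram_symm _) fun v => by
      rw [qf_gram_tr]
      exact Finset.sum_nonneg fun _ _ => sq_nonneg _) (h.up hA)
  rw [H447.K4S_smul2] at h1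
  exact h1.trans (mul_le_mul_of_nonneg_left (K4S_dB_le hb h.t0 h.hl w) (sq_nonneg _))

/-- contractions below the covariance -/
theorem test (hA : A * Aᵀ = Sgn N l b t s) {B' : Finset (V (N / l))} (hB' : B' ⊆ w)
    (hd : Disjoint B' w₀) {B : Matrix (V (N / l)) K ℝ} (hB : ∀ x, x ∉ B' → ∀ k, B x k = 0)
    (hc : (1 - B * Bᵀ).PosSemidef) :
    (((CN N l)ᵀ * Lw w w₀ * A) * ((CN N l)ᵀ * Lw w w₀ * A)ᵀ -
      (t - s) • (((CN N l)ᵀ * B) * ((CN N l)ᵀ * B)ᵀ)).PosSemidef :=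
  cov_test (CN N l)ᵀ h.dat h.s0 h.st hA hB' hd hB hc

/-- one direction below the covariance -/
theorem dir (hA : A * Aᵀ = Sgn N l b t s) {B' : Finset (V (N / l))} (hB' : B' ⊆ w)
    (hd : Disjoint B' w₀) {f : V (N / l) → ℝ} (hf : ∀ x, x ∉ B' → f x = 0) {F : ℝ}
    (hF : ∑ x, f x ^ 2 ≤ F) (hF0 : 0 < F) :
    (((CN N l)ᵀ * Lw w w₀ * A) * ((CN N l)ᵀ * Lw w w₀ * A)ᵀ -
      ((t - s) / F) • vecMulVec ((CN N l)ᵀ *ᵥ f) ((CN N l)ᵀ *ᵥ f)).PosSemidef :=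
  cov_dir (CN N l)ᵀ h.dat h.s0 h.st hA hB' hd hf hF hF0

/-- trace of the window law against a form `Bm ≤ β` -/
theorem pr_le (hA : A * Aᵀ = Sgn N l b t s) {Bm : Matrix (V N) (V N) ℝ}
    (hB0 : ∀ u, 0 ≤ qf Bm u) {β : ℝ} (hB : ∀ u, qf Bm u ≤ β * ∑ x, u x ^ 2) :
    pr Bm (((CN N l)ᵀ * Lw w w₀ * A) * ((CN N l)ᵀ * Lw w w₀ * A)ᵀ) ≤
      kap2 N l ρ b t s w.card w₀.card * (w.card * β) := by
  have h1 := H447.pr_psd hB0 (h.up hA)
  rw [H447.pr_smul] at h1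
  refine h1.trans (mul_le_mul_of_nonneg_left ?_ (kap2_nonneg h.hl h.hb h.t0 h.s0 _ _ _))
  exact pr_dB_le h.hl hB0 hB w

/-- the window law below the blocks -/
theorem blocks (hA : A * Aᵀ = Sgn N l b t s) {ι : Type*} (S : Finset ι)
    (blk : ι → Finset (V (N / l))) (hd : ∀ i ∈ S, ∀ j ∈ S, i ≠ j → Disjoint (blk i) (blk j))
    (hcov : w ⊆ S.biUnion blk) {κ : ℝ} (hκ : kap2 N l ρ b t s w.card w₀.card ≤ κ ^ 2 * t) :
    ((κ ^ 2) • ((∑ i ∈ S, √t • ((CN N l)ᵀ * dB (blk i))) *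
        (∑ i ∈ S, √t • ((CN N l)ᵀ * dB (blk i)))ᵀ) -
      ((CN N l)ᵀ * Lw w w₀ * A) * ((CN N l)ᵀ * Lw w w₀ * A)ᵀ).PosSemidef := by
  have ht := h.t0
  have e1 : ∑ i ∈ S, √t • ((CN N l)ᵀ * dB (blk i)) = √t • ((CN N l)ᵀ * dB (S.biUnion blk)) := by
    rw [← Finset.smul_sum, ← Matrix.mul_sum, dB_sum S blk hd]
  have e2 : (∑ i ∈ S, √t • ((CN N l)ᵀ * dB (blk i))) *
      (∑ i ∈ S, √t • ((CN N l)ᵀ * dB (blk i)))ᵀ =
      t • ((CN N l)ᵀ * dB (S.biUnion blk) * CN N l) := by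
    rw [e1, Matrix.transpose_smul, Matrix.transpose_mul, dB_tr, Matrix.transpose_transpose,
      Matrix.smul_mul, Matrix.mul_smul, smul_smul, Real.mul_self_sqrt ht.le]
    congr 1
    rw [Matrix.mul_assoc, ← Matrix.mul_assoc (dB _) (dB _), dB_mul_dB, Matrix.mul_assoc]
  have h1 := h.up hA
  have h2 := psd_conj (CN N l)ᵀ (psd_dB_mono hcov)
  rw [Matrix.transpose_transpose] at h2
  have h3 := h2.smul (kap2_nonneg h.hl h.hb h.t0 h.s0 ρ w.card w₀.card)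
  have h4 := psd_conj (CN N l)ᵀ (psd_dB (S.biUnion blk))
  rw [Matrix.transpose_transpose] at h4
  have h5 := h4.smul (sub_nonneg.2 hκ)
  have h6 := (h1.add h3).add h5
  rw [e2]
  refine cast (congrArg Matrix.PosSemidef ?_) h6
  rw [smul_smul, Matrix.mul_sub, Matrix.sub_mul, smul_sub, sub_smul]
  abel

end WN

/-! ### no window -/

section full

variable {I J K : Type*} [Fintype I] [Fintype J] [Fintype K]
  {A : Matrix (V (N / l)) I ℝ} {A₂ : Matrix (V (N / l)) K ℝ} {B : Matrix (V (N / l)) J ℝ}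

lemma full_gram {M : Matrix (V (N / l)) (V (N / l)) ℝ} (hA : A * Aᵀ = M) :
    ((CN N l)ᵀ * A) * ((CN N l)ᵀ * A)ᵀ = (CN N l)ᵀ * M * ((CN N l)ᵀ)ᵀ := by
  rw [← hA, Matrix.transpose_mul]
  simp only [Matrix.mul_assoc]

theorem full_up (hb : 0 < b) (hl : l ∣ N) (ht : 0 < t) (hs : 0 < s) (hst : s < t)
    (hA : A * Aᵀ = Sgn N l b t s) :
    ((t ^ 2 / s) • SN N l - ((CN N l)ᵀ * A) * ((CN N l)ᵀ * A)ᵀ).PosSemidef := by
  refine psd_of ?_ fun v => ?_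
  · rw [Matrix.transpose_sub, Matrix.transpose_smul, gram_symm, H447.SN_tr hl]
  · rw [qf_sub_m, qf_smul_mat, ← CN_gram hl, full_gram hA, qf_conj']
    have h1 := Sgn_up_all hb hl ht hs hst (((CN N l)ᵀ)ᵀ *ᵥ v)
    have h2 : qf ((CN N l)ᵀ * CN N l) v = ∑ x, (((CN N l)ᵀ)ᵀ *ᵥ v) x ^ 2 := by
      rw [Matrix.transpose_transpose]
      exact H37.qf_gram (CN N l) v
    rw [h2]
    linarith

theorem full_add (hA : A * Aᵀ = Sgn N l b t s) (hB : B * Bᵀ = Sgn N l b t r - Sgn N l b t s)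
    (hA₂ : A₂ * A₂ᵀ = Sgn N l b t r) :
    ((CN N l)ᵀ * A₂) * ((CN N l)ᵀ * A₂)ᵀ =
      ((CN N l)ᵀ * A) * ((CN N l)ᵀ * A)ᵀ + ((CN N l)ᵀ * B) * ((CN N l)ᵀ * B)ᵀ := by
  rw [full_gram hA, full_gram hB, full_gram hA₂, ← Matrix.add_mul, ← Matrix.mul_add,
    add_sub_cancel]

theorem full_K4 (hb : 0 < b) (hl : l ∣ N) (ht : 0 < t) (hs : 0 < s) (hst : s < t)
    (hA : A * Aᵀ = Sgn N l b t s) :
    K4S (nwt N b t 0) (((CN N l)ᵀ * A) * ((CN N l)ᵀ * A)ᵀ) (((CN N l)ᵀ * A) * ((CN N l)ᵀ * A)ᵀ) ≤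
      (t ^ 2 / s) ^ 2 * K4S (nwt N b t 0) (SN N l) (SN N l) := by
  have h1 := H447.K4S_psd (em_nwt hb.le ht 0) (ev_nwt hb.le t 0) (pk_nwt hb.le ht 0)
    (H447.psd_gram ((CN N l)ᵀ * A)) (full_up hb hl ht hs hst hA)
  rwa [H447.K4S_smul2] at h1

theorem full_pr (hb : 0 < b) (hl : l ∣ N) (ht : 0 < t) (hs : 0 < s) (hst : s < t)
    (hA : A * Aᵀ = Sgn N l b t s) {Bm : Matrix (V N) (V N) ℝ}
    (hB0 : ∀ u, 0 ≤ qf Bm u) {β : ℝ} (hB : ∀ u, qf Bm u ≤ β * ∑ x, u x ^ 2) :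
    pr Bm (((CN N l)ᵀ * A) * ((CN N l)ᵀ * A)ᵀ) ≤
      t ^ 2 / s * (((N / l : ℕ) : ℝ) ^ 2 * β) := by
  have h1 := H447.pr_psd hB0 (full_up hb hl ht hs hst hA)
  rw [H447.pr_smul] at h1
  refine h1.trans (mul_le_mul_of_nonneg_left ?_ (by positivity))
  have h2 := pr_dB_le hl hB0 hB (Finset.univ : Finset (V (N / l)))
  rw [dB_univ, Matrix.mul_one, CN_gram hl, Finset.card_univ] at h2
  rw [← H963.cardV]
  exact h2

theorem full_test (hb : 0 < b) (hl : l ∣ N) (ht : 0 < t) (hs : 0 < s) (hst : s < t)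
    (hA : A * Aᵀ = Sgn N l b t s) {B : Matrix (V (N / l)) K ℝ} (hc : (1 - B * Bᵀ).PosSemidef) :
    (((CN N l)ᵀ * A) * ((CN N l)ᵀ * A)ᵀ -
      (t - s) • (((CN N l)ᵀ * B) * ((CN N l)ᵀ * B)ᵀ)).PosSemidef := by
  have h1 : (Sgn N l b t s - (t - s) • (1 : Matrix (V (N / l)) (V (N / l)) ℝ)).PosSemidef :=
    (dat_neu' hb hl ht).low hs hst
  have h2 := hc.smul (by linarith : 0 ≤ t - s)
  have h3 := psd_conj (CN N l)ᵀ (h1.add h2)
  refine cast (congrArg Matrix.PosSemidef ?_) h3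
  rw [full_gram hA, full_gram (rfl : B * Bᵀ = B * Bᵀ), smul_sub]
  have : Sgn N l b t s - (t - s) • (1 : Matrix (V (N / l)) (V (N / l)) ℝ) +
      ((t - s) • (1 : Matrix (V (N / l)) (V (N / l)) ℝ) - (t - s) • (B * Bᵀ)) =
      Sgn N l b t s - (t - s) • (B * Bᵀ) := by abel
  rw [this, Matrix.mul_sub, Matrix.sub_mul, Matrix.mul_smul, Matrix.smul_mul]

end full

/-! ### the letters of the list P_up -/

theorem kap2_eq (N l ρ : ℕ) (b t s : ℝ) (k k₀ : ℕ) :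
    kap2 N l ρ b t s k k₀ = 2 * t * (wc N l ρ b t s * (2 + 2 * (k : ℝ) / k₀)) := by
  unfold kap2
  ring

/-- **the loss of a window**: `ρ l ≤ R` -/
theorem wc_le {ρ : ℕ} {R : ℝ} (hb : 0 ≤ b) (hr : 0 < r) (hR : (ρ : ℝ) * l ≤ R)
    (hN : 1 ≤ N / l) :
    wc N l ρ b t r ≤ 1 + 18 * (R ^ 2 * t) ^ 2 *
      (b / (r * (N : ℝ) ^ 2) + b ^ 2 * (1 + Real.log ((N / l : ℕ) : ℝ))) := by
  have hlog : 0 ≤ Real.log ((N / l : ℕ) : ℝ) := Real.log_nonneg (by exact_mod_cast hN)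
  set q : ℝ := b / (r * (N : ℝ) ^ 2) + b ^ 2 * (1 + Real.log ((N / l : ℕ) : ℝ)) with hq
  have hq0 : 0 ≤ q := by positivity
  have e : wc N l ρ b t r = 1 + (2 * (ρ : ℝ) + 1) ^ 2 * (2 * (ρ : ℝ) ^ 2) *
      ((t * (l : ℝ) ^ 2) ^ 2 * q) := rfl
  rw [e]
  have h1 : (2 * (ρ : ℝ) + 1) ^ 2 * (2 * (ρ : ℝ) ^ 2) ≤ 18 * (ρ : ℝ) ^ 4 := by
    rcases Nat.eq_zero_or_pos ρ with h0 | h0
    · subst h0; simp
    · have h2 : (1 : ℝ) ≤ ρ := by exact_mod_cast h0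
      have h3 : (2 * (ρ : ℝ) + 1) ^ 2 ≤ 9 * (ρ : ℝ) ^ 2 := by nlinarith
      nlinarith [mul_le_mul_of_nonneg_right h3 (by positivity : 0 ≤ 2 * (ρ : ℝ) ^ 2)]
  have h2 : ((ρ : ℝ) * l) ^ 4 ≤ R ^ 4 := pow_le_pow_left₀ (by positivity) hR 4
  have h3 : (2 * (ρ : ℝ) + 1) ^ 2 * (2 * (ρ : ℝ) ^ 2) * ((t * (l : ℝ) ^ 2) ^ 2 * q) ≤
      18 * (R ^ 2 * t) ^ 2 * q := by
    calc (2 * (ρ : ℝ) + 1) ^ 2 * (2 * (ρ : ℝ) ^ 2) * ((t * (l : ℝ) ^ 2) ^ 2 * q)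
        ≤ 18 * (ρ : ℝ) ^ 4 * ((t * (l : ℝ) ^ 2) ^ 2 * q) :=
          mul_le_mul_of_nonneg_right h1 (by positivity)
      _ = 18 * t ^ 2 * q * ((ρ : ℝ) * l) ^ 4 := by ring
      _ ≤ 18 * t ^ 2 * q * R ^ 4 := mul_le_mul_of_nonneg_left h2 (by positivity)
      _ = _ := by ring
  linarith

end torus

section list

open Vale.Agent.P159.H972 (DN)

/-- **the fourth cumulant of the window law in the letters of the induction state** -/
theorem WN.K4_DN {n R S : ℕ} [NeZero (2 ^ R / 2 ^ S)] {b t s r : ℝ}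
    {w w₀ : Finset (V (2 ^ R / 2 ^ S))} {c : V (2 ^ R / 2 ^ S)} {ρ : ℕ}
    (h : WN (2 ^ R) (2 ^ S) b t s r w w₀ c ρ) {I : Type*} [Fintype I]
    {A : Matrix (V (2 ^ R / 2 ^ S)) I ℝ} (hA : A * Aᵀ = Sgn (2 ^ R) (2 ^ S) b t s) :
    K4S (nwt (2 ^ R) b t 0)
        (((CN (2 ^ R) (2 ^ S))ᵀ * Lw w w₀ * A) * ((CN (2 ^ R) (2 ^ S))ᵀ * Lw w w₀ * A)ᵀ)
        (((CN (2 ^ R) (2 ^ S))ᵀ * Lw w w₀ * A) * ((CN (2 ^ R) (2 ^ S))ᵀ * Lw w w₀ * A)ᵀ) ≤
      8 * (wc (2 ^ R) (2 ^ S) ρ b t s * (2 + 2 * (w.card : ℝ) / w₀.card)) ^ 2 *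
        (w.card * (2 ^ S / 2 ^ n) ^ 2) * DN b n R S t := by
  refine (h.K4 hA).trans (le_of_eq ?_)
  rw [kap2_eq]
  unfold DN
  have ht := h.t0
  push_cast
  generalize K4S (nwt (2 ^ R) b t 0) (SN (2 ^ R) (2 ^ S)) (SN (2 ^ R) (2 ^ S)) = q
  generalize wc (2 ^ R) (2 ^ S) ρ b t s * (2 + 2 * (w.card : ℝ) / w₀.card) = p
  field_simp
  ring

/-- the whole torus -/
theorem full_K4_DN {n R S : ℕ} [NeZero (2 ^ R / 2 ^ S)] {b t s : ℝ} (hb : 0 < b) (hS : S ≤ R)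
    (ht : 0 < t) (hs : 0 < s) (hst : s < t) {I : Type*} [Fintype I]
    {A : Matrix (V (2 ^ R / 2 ^ S)) I ℝ} (hA : A * Aᵀ = Sgn (2 ^ R) (2 ^ S) b t s) :
    K4S (nwt (2 ^ R) b t 0)
        (((CN (2 ^ R) (2 ^ S))ᵀ * A) * ((CN (2 ^ R) (2 ^ S))ᵀ * A)ᵀ)
        (((CN (2 ^ R) (2 ^ S))ᵀ * A) * ((CN (2 ^ R) (2 ^ S))ᵀ * A)ᵀ) ≤
      2 * (t / s) ^ 2 * (2 ^ R / 2 ^ n) ^ 2 * DN b n R S t := by
  refine (full_K4 hb (Nat.pow_dvd_pow 2 hS) ht hs hst hA).trans (le_of_eq ?_)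
  unfold DN
  generalize K4S (nwt (2 ^ R) b t 0) (SN (2 ^ R) (2 ^ S)) (SN (2 ^ R) (2 ^ S)) = q
  field_simp

end list

end

end Vale.Agent.P159.H859
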