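import Vale.Agent.P159.H447.Cg9
import Vale.Agent.P159.H859.Win2
import Vale.Agent.P159.H663.Tail

/-!
P159 / module TYP (helper859): every bad-set probability of one step of P_up from ONE number, the
exact probability of `{Rs (Q J) > 1}` for the zero source (output of APT).

Prior `s`, posterior `T`, `μ = nwt N b T 0`, source `J = CNᵀ A g`, `A Aᵀ = Sgn N l b T s`.

* `gau_le_exact` : `P_G (X g ∈ S) ≤ e^ρ / (1 - p) * P_exact (S)`.
* `Typ` : the hypothesis; `gau_le`, `exact_le` for every measurable set.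
* `Typ.apg` : a-priori probability for every covariance `≤ κ² (CNᵀ A)(CNᵀ A)ᵀ`;
  `ap_win` (windows), `ap_noise` (white cell noise), `ap_test`, `ap_prior` (larger priors).
* `Typ.close_gau`, `Typ.close_exact`, `Typ.gs` : closure under both laws.
-/

set_option linter.unusedSectionVars false

namespace Vale.Agent.P159.H859

open Finset Matrix MeasureTheory
open Vale.Agent.P159.TM.H104 (EM)
open Vale.Agent.P159.TM.Spec (V)
open Vale.Agent.P159.H37
open Vale.Agent.P159.H730 (RL wN)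
open Vale.Agent.P159.H963 (nwt obsN Gnc em_nwt ev_nwt pk_nwt)
open Vale.Agent.P159.H447 (K4S SN CN CN_gram Maj Ful Wg WA kw kw_pos cl cl_mono cl_nonneg Gs
  Bnwt K4S_psd K4S_smul2 psd_gram maj_nwt bad_law rl_tor post_wN)

noncomputable section

/-! ### abstract part -/

section abs

variable {V : Type*} [Fintype V] {I I' : Type*} [Fintype I] [Fintype I'] [DecidableEq I]
variable {μ' : (V → ℤ) → ℝ} {P : Matrix I V ℝ} {X : Matrix V I' ℝ}

/-- **Gaussian probabilities from exact ones** -/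
theorem gau_le_exact (hX : RL μ' P X) {S G : Set (V → ℝ)} (hS : MeasurableSet S)
    (hG : MeasurableSet G) {ρ p : ℝ} (hR : ∀ J ∈ G, Rs (post μ' P) J ≤ ρ)
    (hp : Ech μ' 0 P (Gᶜ.indicator fun _ => (1 : ℝ)) ≤ p) (hp1 : p < 1) :
    (gau I').real {g | X *ᵥ g ∈ S} ≤
      Real.exp ρ / (1 - p) * Ech μ' 0 P (S.indicator fun _ => (1 : ℝ)) := by
  have c1 : H663.ChI μ' 0 P fun _ => (1 : ℝ) := H730.chi_one hX
  have cS := H730.chi_ind' hX measurable_const c1 hS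
  have hp' : 1 - p ≤ Ech μ' 0 P (G.indicator fun _ => (1 : ℝ)) := by
    have h1 := H730.split_good hX measurable_const c1 hG
    rw [Ech_const hX.em] at h1
    linarith
  have h1 := hX.G_le (Φ := S.indicator fun _ => (1 : ℝ)) (measurable_const.indicator hS)
    (fun J => Set.indicator_nonneg (fun _ _ => zero_le_one) J) cS
  have h2 := hX.norm_le hG hR hp'
  have h3 : 0 ≤ Ech μ' 0 P (S.indicator fun _ => (1 : ℝ)) :=
    Ech_nonneg hX.em _ _ fun J => Set.indicator_nonneg (fun _ _ => zero_le_one) J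
  have h4 : ∫ g, Real.exp (Rs (post μ' P) (X *ᵥ g)) ∂(gau I') ≤ Real.exp ρ / (1 - p) := by
    rw [le_div_iff₀ (by linarith), mul_comm]
    exact h2
  have mX : Measurable fun g : I' → ℝ => X *ᵥ g := H552.meas_mulVec _
  have hms : MeasurableSet {g : I' → ℝ | X *ᵥ g ∈ S} := mX hS
  have e1 : (gau I').real {g | X *ᵥ g ∈ S} =
      ∫ g, S.indicator (fun _ => (1 : ℝ)) (X *ᵥ g) ∂(gau I') := by
    have e2 : ∀ g : I' → ℝ, S.indicator (fun _ => (1 : ℝ)) (X *ᵥ g) =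
        {g : I' → ℝ | X *ᵥ g ∈ S}.indicator (fun _ => (1 : ℝ)) g := by
      intro g
      by_cases hg : X *ᵥ g ∈ S
      · have hg' : g ∈ {g : I' → ℝ | X *ᵥ g ∈ S} := hg
        rw [Set.indicator_of_mem hg, Set.indicator_of_mem hg']
      · have hg' : g ∉ {g : I' → ℝ | X *ᵥ g ∈ S} := hg
        rw [Set.indicator_of_notMem hg, Set.indicator_of_notMem hg']
    simp only [e2]
    rw [integral_indicator hms, setIntegral_const, smul_eq_mul, mul_one]
  rw [e1]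
  exact h1.trans (mul_le_mul_of_nonneg_right h4 h3)

end abs

/-! ### the torus -/

variable {N l : ℕ} [NeZero N] [NeZero (N / l)]
variable {b T s : ℝ} {I J K : Type*} [Fintype I] [Fintype J] [Fintype K]
variable {A : Matrix (V (N / l)) I ℝ}

/-- exact probability of a set of sources -/
def PE (N l : ℕ) [NeZero N] [NeZero (N / l)] (b T s : ℝ) (S : Set (V N → ℝ)) : ℝ :=
  Ech (wN N l b T s) 0 (obsN N l (T - s)) (S.indicator fun _ => (1 : ℝ))

/-- the set `{Rs (Q J) ≤ 1}` -/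
def RQ (N : ℕ) [NeZero N] (b T Q r : ℝ) : Set (V N → ℝ) := {J | Rs (nwt N b T 0) (Q • J) ≤ r}

/-- **the typical set**: amplitude `Q`, probability `p` -/
structure Typ (N l : ℕ) [NeZero N] [NeZero (N / l)] (b T s : ℝ)
    (A : Matrix (V (N / l)) I ℝ) (Q p : ℝ) : Prop extends Ful N l b T s A where
  Q1 : 1 ≤ Q
  p1 : p ≤ 1 / 2
  typ : PE N l b T s (RQ N b T Q 1)ᶜ ≤ p

lemma RQ_meas (hb : 0 ≤ b) (hT : 0 < T) (Q r : ℝ) : MeasurableSet (RQ N b T Q r) :=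
  measurableSet_le ((maj_nwt (N := N) hb hT 0).mR.comp (measurable_const_smul Q)) measurable_const

lemma PE_mono (hb : 0 ≤ b) (hl : l ∣ N) (hs : 0 < s) (hsT : s < T) {S S' : Set (V N → ℝ)}
    (hS : MeasurableSet S) (hS' : MeasurableSet S') (h : S ⊆ S') :
    PE N l b T s S ≤ PE N l b T s S' := by
  have hE : EM (wN N l b T s) := H963.em_nMC hb hl hs hsT.le 0
  refine H37.Ech_mono hE 0 _ (H663.EGr.ind hS) (H663.EGr.ind hS') fun J => ?_
  exact Set.indicator_le_indicator_of_subset h (fun _ => zero_le_one) J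

lemma PE_nonneg (hb : 0 ≤ b) (hl : l ∣ N) (hs : 0 < s) (hsT : s < T) (S : Set (V N → ℝ)) :
    0 ≤ PE N l b T s S :=
  Ech_nonneg (H963.em_nMC hb hl hs hsT.le 0) _ _
    fun J => Set.indicator_nonneg (fun _ _ => zero_le_one) J

/-- larger radius, smaller set: `{Rs (Q J) ≤ 1} ⊆ {Rs (r J) ≤ 1}` for `r ≤ Q` -/
lemma RQ_sub (hb : 0 ≤ b) (hT : 0 < T) {Q r : ℝ} (hr : 0 ≤ r) (hrQ : r ≤ Q) (x : ℝ) :
    RQ N b T Q x ⊆ RQ N b T r x := by
  intro J hJ
  have h := maj_nwt (N := N) hb hT 0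
  exact (H789.Rs_ray_mono h.em h.ev h.pk J hr hrQ).trans hJ

lemma exp_one_le : Real.exp 1 ≤ 3 := by
  have := Real.exp_one_lt_d9
  linarith

namespace Typ

variable {Q p : ℝ} (h : Typ N l b T s A Q p)
include h

lemma maj : Maj (nwt N b T 0) (Bnwt N T 0) := maj_nwt h.b0.le h.T0 0

lemma Q0 : 0 ≤ Q := zero_le_one.trans h.Q1

lemma p0 : 0 ≤ p := (PE_nonneg h.b0.le h.dl h.s0 h.sT _).trans h.typ

lemma R1 {F : V N → ℝ} (hF : F ∈ RQ N b T Q 1) : Rs (nwt N b T 0) F ≤ 1 := by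
  have h1 := RQ_sub h.b0.le h.T0 zero_le_one h.Q1 1 hF
  have h2 : Rs (nwt N b T 0) ((1 : ℝ) • F) ≤ 1 := h1
  rwa [one_smul] at h2

/-- **Gaussian probabilities** of any set of sources -/
theorem gau_le {S : Set (V N → ℝ)} (hS : MeasurableSet S) :
    (gau I).real {g | ((CN N l)ᵀ * A) *ᵥ g ∈ S} ≤ 6 * PE N l b T s S := by
  have hX := rl_tor (N := N) (l := l) h.b0.le h.dl h.s0 h.sT h.cov
  have hq := post_wN (N := N) (l := l) (b := b) h.dl h.sT.le
  have h1 := gau_le_exact hX hS (RQ_meas h.b0.le h.T0 Q 1) (ρ := 1)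
    (fun F hF => by rw [hq]; exact h.R1 hF) h.typ (by linarith [h.p1])
  refine h1.trans (mul_le_mul_of_nonneg_right ?_ (PE_nonneg h.b0.le h.dl h.s0 h.sT S))
  rw [div_le_iff₀ (by linarith [h.p1])]
  have := exp_one_le
  nlinarith [h.p1]

/-- **exact probabilities** of any set of sources -/
theorem exact_le {S : Set (V N → ℝ)} (hS : MeasurableSet S) :
    PE N l b T s S ≤ p + 3 * (gau I).real {g | ((CN N l)ᵀ * A) *ᵥ g ∈ S} := by
  have h1 := bad_law (N := N) (l := l) h.b0.le h.dl h.s0 h.sT h.cov (Gd := Sᶜ)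
    (G0 := RQ N b T Q 1) (η := 1) hS.compl (RQ_meas h.b0.le h.T0 Q 1) fun F hF => h.R1 hF
  rw [compl_compl] at h1
  have e1 : {g : I → ℝ | ((CN N l)ᵀ * A) *ᵥ g ∉ Sᶜ} = {g | ((CN N l)ᵀ * A) *ᵥ g ∈ S} := by
    ext g
    simp
  rw [e1] at h1
  refine h1.trans (add_le_add h.typ (mul_le_mul_of_nonneg_right exp_one_le measureReal_nonneg))

/-- **a-priori probability** for smaller covariances -/
theorem apg {Y : Matrix (V N) J ℝ} {κ r : ℝ} (hr : 0 ≤ r * κ) (hrQ : r * κ ≤ Q)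
    (hY : ((κ ^ 2) • (((CN N l)ᵀ * A) * ((CN N l)ᵀ * A)ᵀ) - Y * Yᵀ).PosSemidef) :
    (gau J).real {g | 1 < Rs (nwt N b T 0) (r • (Y *ᵥ g))} ≤ 12 * p := by
  have h1 := h.maj.prob_psd r κ hY 1
  have h2 : (gau I).real {g | 1 < Rs (nwt N b T 0) ((r * κ) • (((CN N l)ᵀ * A) *ᵥ g))} ≤
      6 * p := by
    have h3 := h.gau_le (RQ_meas (N := N) h.b0.le h.T0 Q 1).compl
    have h4 := h.typ
    refine (measureReal_mono fun g hg => ?_).trans (h3.trans (by linarith))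
    intro hc
    have h5 : Rs (nwt N b T 0) ((r * κ) • (((CN N l)ᵀ * A) *ᵥ g)) ≤ 1 :=
      RQ_sub h.b0.le h.T0 hr hrQ 1 hc
    exact (not_lt.2 h5) hg
  linarith

/-- the covariance of the source from below -/
lemma low : (((CN N l)ᵀ * A) * ((CN N l)ᵀ * A)ᵀ - (T - s) • ((CN N l)ᵀ * CN N l)).PosSemidef := by
  have h1 : (Sgn N l b T s - (T - s) • (1 : Matrix (V (N / l)) (V (N / l)) ℝ)).PosSemidef :=
    (dat_neu' h.b0 h.dl h.T0).low h.s0 h.sT
  have h2 := psd_conj (CN N l)ᵀ h1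
  refine cast (congrArg Matrix.PosSemidef ?_) h2
  rw [full_gram h.cov, Matrix.mul_sub, Matrix.sub_mul, Matrix.mul_smul, Matrix.smul_mul,
    Matrix.mul_one, Matrix.transpose_transpose]

/-- windows -/
theorem ap_win {w w₀ : Finset (V (N / l))} {c : V (N / l)} {ρ : ℕ} (hw : Wg N l b T w w₀ c ρ)
    (hs : s ≤ T / 2) {r : ℝ} (hr : 0 ≤ r) (hrQ : r * √(2 * kw N l ρ b T s w w₀) ≤ Q) :
    (gau I).real {g | 1 < Rs (nwt N b T 0) (r • (WA N l w w₀ A *ᵥ g))} ≤ 12 * p := by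
  have hk := kw_pos (T := T) (w := w) (w₀ := w₀) (ρ := ρ) h.b0 h.dl h.s0
  have T0 := h.T0
  refine h.apg (κ := √(2 * kw N l ρ b T s w w₀)) (mul_nonneg hr (Real.sqrt_nonneg _)) hrQ ?_
  rw [Real.sq_sqrt (by positivity)]
  have h1 := hw.up h.s0 h.sT h.cov
  have h2 := psd_conj (CN N l)ᵀ (psd_dB_mono (N := N) (l := l) (Finset.subset_univ w))
  rw [dB_univ, Matrix.transpose_transpose] at h2
  have h3 := h2.smul (mul_nonneg T0.le hk.le)
  have h4 := h.low.smul (by positivity : 0 ≤ 2 * kw N l ρ b T s w w₀)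
  have h5 : ((CN N l)ᵀ * CN N l).PosSemidef := by
    have := psd_gram (CN N l)ᵀ
    rwa [Matrix.transpose_transpose] at this
  have h6 := h5.smul (by nlinarith : 0 ≤ 2 * kw N l ρ b T s w w₀ * (T - s) -
    T * kw N l ρ b T s w w₀)
  have h7 := ((h1.add h3).add h4).add h6
  refine cast (congrArg Matrix.PosSemidef ?_) h7
  rw [Matrix.mul_sub, Matrix.sub_mul, Matrix.mul_one]
  module

/-- contractions of the white cell noise: `√κ' CNᵀ B g`, `κ' ≤ T - s` -/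
theorem ap_test {B : Matrix (V (N / l)) K ℝ} (hc : (1 - B * Bᵀ).PosSemidef) {κ' r : ℝ}
    (hk0 : 0 ≤ κ') (hk : κ' ≤ T - s) (hr : 0 ≤ r) (hrQ : r ≤ Q) :
    (gau K).real {g | 1 < Rs (nwt N b T 0) (r • ((√κ' • ((CN N l)ᵀ * B)) *ᵥ g))} ≤ 12 * p := by
  refine h.apg (κ := 1) (by linarith) (by linarith) ?_
  have h1 := h.low
  have h2 := (psd_conj (CN N l)ᵀ hc).smul hk0
  rw [Matrix.transpose_transpose] at h2
  have h5 : ((CN N l)ᵀ * CN N l).PosSemidef := by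
    have := psd_gram (CN N l)ᵀ
    rwa [Matrix.transpose_transpose] at this
  have h6 := h5.smul (by linarith : 0 ≤ T - s - κ')
  have h7 := (h1.add h2).add h6
  refine cast (congrArg Matrix.PosSemidef ?_) h7
  have e1 : (√κ' • ((CN N l)ᵀ * B)) * (√κ' • ((CN N l)ᵀ * B))ᵀ =
      κ' • ((CN N l)ᵀ * (B * Bᵀ) * CN N l) := by
    rw [Matrix.transpose_smul, Matrix.smul_mul, Matrix.mul_smul, smul_smul,
      Real.mul_self_sqrt hk0, Matrix.transpose_mul, Matrix.transpose_transpose]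
    simp only [Matrix.mul_assoc]
  rw [e1, Matrix.mul_sub, Matrix.sub_mul, Matrix.mul_one]
  module

/-- white cell noise -/
theorem ap_noise {κ' r : ℝ} (hk0 : 0 ≤ κ') (hk : κ' ≤ T - s) (hr : 0 ≤ r) (hrQ : r ≤ Q) :
    (gau (V (N / l))).real
      {g | 1 < Rs (nwt N b T 0) (r • ((√κ' • (CN N l)ᵀ) *ᵥ g))} ≤ 12 * p := by
  have h1 := h.ap_test (B := (1 : Matrix (V (N / l)) (V (N / l)) ℝ)) (by
    rw [Matrix.transpose_one, Matrix.mul_one, sub_self]
    exact Matrix.PosSemidef.zero) hk0 hk hr hrQ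
  rwa [Matrix.mul_one] at h1

/-- larger priors -/
theorem ap_prior {s' : ℝ} (hs' : s ≤ s') (hsT : s' < T) {A' : Matrix (V (N / l)) K ℝ}
    (hA' : A' * A'ᵀ = Sgn N l b T s') {r : ℝ} (hr : 0 ≤ r) (hrQ : r ≤ Q) :
    (gau K).real {g | 1 < Rs (nwt N b T 0) (r • (((CN N l)ᵀ * A') *ᵥ g))} ≤ 12 * p := by
  refine h.apg (κ := 1) (by linarith) (by linarith) ?_
  have h1 : (Sgn N l b T s - Sgn N l b T s').PosSemidef :=
    (dat_neu' h.b0 h.dl h.T0).mono h.s0 hs' hsT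
  have h2 := psd_conj (CN N l)ᵀ h1
  refine cast (congrArg Matrix.PosSemidef ?_) h2
  rw [full_gram h.cov, full_gram hA', Matrix.mul_sub, Matrix.sub_mul, one_pow, one_smul]

/-! ### closure -/

/-- **closure, Gaussian law**, any smaller covariance -/
theorem close_gau {Y : Matrix (V N) J ℝ} {κ r : ℝ} {n : ℕ} (hr : 0 ≤ r) (hκ : 0 ≤ κ)
    (hrQ : (2 : ℝ) ^ (n + 1) * r * κ ≤ Q)
    (hY : ((κ ^ 2) • (((CN N l)ᵀ * A) * ((CN N l)ᵀ * A)ᵀ) - Y * Yᵀ).PosSemidef)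
    {D lam : ℝ} (hD : 0 < D) (hK : r ^ 4 * K4S (nwt N b T 0) (Y * Yᵀ) (Y * Yᵀ) ≤ D)
    (hl : 0 ≤ lam) :
    (gau J).real {g | ¬ (Rs (nwt N b T 0) (r • (Y *ᵥ g)) ≤ cl n (8 * (lam * D)) ∧
      Tq (nwt N b T 0) (r • (Y *ᵥ g)) ≤ cl n (8 * (lam * D)))} ≤
      12 * p + 6 * Real.exp (-(√lam / 10)) := by
  have h1 : K4S (nwt N b T 0) ((r • Y) * (r • Y)ᵀ) ((r • Y) * (r • Y)ᵀ) ≤ D := by
    have e : (r • Y) * (r • Y)ᵀ = (r ^ 2) • (Y * Yᵀ) := by
      rw [Matrix.transpose_smul, Matrix.smul_mul, Matrix.mul_smul, smul_smul, pow_two]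
    rw [e, K4S_smul2]
    refine le_trans (le_of_eq ?_) hK
    ring
  have h2 := h.maj.RT_prob (r • Y) hD h1 n hl (p := 12 * p) (by
    have h3 := h.apg (Y := Y) (κ := κ) (r := (2 : ℝ) ^ (n + 1) * r) (by positivity) hrQ hY
    simp only [Matrix.smul_mulVec, smul_smul]
    exact h3)
  simp only [Matrix.smul_mulVec] at h2
  exact h2

/-- **closure of the whole source, Gaussian law** -/
theorem close {r : ℝ} {n : ℕ} (hr : 0 ≤ r) (hrQ : (2 : ℝ) ^ (n + 1) * r ≤ Q)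
    {D lam : ℝ} (hD : 0 < D)
    (hK : r ^ 4 * ((T ^ 2 / s) ^ 2 * K4S (nwt N b T 0) (SN N l) (SN N l)) ≤ D) (hl : 0 ≤ lam) :
    (gau I).real {g | ¬ (Rs (nwt N b T 0) (r • (((CN N l)ᵀ * A) *ᵥ g)) ≤ cl n (8 * (lam * D)) ∧
      Tq (nwt N b T 0) (r • (((CN N l)ᵀ * A) *ᵥ g)) ≤ cl n (8 * (lam * D)))} ≤
      12 * p + 6 * Real.exp (-(√lam / 10)) := by
  refine h.close_gau (κ := 1) hr zero_le_one (by linarith) ?_ hD ?_ hl
  · rw [one_pow, one_smul, sub_self]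
    exact Matrix.PosSemidef.zero
  · refine le_trans (mul_le_mul_of_nonneg_left h.toFul.K4 (by positivity)) hK

/-- **closure of the whole source, exact law** -/
theorem close_exact {r : ℝ} {n : ℕ} (hr : 0 ≤ r) (hrQ : (2 : ℝ) ^ (n + 1) * r ≤ Q)
    {D lam : ℝ} (hD : 0 < D)
    (hK : r ^ 4 * ((T ^ 2 / s) ^ 2 * K4S (nwt N b T 0) (SN N l) (SN N l)) ≤ D) (hl : 0 ≤ lam) :
    PE N l b T s (RQ N b T r (cl n (8 * (lam * D))))ᶜ ≤
      37 * p + 18 * Real.exp (-(√lam / 10)) := by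
  have h1 := h.exact_le (RQ_meas (N := N) h.b0.le h.T0 r (cl n (8 * (lam * D)))).compl
  have h2 := h.close hr hrQ hD hK hl
  have h3 : (gau I).real {g | ((CN N l)ᵀ * A) *ᵥ g ∈ (RQ N b T r (cl n (8 * (lam * D))))ᶜ} ≤
      12 * p + 6 * Real.exp (-(√lam / 10)) := by
    refine (measureReal_mono fun g hg hc => ?_).trans h2
    exact hg hc.1
  linarith

/-- the good set `Gs`, Gaussian law -/
theorem gs_gau {n : ℕ} (hrQ : (2 : ℝ) ^ (n + 1) ≤ Q) {D lam : ℝ} (hD : 0 < D)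
    (hK : (T ^ 2 / s) ^ 2 * K4S (nwt N b T 0) (SN N l) (SN N l) ≤ D) (hl : 0 ≤ lam) :
    (gau I).real {g | ((CN N l)ᵀ * A) *ᵥ g ∉ Gs (nwt N b T 0) n (lam * D)} ≤
      12 * p + 6 * Real.exp (-(√lam / 10)) := by
  refine h.maj.Gs_prob _ hD (h.toFul.K4.trans hK) n hl ?_
  refine h.apg (κ := 1) (by positivity) (by linarith) ?_
  rw [one_pow, one_smul, sub_self]
  exact Matrix.PosSemidef.zero

/-- **the good set `Gs`, exact law** -/
theorem gs {n : ℕ} (hrQ : (2 : ℝ) ^ (n + 1) ≤ Q) {D lam : ℝ} (hD : 0 < D)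
    (hK : (T ^ 2 / s) ^ 2 * K4S (nwt N b T 0) (SN N l) (SN N l) ≤ D) (hl : 0 ≤ lam) :
    PE N l b T s (Gs (nwt N b T 0) n (lam * D))ᶜ ≤ 37 * p + 18 * Real.exp (-(√lam / 10)) := by
  have h1 := h.exact_le (h.maj.Gs_meas n (lam * D)).compl
  have h2 := h.gs_gau hrQ hD hK hl
  have h3 : (gau I).real {g | ((CN N l)ᵀ * A) *ᵥ g ∈ (Gs (nwt N b T 0) n (lam * D))ᶜ} ≤
      12 * p + 6 * Real.exp (-(√lam / 10)) := h2
  linarith

/-- white cell noise, closure: the second probability of the linear response bound -/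
theorem noise {κ' r : ℝ} {n : ℕ} (hk0 : 0 ≤ κ') (hk : κ' ≤ T - s) (hr : 0 ≤ r)
    (hrQ : (2 : ℝ) ^ (n + 1) * r ≤ Q) {D lam : ℝ} (hD : 0 < D)
    (hK : r ^ 4 * (κ' ^ 2 * K4S (nwt N b T 0) (SN N l) (SN N l)) ≤ D) (hl : 0 ≤ lam) :
    (gau (V (N / l))).real {g | ¬ (Rs (nwt N b T 0) (r • ((√κ' • (CN N l)ᵀ) *ᵥ g)) ≤
        cl n (8 * (lam * D)) ∧
      Tq (nwt N b T 0) (r • ((√κ' • (CN N l)ᵀ) *ᵥ g)) ≤ cl n (8 * (lam * D)))} ≤
      12 * p + 6 * Real.exp (-(√lam / 10)) := by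
  have e1 : (√κ' • (CN N l)ᵀ) * (√κ' • (CN N l)ᵀ)ᵀ = κ' • ((CN N l)ᵀ * CN N l) := by
    rw [Matrix.transpose_smul, Matrix.smul_mul, Matrix.mul_smul, smul_smul,
      Real.mul_self_sqrt hk0, Matrix.transpose_transpose]
  refine h.close_gau (κ := 1) hr zero_le_one (by linarith) ?_ hD ?_ hl
  · have h5 : ((CN N l)ᵀ * CN N l).PosSemidef := by
      have := psd_gram (CN N l)ᵀ
      rwa [Matrix.transpose_transpose] at this
    have h6 := h.low.add (h5.smul (by linarith : 0 ≤ T - s - κ'))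
    refine cast (congrArg Matrix.PosSemidef ?_) h6
    rw [e1]
    module
  · rw [e1, K4S_smul2, CN_gram h.dl]
    exact hK

end Typ

/-- the hypothesis from the good set of `ap4` -/
theorem Typ.of_Gs (hF : Ful N l b T s A) {n : ℕ} {x p : ℝ} (hp : p ≤ 1 / 2)
    (hG : Ech (wN N l b T s) 0 (obsN N l (T - s)) (H663.ind (Gs (nwt N b T 0) n x)ᶜ) ≤ p) :
    Typ N l b T s A ((2 : ℝ) ^ (n + 1)) p where
  toFul := hF
  Q1 := one_le_pow₀ one_le_two
  p1 := hp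
  typ := by
    have hm := hF.maj.Gs_meas n x
    refine (PE_mono hF.b0.le hF.dl hF.s0 hF.sT (RQ_meas hF.b0.le hF.T0 _ 1).compl hm.compl
      (Set.compl_subset_compl.2 fun J hJ => hJ.1)).trans hG

end

end Vale.Agent.P159.H859
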