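import Vale.Agent.P159.H859.Idl3
import Vale.Agent.P159.H686.LvS
import Vale.Agent.P159.H972.Good
import Vale.Agent.P159.H462.In3Sum
import Vale.Agent.P159.H817.St11

/-!
P159 / ideal pair (helper859), part 4: the exact quadratic form of the ideal correction `gsR`, and
the comparison of the shifted window with the window (helper686's `cmp` for `wdS`).
-/

open MeasureTheory Finset Matrix

set_option linter.unusedSectionVars false

namespace Vale.Agent.P159.H859.Idl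

open Vale.Agent.P159.TM.Spec (V)
open Vale.Agent.P159.TM.SpecC (wT)
open Vale.Agent.P159.TM.H764 (EE)
open Vale.Agent.P159.H817 (gr nrm)
open Vale.Agent.P159.H883 (nuM Wt BW)
open Vale.Agent.P159.H708 (Bx wd)
open Vale.Agent.P159.H773 (nuF wdF ax0)
open Vale.Agent.P159.H686 (wdS Cmp)
open Vale.Agent.P159.H972 (FL)

noncomputable section

section

variable {N : ℕ} [NeZero N] {b t : ℝ}

/-- the symbol of the exact form is at most `C EE` -/
lemma Ank_le {a η A : ℝ} (hb : 0 < b) (ht : 0 < t) (h : FL b t a η N) (ha : a ≤ A) (hη : η ≤ 1)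
    (hA : 0 ≤ A) (k : V N) : H963.Ank N b t k ≤ (A + 4) * EE k := by
  by_cases hk : k = 0
  · unfold H963.Ank
    rw [if_pos hk, hk, H462.EE_zero]
    simp
  have hE := H462.EE_pos hk
  have hP := H963.Pin_nonneg (N := N) hb ht hk
  have hN : (0 : ℝ) < (N : ℝ) ^ 2 := by
    have : (0 : ℝ) < N := Nat.cast_pos.2 (NeZero.pos N)
    positivity
  rw [H963.Ank_eq hb ht hk]
  have hd : 0 < t + H963.Pin N b t k := by linarith
  rcases le_or_gt (EE k) t with h1 | h1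
  · have h2 : t * H963.Pin N b t k / (t + H963.Pin N b t k) ≤ H963.Pin N b t k := by
      rw [div_le_iff₀ hd]
      nlinarith [mul_nonneg hP hP]
    refine h2.trans ?_
    obtain ⟨z, a', hz0, hz, ha', hk'⟩ := h
    have h3 := (abs_le.1 (hk' k hk)).2
    have h4 := (abs_le.1 ha').2
    have h5 := H462.EE_gap hk
    have h6 : z ≤ EE k := by
      have h7 : z ≤ 1 / (N : ℝ) ^ 2 := by
        rw [le_div_iff₀ hN]
        linarith
      have h8 : 1 / (N : ℝ) ^ 2 ≤ 16 / (N : ℝ) ^ 2 :=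
        div_le_div_of_nonneg_right (by norm_num) hN.le
      linarith
    have h9 : η * EE k ^ 2 / t ≤ EE k := by
      rw [div_le_iff₀ ht]
      have : EE k ^ 2 ≤ EE k * t := by nlinarith
      nlinarith [sq_nonneg (EE k)]
    have h10 : a' * EE k ≤ (A + 1) * EE k :=
      mul_le_mul_of_nonneg_right (by linarith) hE.le
    nlinarith
  · have h2 : t * H963.Pin N b t k / (t + H963.Pin N b t k) ≤ t := by
      rw [div_le_iff₀ hd]
      nlinarith [mul_nonneg ht.le hP]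
    nlinarith

/-- **the exact form is at most a multiple of the Dirichlet form** -/
theorem An_le_nrm {a η A : ℝ} (hb : 0 < b) (ht : 0 < t) (h : FL b t a η N) (ha : a ≤ A)
    (hη : η ≤ 1) (hA : 0 ≤ A) (g : V N → ℝ) :
    H37.qf (H963.An (wT b N) (t • (1 : Matrix (V N) (V N) ℝ)) t 0) g ≤ (A + 4) * nrm (gr g) := by
  rw [H963.qf_An_torus b ht g, ← H817.qf_lap, ← H864.qf_smul_mat]
  refine (H864.qf_le_iff (H963.ti_Anm hb.le ht) (H864.ti_lapM.smul _)).2 (fun k => ?_) g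
  rw [H963.sym_Anm, H864.sym_smul, H864.sym_lapM]
  exact Ank_le hb ht h ha hη hA k

end

/-- the size of the shift -/
def rhoS (l R : ℕ) : ℝ := 140 * √(s0 * ((l : ℝ) / R))

lemma rhoS_pow (l R : ℕ) : rhoS l R ^ 4 = 384160000 * (s0 ^ 2 * ((l : ℝ) / R) ^ 2) := by
  have hs0 := s0_pos
  have h : 0 ≤ s0 * ((l : ℝ) / R) := by positivity
  unfold rhoS
  have h2 : √(s0 * ((l : ℝ) / R)) ^ 4 = (s0 * ((l : ℝ) / R)) ^ 2 := by
    have : √(s0 * ((l : ℝ) / R)) ^ 4 = (√(s0 * ((l : ℝ) / R)) ^ 2) ^ 2 := by ring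
    rw [this, Real.sq_sqrt h]
  rw [mul_pow, h2]
  ring

lemma rhoS_pos {l R : ℕ} (hl : 0 < l) (hR : 0 < R) : 0 < rhoS l R := by
  have hs0 := s0_pos
  have h1 : (0 : ℝ) < l := by exact_mod_cast hl
  have h2 : (0 : ℝ) < R := by exact_mod_cast hR
  unfold rhoS
  positivity

/-- **the exact quadratic form of the window shift** -/
theorem qf_gsR {N N1 : ℕ} [NeZero N] [NeZero N1] {R1 l R : ℕ} (H : Prm N N1 l R R1) {b t a η : ℝ}
    (hb : 0 < b) (ht : 0 < t) (h : FL b t a η N) (ha : a ≤ 2) (hη : η ≤ 1) :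
    H37.qf (H963.An (wT b N) (t • (1 : Matrix (V N) (V N) ℝ)) t 0) (gsR N N1 R1 l R) ≤
      rhoS l R ^ 4 := by
  have h1 := An_le_nrm hb ht h ha hη (by norm_num) (gsR N N1 R1 l R)
  have h2 := (gsR_spec H).en
  rw [rhoS_pow]
  have h3 : 0 ≤ s0 ^ 2 * ((l : ℝ) / R) ^ 2 := by positivity
  nlinarith

/-- **`cmp` for the shifted window of the pair `R`** -/
theorem cmp_gs {b : ℝ} {Nf : ℕ → ℕ} [∀ R, NeZero (Nf R)] {N1 : ℕ} [NeZero N1] {R1 l R D : ℕ}
    (H : Prm (Nf R) N1 l R R1) {t a η₀ : ℝ} (hb : 0 < b) (ht : 0 < t) (h : FL b t a η₀ (Nf R))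
    (ha : a ≤ 2) (hη₀ : η₀ ≤ 1) (hρ : rhoS l R ≤ 1 / 24)
    {Bd : Set (V (Nf R) → ℝ)} (hBd : MeasurableSet Bd) {η b' : ℝ} (hη0 : 0 ≤ η)
    (hη : ∀ F, F ∉ Bd → Wt (wT b (Nf R)) (t • (1 : Matrix (V (Nf R)) (V (Nf R)) ℝ)) t 0 F ≤ 1 + η)
    (hbd : (nuF b Nf t R).real Bd ≤ b') (hηb : η + b' ≤ 1 / 8) :
    Cmp (nuF b Nf t R) (nuF b Nf t R) (wdF Nf D R) (wdS Nf D R (gsR (Nf R) N1 R1 l R))
      (4 * (η + b') + 6 * rhoS l R) (4 * b' + 8 * Real.exp (1 - 1 / (2 * rhoS l R ^ 2))) := by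
  have hl := H.hl
  have hlr := H.hlr
  exact H686.cmp_shift_num (H963.gw_wT hb.le) (H883.bw_wT hb) (H883.mf_scalar ht) hBd hη0 hη hbd
    hηb D (0 : V (Nf R)) (ax0 (Nf R) R) (gsR (Nf R) N1 R1 l R)
    (rhoS_pos (by omega) (by omega)) hρ (qf_gsR H hb ht h ha hη₀)

end

end Vale.Agent.P159.H859.Idl
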