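import Vale.Agent.P159.H859.E4h
import Vale.Agent.P159.H191.Ct13

/-!
P159 / CUT (helper859): helper191's `E4W` (the cross terms of the nodes) along the flow.
-/

open Finset MeasureTheory Filter Topology

set_option linter.unusedSectionVars false

namespace Vale.Agent.P159.H859.Gn

open Vale.Agent.P159.TM.Spec (V)
open Vale.Agent.P159.H817 (gr nrm sz e1)
open Vale.Agent.P159.H191 (Wts nd BT)
open Vale.Agent.P159.H972 (Par tn)
open Vale.Agent.P159.H770 (Ed)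
open Vale.Agent.P159.H773 (sd nuF)
open Vale.Agent.P159.H801 (SFlow)
open Vale.Agent.P159.H37.Sf (kf kE1 Win)
open Vale.Agent.P159.H145.Sp (AxP lC wB scF scF_le)

noncomputable section

/-- the weights of the smearing -/
lemma wts_wB' {i n R : ℕ} (hi : 2 ≤ i) (h : 2 ^ n ≤ R) : Wts (wB (sd i R) (2 ^ n)) (2 ^ n) := by
  have h4 : 4 * R ≤ sd i R := by
    have h2 : 2 ^ 2 ≤ 2 ^ i := Nat.pow_le_pow_right (by norm_num) hi
    exact (Nat.mul_le_mul_right R h2).trans (H773.sd_ge i R)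
  have hn1 : 1 ≤ 2 ^ n := Nat.one_le_two_pow
  have hw : wB (sd i R) (2 ^ n) = H446.Pr.wV (sd i R) (2 ^ n) := (H446.Pr.wV_eq (by omega)).symm
  rw [hw]
  exact H446.Pr.wts_wV (2 ^ n)

lemma ev_pf' {b1 b2 pf : ℝ} (Q : ℕ) :
    Vale.Agent.P159.H801.Ev b1 b2 pf Q fun P _ => P.pf = pf := by
  unfold H801.Ev
  exact Eventually.of_forall fun _ => Eventually.of_forall fun _ => Eventually.of_forall fun _ =>
    Eventually.of_forall fun _ => Eventually.of_forall fun _ => Eventually.of_forall fun _ =>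
    Eventually.of_forall fun _ => Eventually.of_forall fun _ =>
    Eventually.of_forall fun _ P hP => hP.epf

/-- **THE CROSS TERMS ALONG THE FLOW** (hypothesis `hE` of helper191's `cutW_ev`) -/
theorem e4w_ev {b b1 b2 pf : ℝ} (hb1 : 0 < b1) (h1 : b1 ≤ b) (hpf : 9 / 10 ≤ pf) (Q : ℕ) :
    Vale.Agent.P159.H801.Ev b1 b2 pf Q fun P c1 =>
      ∀ {σ c q2 qx : ℝ} {a y ε xs : ℕ → ℝ} {c' r q A : ℝ} {N : ℕ},
      SFlow P b σ c c1 q2 qx a y ε xs c' r q A N → 0 ≤ σ → σ ≤ 1 / 6 →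
      ∀ (β C2 A0 : ℝ) (Am : ℕ), ∃ i0 : ℕ, ∀ i, i0 ≤ i →
      ∀ (η : ∀ R, Ed (sd i R) → ℤ) (φ : ∀ R, V (sd i R) → ℝ), AxP i η φ →
        H191.Cf.E4W P b β C2 A0 Am i (P.thp / 4) c1 a y ε η φ := by
  refine ((ev_pf' Q).and (H37.Sf.ev_cS b1 b2 pf Q)).mono fun P c1 hA hT => ?_
  obtain ⟨hpfP, hc0, hcth, hthp0, hthpx, hth0, h4096, hx0⟩ := hT
  intro σ c q2 qx a y ε xs c' r q A N h hσ0 hσ6 β C2 A0 Am
  have hb : 0 < b := hb1.trans_le h1
  have hx1 := hA.x11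
  have hσ : σ ≤ 1 / 4 := by linarith
  have hc1s : c1 ≤ 1 / 1000 := by linarith
  refine ⟨6, fun i hi η φ _ => ?_⟩
  have hsc : ∀ᶠ n in atTop, scF c1 y n ≤ n ∧ (scF c1 y n : ℝ) ≤ y n ^ (-c1) + 1 := by
    filter_upwards [scF_le h hσ0 hσ hc0 (by linarith)] with n hn
    exact ⟨hn.1, hn.2.1⟩
  have hv : (9 / 8 : ℝ) < (2 - 3 * σ) * P.pf - 3 * c1 / 2 - c1 / 2 - P.thp / 4 / 16 := by
    have k1 : (3 / 2 : ℝ) * (9 / 10) ≤ (2 - 3 * σ) * P.pf :=
      mul_le_mul (by linarith) (by linarith) (by norm_num) (by linarith)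
    linarith
  have hE := e4_flow hb hA hσ0 hσ h (ck := P.thp / 4) (by linarith) (by linarith) (by linarith) i
    hi (cs := c1) (cz := c1 / 2) (v := 9 / 8) hc0 (by linarith) (by linarith) hv hsc
  unfold H191.Cf.E4W
  refine H37.Sf.Win.of ?_
  filter_upwards [hE, eventually_ge_atTop N] with n g1 hN R hR1 hR2
  have hyn := h.fl.y0 n
  have hR2' : R ≤ 2 ^ (n + P.w (ε n) + kf (P.thp / 4) y (n + P.w (ε n))) := hR2
  have h2n : 2 ^ n ≤ R := (Nat.pow_le_pow_right (by norm_num) (Nat.le_add_right _ _)).trans hR1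
  obtain ⟨G, -, hGp, hG⟩ := g1 R hR1 hR2' (wts_wB' (i := i) (by omega) h2n) 0 (R • e1)
  unfold H191.Cf.E4P
  refine ⟨G, hGp.trans (Real.exp_le_exp.2 ?_), fun F hF _ j _ i' hi' _ _ v W c0 hC hd => ?_⟩
  · have := Real.rpow_pos_of_pos hyn (-(c1 / 2))
    linarith
  · have hlC : 0 < lC n (kf (P.thp / 4) y n) := by unfold H145.Sp.lC; positivity
    exact hG F hF j i' hi' v hd (H883e.nrm_cut hlC hC)

end

end Vale.Agent.P159.H859.Gn
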