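import Vale.Agent.P159.H859.Idl3
import Vale.Agent.P159.H789.StD
import Vale.Agent.P159.H963.Core2
import Vale.Agent.P159.H817.St13

/-!
P159 / ideal pair (helper859), part 5: the strong `R` numbers of smooth real fields (helper789's
`smooth_R`) in helper817's letters: `hR` of `sysI_rh`, `gR` of `RealI`.
-/

open MeasureTheory Finset Matrix Filter Topology

set_option linter.unusedSectionVars false

namespace Vale.Agent.P159.H859.Idl

open Vale.Agent.P159.TM.Spec (V)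
open Vale.Agent.P159.TM.H764 (EE)
open Vale.Agent.P159.H37 (qf Rs)
open Vale.Agent.P159.H864 (lapM)
open Vale.Agent.P159.H817 (gr nrm GB sz Pt)
open Vale.Agent.P159.H963 (nwt PinC)
open Vale.Agent.P159.H963.Core (RF)
open Vale.Agent.P159.H239 (TypE)
open Vale.Agent.P159.H789 (lvS)

noncomputable section

/-- the typical law of the cells and the low stiffness on one torus (the hypotheses of
`smooth_R`) -/
structure SmT (N lc : ℕ) [NeZero N] [NeZero (N / lc)] (b t Y ρ p p' κ : ℝ) (j k : ℕ) : Prop where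
  hl : lc ∣ N
  typ : ∀ᶠ s in 𝓝[>] (0 : ℝ), TypE N lc b t s Y 1 p ∧ TypE N lc b t s 1 ρ p'
  hY : (2 : ℝ) ^ (j + k) ≤ Y
  hρ : ρ ≤ 1
  hpp : p + p' ≤ 1 / 180
  hκ : 1 ≤ κ
  hP : ∀ q : V (N / lc), q ≠ 0 → EE q ≤ t * (lc : ℝ) ^ 2 →
    (lc : ℝ) ^ 2 * PinC N lc b t t q ≤ κ * EE q

variable {N lc : ℕ} [NeZero N] [NeZero (N / lc)] {b t Y ρ p p' κ : ℝ} {j k : ℕ}

/-- **energy form** -/
theorem SmT.rf (h : SmT N lc b t Y ρ p p' κ j k) (hb : 0 < b) (ht : 0 < t) {F : V N → ℝ} {G z : ℝ}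
    (hG : nrm (gr F) ≤ G) (hz : 32 * z ^ 2 * κ * G ≤ 4 ^ j) :
    RF N b t (z • F) ≤ lvS ρ j k / 2 + 16 * z ^ 2 * t * (lc : ℝ) ^ 2 * G := by
  have hκ : 0 ≤ κ := zero_le_one.trans h.hκ
  have h1 : 32 * z ^ 2 * κ * qf lapM F ≤ 4 ^ j := by
    rw [H817.qf_lap]
    refine (mul_le_mul_of_nonneg_left hG (by positivity)).trans hz
  have h2 := H789.smooth_R hb h.hl ht h.typ h.hY h.hρ h.hpp h.hκ h.hP F h1
  unfold RF
  rw [H963.Core.Pt_smul]
  refine h2.trans ?_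
  rw [H817.qf_lap]
  have h3 : 16 * z ^ 2 * t * (lc : ℝ) ^ 2 * nrm (gr F) ≤ 16 * z ^ 2 * t * (lc : ℝ) ^ 2 * G :=
    mul_le_mul_of_nonneg_left hG (by positivity)
  linarith

/-- **`hR` of `sysI_rh`** -/
theorem SmT.hR (h : SmT N lc b t Y ρ p p' κ j k) (hb : 0 < b) (ht : 0 < t) {l : ℕ} {Λ : ℝ}
    (hl : 1 ≤ l) (hΛ : 112896 * κ * Λ ^ 2 ≤ 4 ^ j) (F : V N → ℝ) (w : V N) (hF : GB (Λ / l) F)
    (hw : ∀ x, 4 * l ≤ sz (x - w) → F x = 0) :
    H37.Rs (nwt N b t 0) (Pt t F) ≤ lvS ρ j k / 2 + 56448 * t * (lc : ℝ) ^ 2 * Λ ^ 2 := by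
  have h1 := H817.nrm_local hl hF (w := w) fun x hx => hw x (by omega)
  have h2 := h.rf hb ht (z := 1) h1 (by nlinarith)
  unfold RF at h2
  rw [one_smul] at h2
  refine h2.trans (le_of_eq ?_)
  ring

/-- **`gR` of `RealI`**: the ideal correction -/
theorem SmT.gs (h : SmT N lc b t Y ρ p p' κ j k) (hb : 0 < b) (ht : 0 < t) {N1 : ℕ} [NeZero N1]
    {R1 l R : ℕ} (H : Prm N N1 l R R1)
    (hj : 17280000000 * κ * (s0 ^ 2 * ((l : ℝ) / R) ^ 2) ≤ 4 ^ j) :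
    RF N b t ((3 : ℝ) • gsR N N1 R1 l R) ≤
      lvS ρ j k / 2 + 144 * t * (lc : ℝ) ^ 2 * (60000000 * s0 ^ 2 * ((l : ℝ) / R) ^ 2) := by
  have h2 := h.rf hb ht (z := 3) (gsR_spec H).en (by nlinarith)
  refine h2.trans (le_of_eq ?_)
  ring

end

end Vale.Agent.P159.H859.Idl
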