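import Vale.Agent.P159.H859.Gn2
import Vale.Agent.P159.H859.Idl4
import Vale.Agent.P159.H859.Idl5

/-!
P159 / CUT (helper859), numbers of the ideal correction, part 3: the deterministic fields
`YP θ (T gs) - gs` of the cut (helper446's `H1`): Dirichlet energy, exact form, strong `R` number.
-/

open Finset MeasureTheory

set_option linter.unusedSectionVars false

namespace Vale.Agent.P159.H859.Gn

open Vale.Agent.P159.TM.Spec (V)
open Vale.Agent.P159.H817 (gr nrm GB sz e1 U U_nonneg U_le_one)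
open Vale.Agent.P159.H191 (Wts YP)
open Vale.Agent.P159.H663.Dr (tT)
open Vale.Agent.P159.H859.Idl (gsR gsR_spec Prm s0 SmT An_le_nrm)
open Vale.Agent.P159.H972 (FL)
open Vale.Agent.P159.H963.Core (RF)
open Vale.Agent.P159.H789 (lvS)

noncomputable section

variable {N l : ℕ} [NeZero N]

/-- `YP θ H' - g`, `H'` = a contraction of `g` -/
theorem nrm_YPg {μ pl w θ : V N → ℝ} {p q : V N} {s : ℕ} {g H : V N → ℝ} {B : ℝ} (hw : Wts w s)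
    (hl : 0 < l) (hμ : ∀ z, 0 ≤ μ z) (hμ1 : ∑ z, μ z = 1) (hpl0 : ∀ x, 0 ≤ pl x)
    (hpl1 : ∀ x, pl x ≤ 1) (hpl : nrm (gr pl) ≤ 14112) (hθ : ∀ x, |θ x| ≤ 1)
    (hθ2 : nrm (gr θ) ≤ 2) (hH : nrm (gr H) ≤ nrm (gr g)) (hd : nrm (gr (H - g)) ≤ 4 * nrm (gr g))
    (hB : ∀ x, |H x| ≤ B) :
    nrm (gr (YP l pl μ w p q θ H - g)) ≤ 24 * nrm (gr g) + 1185536 * B ^ 2 := by
  have h1 := nrm_YP_sub (p := p) (q := q) hw hl hμ hμ1 hpl0 hpl1 hθ hB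
  have h2 := nrm_add_le (fun x => YP l pl μ w p q θ H x - H x) (H - g)
  have e : (fun x => (fun x => YP l pl μ w p q θ H x - H x) x + (H - g) x) =
      YP l pl μ w p q θ H - g := by
    funext x
    simp only [Pi.sub_apply]
    ring
  rw [e] at h2
  have h3 : B ^ 2 * (141120 + 32 * nrm (gr pl) + 32 * nrm (gr θ)) ≤ B ^ 2 * 592768 :=
    mul_le_mul_of_nonneg_left (by linarith) (sq_nonneg B)
  linarith

/-- the tent average is bounded by the sup -/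
lemma abs_tT {q : ℕ} (hq : 0 < q) {h : V N → ℝ} {B : ℝ} (hB : ∀ x, |h x| ≤ B) (x : V N) :
    |tT N q h x| ≤ B := tT_loc hq fun _ _ _ _ _ _ _ _ => hB _

section gs

variable {N1 : ℕ} [NeZero N1] {R1 lR R q : ℕ} {μ pl w θ : V N → ℝ} {s : ℕ} {b t : ℝ}

/-- **Dirichlet energy of the deterministic field** -/
theorem nrm_gs (H : Prm N N1 lR R R1) (hq : 0 < q) (hl : 0 < l) (hw : Wts w s)
    (hμ : ∀ z, 0 ≤ μ z) (hμ1 : ∑ z, μ z = 1) (hθ : ∀ x, |θ x| ≤ 1) (hθ2 : nrm (gr θ) ≤ 2)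
    (p p' : V N) :
    nrm (gr (YP l (U (30 * lR) lR) μ w p p' θ (tT N q (gsR N N1 R1 lR R)) -
      gsR N N1 R1 lR R)) ≤ 130000000000 * (s0 ^ 2 * ((lR : ℝ) / R) ^ 2) := by
  have hG := gsR_spec H
  have hlR : 0 < lR := lt_of_lt_of_le (by norm_num) H.hl
  have h1 := nrm_YPg (p := p) (q := p') hw hl hμ hμ1 (U_nonneg (30 * lR) lR)
    (U_le_one (30 * lR) lR) (nrm_U hlR) hθ hθ2 (nrm_tT hq (gsR N N1 R1 lR R))
    (nrm_tT_sub hq (gsR N N1 R1 lR R)) (abs_tT hq hG.le)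
  have h2 := hG.en
  have h3 : 1185536 * (328 * s0 * ((lR : ℝ) / R)) ^ 2 =
      127544705024 * (s0 ^ 2 * ((lR : ℝ) / R) ^ 2) := by ring
  have h4 : 0 ≤ s0 ^ 2 * ((lR : ℝ) / R) ^ 2 := by positivity
  nlinarith

/-- **the exact quadratic form of the deterministic field** -/
theorem qf_gs (H : Prm N N1 lR R R1) (hq : 0 < q) (hl : 0 < l) (hw : Wts w s)
    (hμ : ∀ z, 0 ≤ μ z) (hμ1 : ∑ z, μ z = 1) (hθ : ∀ x, |θ x| ≤ 1) (hθ2 : nrm (gr θ) ≤ 2)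
    (p p' : V N) (hb : 0 < b) (ht : 0 < t) {a η : ℝ} (h : FL b t a η N) (ha : a ≤ 2)
    (hη : η ≤ 1) :
    H37.qf (H963.Anm N b t) (YP l (U (30 * lR) lR) μ w p p' θ (tT N q (gsR N N1 R1 lR R)) -
      gsR N N1 R1 lR R) ≤ 780000000000 * (s0 ^ 2 * ((lR : ℝ) / R) ^ 2) := by
  rw [← H963.qf_An_torus b ht]
  refine (An_le_nrm hb ht h ha hη (by norm_num) _).trans ?_
  have h1 := nrm_gs H hq hl hw hμ hμ1 hθ hθ2 p p'
  linarith

/-- **the strong `R` number of the deterministic field** -/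
theorem rf_gs (H : Prm N N1 lR R R1) (hq : 0 < q) (hl : 0 < l) (hw : Wts w s)
    (hμ : ∀ z, 0 ≤ μ z) (hμ1 : ∑ z, μ z = 1) (hθ : ∀ x, |θ x| ≤ 1) (hθ2 : nrm (gr θ) ≤ 2)
    (p p' : V N) (hb : 0 < b) (ht : 0 < t) {lc : ℕ} [NeZero (N / lc)] {Y ρ pa pb κ : ℝ} {j k : ℕ}
    (hS : SmT N lc b t Y ρ pa pb κ j k) {z : ℝ}
    (hz : 4160000000000 * z ^ 2 * κ * (s0 ^ 2 * ((lR : ℝ) / R) ^ 2) ≤ 4 ^ j) :
    RF N b t (z • (YP l (U (30 * lR) lR) μ w p p' θ (tT N q (gsR N N1 R1 lR R)) -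
      gsR N N1 R1 lR R)) ≤
      lvS ρ j k / 2 + 2080000000000 * z ^ 2 * t * (lc : ℝ) ^ 2 *
        (s0 ^ 2 * ((lR : ℝ) / R) ^ 2) := by
  have h1 := hS.rf hb ht (z := z) (nrm_gs H hq hl hw hμ hμ1 hθ hθ2 p p') (by
    refine le_trans (le_of_eq ?_) hz
    ring)
  refine h1.trans (le_of_eq ?_)
  ring

end gs

end

end Vale.Agent.P159.H859.Gn
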