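import Vale.Agent.P159.H859.Ab2
import Vale.Agent.P159.H474.Cb6

/-!
P159 (helper859), S, (R2), part 3: arms from a block in two copies with the same slowly varying
real background, normalised by the partition function.
-/

set_option linter.unusedSectionVars false

namespace Vale.Agent.P159.H145.Dz

open scoped ENNReal
open Finset Vale.Agent.P159.TM.H60 Vale.Agent.P159.TM.H576
open Vale.Agent.P159.TM.H459 (ball mem_ball ball_mono sd)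
open Vale.Agent.P159.TM
open Vale.Agent.P159.H37 (ZM qf re)

variable {N : ℕ} [NeZero N]

theorem Zr_ZM (b : ℝ) (ξ : ℕ) (f : Spec.V N → ℝ) :
    H857.Zr (H459.tS (N := N)) H459.tT (fun _ => b) (SpecC.ms (ξ : ℝ)) f =
      ZM (SpecC.wT b N) ((1 / (ξ : ℝ) ^ 2) • (1 : Matrix (Spec.V N) (Spec.V N) ℝ)) f := by
  rw [H857.Zr_eq, H857.Wg_T]
  unfold H871.Z ZM
  refine tsum_congr fun h => ?_
  congr 1
  unfold H871.gs
  congr 1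
  rw [H37.qf_smul_one, ← neg_div, neg_mul_eq_neg_mul, Finset.mul_sum, Finset.sum_div,
    ← Finset.sum_neg_distrib]
  refine Finset.sum_congr rfl fun x _ => ?_
  unfold SpecC.ms re
  simp only [Pi.sub_apply]
  ring

/-- the total mass of two copies -/
theorem Ex_one_ZM {b : ℝ} (hb : 0 ≤ b) {ξ : ℕ} (hξ : 0 < ξ) (f : Spec.V N → ℝ) :
    Ex (Spec.σ2 N b ξ hb f) (fun _ _ => 1) = ENNReal.ofReal
      (ZM (SpecC.wT b N) ((1 / (ξ : ℝ) ^ 2) • (1 : Matrix (Spec.V N) (Spec.V N) ℝ)) f ^ 2) := by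
  rw [← Zr_ZM, H857.σ2_eq]
  exact H857.Ex_one (H459.tS (N := N)) H459.tT (fun _ => b) (fun _ => hb) (SpecC.ms (ξ : ℝ))
    (H857.ms_pos hξ) f

theorem ZM_pos' {b : ℝ} (hb0 : 0 < b) {ξ : ℕ} (hξ : 0 < ξ) (f : Spec.V N → ℝ) :
    0 < ZM (SpecC.wT b N) ((1 / (ξ : ℝ) ^ 2) • (1 : Matrix (Spec.V N) (Spec.V N) ℝ)) f := by
  rw [← Zr_ZM]
  exact H857.Zr_pos (H459.tS (N := N)) H459.tT (fun _ => b) (SpecC.ms (ξ : ℝ)) (fun _ => hb0.le)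
    (H857.ms_pos hξ) f

/-- the partition function is largest in the background `0` -/
theorem ZM_le0 {b : ℝ} (hb0 : 0 < b) {ξ : ℕ} (hξ : 0 < ξ) (f : Spec.V N → ℝ) :
    ZM (SpecC.wT b N) ((1 / (ξ : ℝ) ^ 2) • (1 : Matrix (Spec.V N) (Spec.V N) ℝ)) f ≤
      ZM (SpecC.wT b N) ((1 / (ξ : ℝ) ^ 2) • (1 : Matrix (Spec.V N) (Spec.V N) ℝ)) 0 := by
  have hξ' : (0 : ℝ) < ξ := by exact_mod_cast hξ
  have h := H474.Cb.ZM_wTD_le (N := N) hb0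
    (M := (1 / (ξ : ℝ) ^ 2) • (1 : Matrix (Spec.V N) (Spec.V N) ℝ))
    (by rw [Matrix.transpose_smul, Matrix.transpose_one]) (m0 := 1 / (ξ : ℝ) ^ 2) (by positivity)
    (fun u => by rw [H37.qf_smul_one]) 0 f
  rwa [H770.wTD_zero] at h

/-- **arms from a block, two copies with the same slowly varying real background** (mass
`Z(f) ^ 2`) -/
theorem arm_fZ {b1 b2 a : ℝ} (hb1 : 0 < b1) (hA6 : Spec.ThmA6 b1 b2 a) : ∃ W₀ : ℝ, ∀ W : ℝ,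
    W₀ ≤ W → ∃ L₀ c C η ys : ℝ, ∃ A X : ℕ, 0 < L₀ ∧ 0 < c ∧ 0 < C ∧ 0 < η ∧ 0 < ys ∧ 8 ≤ A ∧
    A ≤ X ∧
    ∀ (N : ℕ) [NeZero N] (b : ℝ) (hb : 0 ≤ b) (ξ : ℕ) (y : ℝ),
      Spec.Rng b1 b2 a W ys X N b ξ y → (N : ℝ) ^ 2 * y ≤ η * (ξ : ℝ) ^ 2 →
      ∀ f : Spec.V N → ℝ, Spec.LipS (2 * L₀ / ξ) f → ∀ (x0 : Spec.V N) (m : ℕ),
        Ex (Spec.σ2 N b ξ hb f) (fun x om =>
          ind (Arm (Spec.σ2 N b ξ hb f) (ball x0 (ξ / A)) (ball x0 m) x om)) ≤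
        ENNReal.ofReal (C * Real.exp (-(c * m / ξ)) * ZM (SpecC.wT b N)
          ((1 / (ξ : ℝ) ^ 2) • (1 : Matrix (Spec.V N) (Spec.V N) ℝ)) f ^ 2) := by
  obtain ⟨W₀, h⟩ := arm_f (b2 := b2) hb1 hA6
  refine ⟨W₀, fun W hW => ?_⟩
  obtain ⟨L₀, c, C, η, ys, A, X, hL, hc, hC, hη, hys, hA, hAX, h⟩ := h W hW
  refine ⟨L₀, c, C, η, ys, A, X, hL, hc, hC, hη, hys, hA, hAX, ?_⟩
  intro N _ b hb ξ y hR hηy f hf x0 m
  have hξ : 0 < ξ := by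
    have := hR.hX
    omega
  have h1 := h N b hb ξ y hR hηy f hf x0 m
  rwa [Ex_one_ZM hb hξ, ← ENNReal.ofReal_mul (by positivity)] at h1

end Vale.Agent.P159.H145.Dz
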