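import Mathlib

/-!
P159 / module WCOV (helper859), file 1: commuting positive semidefinite matrices and the family
`A s = ((t - s)⁻¹ - G)⁻¹` of source covariances of the channel with prior mass `s`, posterior mass
`t` and posterior covariance `G`.
-/

namespace Vale.Agent.P159.H859

open Matrix
open scoped MatrixOrder ComplexOrder

variable {I : Type*} [Fintype I] [DecidableEq I]

/-- product of commuting positive semidefinite matrices -/
theorem psd_mul {A B : Matrix I I ℝ} (hA : A.PosSemidef) (hB : B.PosSemidef) (h : Commute A B) :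
    (A * B).PosSemidef := by
  have h1 : (0 : Matrix I I ℝ) ≤ A := Matrix.nonneg_iff_posSemidef.2 hA
  have h2 : (0 : Matrix I I ℝ) ≤ B := Matrix.nonneg_iff_posSemidef.2 hB
  exact Matrix.nonneg_iff_posSemidef.1 (Commute.mul_nonneg h1 h2 h)

theorem comm_inv {A B : Matrix I I ℝ} (hA : IsUnit A.det) (h : Commute A B) : Commute A⁻¹ B := by
  have h1 : A⁻¹ * B = B * A⁻¹ := by
    calc A⁻¹ * B = A⁻¹ * (B * A) * A⁻¹ := by
          rw [Matrix.mul_assoc, Matrix.mul_assoc B, Matrix.mul_nonsing_inv _ hA, Matrix.mul_one]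
      _ = A⁻¹ * (A * B) * A⁻¹ := by rw [h.eq]
      _ = B * A⁻¹ := by
          rw [← Matrix.mul_assoc A⁻¹, Matrix.nonsing_inv_mul _ hA, Matrix.one_mul]
  exact h1

theorem pd_unit {A : Matrix I I ℝ} (hA : A.PosDef) : IsUnit A.det :=
  (hA.det_pos.ne').isUnit

/-- inverses of ordered commuting positive definite matrices -/
theorem inv_anti {X Y : Matrix I I ℝ} (hX : X.PosDef) (hY : Y.PosDef) (hXY : (Y - X).PosSemidef)
    (h : Commute X Y) : (X⁻¹ - Y⁻¹).PosSemidef := by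
  have hx := pd_unit hX
  have hy := pd_unit hY
  have e : X⁻¹ - Y⁻¹ = X⁻¹ * ((Y - X) * Y⁻¹) := by
    rw [Matrix.sub_mul, Matrix.mul_nonsing_inv _ hy, Matrix.mul_sub, Matrix.mul_one,
      ← Matrix.mul_assoc X⁻¹, Matrix.nonsing_inv_mul _ hx, Matrix.one_mul]
  have c1 : Commute (Y - X) Y⁻¹ := ((comm_inv hy ((Commute.refl Y).sub_right h.symm))).symm
  have c2 : Commute X⁻¹ ((Y - X) * Y⁻¹) := by
    refine Commute.mul_right ?_ ?_
    · exact comm_inv hx (h.sub_right (Commute.refl X))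
    · exact comm_inv hx (comm_inv hy h.symm).symm
  rw [e]
  exact psd_mul hX.inv.posSemidef (psd_mul hXY hY.inv.posSemidef c1) c2

/-- squares of inverses of ordered commuting positive definite matrices -/
theorem inv_sq_anti {X Y : Matrix I I ℝ} (hX : X.PosDef) (hY : Y.PosDef)
    (hXY : (Y - X).PosSemidef) (h : Commute X Y) : (X⁻¹ * X⁻¹ - Y⁻¹ * Y⁻¹).PosSemidef := by
  have hx := pd_unit hX
  have hy := pd_unit hY
  have c : Commute X⁻¹ Y⁻¹ := comm_inv hx (comm_inv hy h.symm).symm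
  have e : X⁻¹ * X⁻¹ - Y⁻¹ * Y⁻¹ = (X⁻¹ - Y⁻¹) * (X⁻¹ + Y⁻¹) := by
    rw [Matrix.sub_mul, Matrix.mul_add, Matrix.mul_add, c.eq]
    abel
  rw [e]
  refine psd_mul (inv_anti hX hY hXY h) (hX.inv.posSemidef.add hY.inv.posSemidef) ?_
  exact ((Commute.refl _).sub_left c.symm).add_right (c.sub_left (Commute.refl _))

/-- quadratic form -/
abbrev qd (M : Matrix I I ℝ) (u : I → ℝ) : ℝ := u ⬝ᵥ M *ᵥ u

/-- squared norm -/
abbrev sq (u : I → ℝ) : ℝ := u ⬝ᵥ u

omit [DecidableEq I] in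
theorem qd_nonneg {M : Matrix I I ℝ} (h : M.PosSemidef) (u : I → ℝ) : 0 ≤ qd M u := by
  have := h.dotProduct_mulVec_nonneg u
  simpa using this

omit [DecidableEq I] in
theorem qd_sub (M M' : Matrix I I ℝ) (u : I → ℝ) : qd (M - M') u = qd M u - qd M' u := by
  unfold qd
  rw [Matrix.sub_mulVec, dotProduct_sub]

omit [DecidableEq I] in
theorem qd_add (M M' : Matrix I I ℝ) (u : I → ℝ) : qd (M + M') u = qd M u + qd M' u := by
  unfold qd
  rw [Matrix.add_mulVec, dotProduct_add]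

omit [DecidableEq I] in
theorem qd_smul (c : ℝ) (M : Matrix I I ℝ) (u : I → ℝ) : qd (c • M) u = c * qd M u := by
  unfold qd
  rw [Matrix.smul_mulVec, dotProduct_smul, smul_eq_mul]

theorem qd_one (u : I → ℝ) : qd (1 : Matrix I I ℝ) u = sq u := by
  unfold qd
  rw [Matrix.one_mulVec]

omit [DecidableEq I] in
theorem sq_nonneg' (u : I → ℝ) : 0 ≤ sq u :=
  Finset.sum_nonneg fun _ _ => mul_self_nonneg _

omit [DecidableEq I] in
theorem qd_mul_self {M : Matrix I I ℝ} (h : Mᵀ = M) (u : I → ℝ) : qd (M * M) u = sq (M *ᵥ u) := by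
  unfold qd sq
  rw [← Matrix.mulVec_mulVec, Matrix.dotProduct_mulVec, ← Matrix.mulVec_transpose, h]

omit [Fintype I] [DecidableEq I] in
theorem psd_symm {M : Matrix I I ℝ} (h : M.PosSemidef) : Mᵀ = M := by
  have := h.1
  rwa [Matrix.IsHermitian, Matrix.conjTranspose_eq_transpose_of_trivial] at this

/-- data of the channel: posterior covariance `G`, posterior mass `t`, stiffness form `L` -/
structure Dat (G L : Matrix I I ℝ) (t : ℝ) : Prop where
  t0 : 0 < t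
  G0 : G.PosSemidef
  L0 : L.PosSemidef
  comm : Commute G L
  dom : ((t • (1 : Matrix I I ℝ) + L)⁻¹ - G).PosSemidef

/-- source covariance with prior mass `s` -/
noncomputable def As (G : Matrix I I ℝ) (t s : ℝ) : Matrix I I ℝ :=
  ((t - s)⁻¹ • (1 : Matrix I I ℝ) - G)⁻¹

omit [Fintype I] in
theorem pd_add {L : Matrix I I ℝ} (hL : L.PosSemidef) {s : ℝ} (hs : 0 < s) :
    (s • (1 : Matrix I I ℝ) + L).PosDef :=
  (Matrix.PosDef.one.smul hs).add_posSemidef hL

theorem comm_add {G L : Matrix I I ℝ} (h : Commute G L) (s : ℝ) :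
    Commute G (s • (1 : Matrix I I ℝ) + L) :=
  ((Commute.one_right G).smul_right s).add_right h

theorem pd_mul {A B : Matrix I I ℝ} (hA : A.PosDef) (hB : B.PosDef) (h : Commute A B) :
    (A * B).PosDef := by
  have h1 := psd_mul hA.posSemidef hB.posSemidef h
  refine h1.posDef_iff_isUnit.2 ?_
  exact (hA.isUnit).mul hB.isUnit

theorem inv_smul_one {c : ℝ} (hc : c ≠ 0) : (c⁻¹ • (1 : Matrix I I ℝ))⁻¹ = c • 1 := by
  refine Matrix.inv_eq_right_inv ?_
  rw [Matrix.smul_mul, Matrix.one_mul, smul_smul, inv_mul_cancel₀ hc, one_smul]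

namespace Dat

variable {G L : Matrix I I ℝ} {t : ℝ}

/-- the comparison form `(t - s)⁻¹ - (t + L)⁻¹ = (t - s)⁻¹ (s + L) (t + L)⁻¹` -/
theorem cmp_eq (h : Dat G L t) {s : ℝ} (hst : s < t) :
    (t - s)⁻¹ • (1 : Matrix I I ℝ) - (t • (1 : Matrix I I ℝ) + L)⁻¹ =
      (t - s)⁻¹ • ((s • (1 : Matrix I I ℝ) + L) * (t • (1 : Matrix I I ℝ) + L)⁻¹) := by
  have hu := pd_unit (pd_add h.L0 h.t0)
  have e1 : (t • (1 : Matrix I I ℝ) + L) * (t • (1 : Matrix I I ℝ) + L)⁻¹ = 1 :=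
    Matrix.mul_nonsing_inv _ hu
  have e2 : (s • (1 : Matrix I I ℝ) + L) = (t • (1 : Matrix I I ℝ) + L) - (t - s) • 1 := by
    rw [sub_smul]; abel
  rw [e2, Matrix.sub_mul, e1, Matrix.smul_mul, Matrix.one_mul, smul_sub, smul_smul,
    inv_mul_cancel₀ (by linarith : t - s ≠ 0), one_smul]

theorem cmp_pd (h : Dat G L t) {s : ℝ} (hs : 0 < s) (hst : s < t) :
    ((t - s)⁻¹ • (1 : Matrix I I ℝ) - (t • (1 : Matrix I I ℝ) + L)⁻¹).PosDef := by
  rw [h.cmp_eq hst]
  refine (pd_mul (pd_add h.L0 hs) (pd_add h.L0 h.t0).inv ?_).smul (inv_pos.2 (by linarith))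
  refine (comm_inv (pd_unit (pd_add h.L0 h.t0)) ?_).symm
  exact ((Commute.one_left _).smul_left t).add_left (comm_add (Commute.refl L) s)

theorem cmp_sub (h : Dat G L t) {s : ℝ} :
    (((t - s)⁻¹ • (1 : Matrix I I ℝ) - G) -
      ((t - s)⁻¹ • (1 : Matrix I I ℝ) - (t • (1 : Matrix I I ℝ) + L)⁻¹)).PosSemidef := by
  have e : (((t - s)⁻¹ • (1 : Matrix I I ℝ) - G) -
      ((t - s)⁻¹ • (1 : Matrix I I ℝ) - (t • (1 : Matrix I I ℝ) + L)⁻¹)) =
      (t • (1 : Matrix I I ℝ) + L)⁻¹ - G := by abel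
  rw [e]
  exact h.dom

theorem inv_pd (h : Dat G L t) {s : ℝ} (hs : 0 < s) (hst : s < t) :
    ((t - s)⁻¹ • (1 : Matrix I I ℝ) - G).PosDef := by
  have := (h.cmp_pd hs hst).add_posSemidef (h.cmp_sub (s := s))
  simpa using this

theorem pd (h : Dat G L t) {s : ℝ} (hs : 0 < s) (hst : s < t) : (As G t s).PosDef :=
  (h.inv_pd hs hst).inv

/-- lower bound -/
theorem low (h : Dat G L t) {s : ℝ} (hs : 0 < s) (hst : s < t) :
    (As G t s - (t - s) • (1 : Matrix I I ℝ)).PosSemidef := by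
  have h1 : 0 < t - s := by linarith
  have h2 := inv_anti (h.inv_pd hs hst) (Matrix.PosDef.one.smul (inv_pos.2 h1))
    (by simpa using h.G0) (((Commute.one_right _).smul_right _))
  rwa [inv_smul_one h1.ne'] at h2

theorem low' (h : Dat G L t) {s : ℝ} (hs : 0 < s) (hst : s < t) (u : I → ℝ) :
    (t - s) * sq u ≤ qd (As G t s) u := by
  have := qd_nonneg (h.low hs hst) u
  rw [qd_sub, qd_smul, qd_one] at this
  linarith

/-- the inverse of the comparison form -/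
theorem cmp_inv (h : Dat G L t) {s : ℝ} (hs : 0 < s) (hst : s < t) :
    ((t - s)⁻¹ • (1 : Matrix I I ℝ) - (t • (1 : Matrix I I ℝ) + L)⁻¹)⁻¹ =
      (t - s) • ((1 : Matrix I I ℝ) + (t - s) • (s • (1 : Matrix I I ℝ) + L)⁻¹) := by
  have h1 : t - s ≠ 0 := by linarith
  refine Matrix.inv_eq_right_inv ?_
  have hus := pd_unit (pd_add h.L0 hs)
  have hut := pd_unit (pd_add h.L0 h.t0)
  have e1 : (1 : Matrix I I ℝ) + (t - s) • (s • (1 : Matrix I I ℝ) + L)⁻¹ =
      (t • (1 : Matrix I I ℝ) + L) * (s • (1 : Matrix I I ℝ) + L)⁻¹ := by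
    have e2 : (t • (1 : Matrix I I ℝ) + L) = (s • (1 : Matrix I I ℝ) + L) + (t - s) • 1 := by
      rw [sub_smul]; abel
    rw [e2, Matrix.add_mul, Matrix.mul_nonsing_inv _ hus, Matrix.smul_mul, Matrix.one_mul]
  have c : Commute (t • (1 : Matrix I I ℝ) + L)⁻¹ (t • (1 : Matrix I I ℝ) + L) :=
    comm_inv hut (Commute.refl _)
  rw [h.cmp_eq hst, e1, Matrix.smul_mul, Matrix.mul_smul, smul_smul, inv_mul_cancel₀ h1, one_smul,
    Matrix.mul_assoc, ← Matrix.mul_assoc _ (t • (1 : Matrix I I ℝ) + L),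
    Matrix.nonsing_inv_mul _ hut, Matrix.one_mul, Matrix.mul_nonsing_inv _ hus]

theorem comm_cmp (h : Dat G L t) (s : ℝ) :
    Commute ((t - s)⁻¹ • (1 : Matrix I I ℝ) - (t • (1 : Matrix I I ℝ) + L)⁻¹)
      ((t - s)⁻¹ • (1 : Matrix I I ℝ) - G) := by
  have h1 : Commute (t • (1 : Matrix I I ℝ) + L)⁻¹ G :=
    comm_inv (pd_unit (pd_add h.L0 h.t0)) (comm_add h.comm t).symm
  exact ((((Commute.one_right _).smul_right _).sub_right
    (((Commute.one_left _).smul_left _).sub_left h1)))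

/-- upper bound -/
theorem up (h : Dat G L t) {s : ℝ} (hs : 0 < s) (hst : s < t) (u : I → ℝ) :
    qd (As G t s) u ≤ (t - s) * sq u + (t - s) ^ 2 * qd (s • (1 : Matrix I I ℝ) + L)⁻¹ u := by
  have h2 := inv_anti (h.cmp_pd hs hst) (h.inv_pd hs hst) h.cmp_sub (h.comm_cmp s)
  rw [h.cmp_inv hs hst] at h2
  have h3 := qd_nonneg h2 u
  rw [qd_sub, qd_smul, qd_add, qd_one, qd_smul] at h3
  unfold As
  nlinarith [h3]

theorem up_sq (h : Dat G L t) {s : ℝ} (hs : 0 < s) (hst : s < t) (u : I → ℝ) :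
    sq (As G t s *ᵥ u) ≤ sq (((t - s) • ((1 : Matrix I I ℝ) +
      (t - s) • (s • (1 : Matrix I I ℝ) + L)⁻¹)) *ᵥ u) := by
  have h2 := inv_sq_anti (h.cmp_pd hs hst) (h.inv_pd hs hst) h.cmp_sub (h.comm_cmp s)
  have h3 := qd_nonneg h2 u
  rw [qd_sub, qd_mul_self (psd_symm (h.cmp_pd hs hst).inv.posSemidef),
    qd_mul_self (psd_symm (h.inv_pd hs hst).inv.posSemidef), h.cmp_inv hs hst] at h3
  unfold As
  linarith

omit [DecidableEq I] in
theorem _root_.Vale.Agent.P159.H859.sq_add_le (a b : I → ℝ) : sq (a + b) ≤ 2 * sq a + 2 * sq b := by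
  unfold sq
  simp only [dotProduct, Pi.add_apply, Finset.mul_sum]
  rw [← Finset.sum_add_distrib]
  refine Finset.sum_le_sum fun i _ => ?_
  nlinarith [sq_nonneg (a i - b i)]

omit [DecidableEq I] in
theorem _root_.Vale.Agent.P159.H859.sq_smul (c : ℝ) (a : I → ℝ) : sq (c • a) = c ^ 2 * sq a := by
  unfold sq
  rw [smul_dotProduct, dotProduct_smul, smul_eq_mul, smul_eq_mul]
  ring

theorem up_sq' (h : Dat G L t) {s : ℝ} (hs : 0 < s) (hst : s < t) (u : I → ℝ) :
    sq (As G t s *ᵥ u) ≤ (t - s) ^ 2 * (2 * sq u + 2 * ((t - s) ^ 2 *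
      sq ((s • (1 : Matrix I I ℝ) + L)⁻¹ *ᵥ u))) := by
  refine (h.up_sq hs hst u).trans ?_
  rw [Matrix.smul_mulVec, Matrix.add_mulVec, Matrix.one_mulVec, Matrix.smul_mulVec, sq_smul]
  refine mul_le_mul_of_nonneg_left ((sq_add_le _ _).trans ?_) (by positivity)
  rw [sq_smul]

theorem comm_inv_inv (a b : ℝ) (G : Matrix I I ℝ) :
    Commute (a • (1 : Matrix I I ℝ) - G) (b • (1 : Matrix I I ℝ) - G) :=
  ((((Commute.one_right _).smul_right _).sub_right
    (((Commute.one_left _).smul_left _).sub_left (Commute.refl G))))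

/-- resolvent identity -/
theorem diff (h : Dat G L t) {s r : ℝ} (hs : 0 < s) (hst : s < t) (hr : 0 < r) (hrt : r < t) :
    As G t r - As G t s = ((t - s)⁻¹ - (t - r)⁻¹) • (As G t s * As G t r) := by
  have us := pd_unit (h.inv_pd hs hst)
  have ur := pd_unit (h.inv_pd hr hrt)
  have e : ((t - s)⁻¹ - (t - r)⁻¹) • (1 : Matrix I I ℝ) =
      ((t - s)⁻¹ • (1 : Matrix I I ℝ) - G) - ((t - r)⁻¹ • (1 : Matrix I I ℝ) - G) := by
    rw [sub_smul]; abel
  have e2 : ((t - s)⁻¹ - (t - r)⁻¹) • (As G t s * As G t r) =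
      As G t s * (((t - s)⁻¹ - (t - r)⁻¹) • (1 : Matrix I I ℝ)) * As G t r := by
    rw [Matrix.mul_smul, Matrix.mul_one, Matrix.smul_mul]
  rw [e2, e, Matrix.mul_sub, Matrix.sub_mul]
  unfold As
  rw [Matrix.nonsing_inv_mul _ us, Matrix.one_mul, Matrix.mul_assoc,
    Matrix.mul_nonsing_inv _ ur, Matrix.mul_one]

theorem comm_As (h : Dat G L t) {s r : ℝ} (hs : 0 < s) (hst : s < t) (hr : 0 < r) (hrt : r < t) :
    Commute (As G t s) (As G t r) := by
  have us := pd_unit (h.inv_pd hs hst)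
  have ur := pd_unit (h.inv_pd hr hrt)
  exact comm_inv us (comm_inv ur (comm_inv_inv _ _ G)).symm

theorem rho_nonneg {t s r : ℝ} (hst : s < t) (hrs : r ≤ s) : 0 ≤ (t - s)⁻¹ - (t - r)⁻¹ := by
  have : (t - r)⁻¹ ≤ (t - s)⁻¹ := inv_anti₀ (by linarith) (by linarith)
  linarith

/-- monotonicity in the prior mass -/
theorem mono (h : Dat G L t) {s r : ℝ} (hr : 0 < r) (hrs : r ≤ s) (hst : s < t) :
    (As G t r - As G t s).PosSemidef := by
  have hs : 0 < s := by linarith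
  have hrt : r < t := by linarith
  rw [h.diff hs hst hr hrt]
  exact (psd_mul (h.pd hs hst).posSemidef (h.pd hr hrt).posSemidef
    (h.comm_As hs hst hr hrt)).smul (rho_nonneg hst hrs)

/-- bound of the difference -/
theorem diff_le (h : Dat G L t) {s r : ℝ} (hr : 0 < r) (hrs : r ≤ s) (hst : s < t) (u : I → ℝ) :
    qd (As G t r - As G t s) u ≤ ((t - s)⁻¹ - (t - r)⁻¹) * sq (As G t r *ᵥ u) := by
  have hs : 0 < s := by linarith
  have hrt : r < t := by linarith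
  have h1 : ((As G t r - As G t s) * As G t r).PosSemidef := by
    refine psd_mul (h.mono hr hrs hst) (h.pd hr hrt).posSemidef ?_
    exact (Commute.refl _).sub_left (h.comm_As hs hst hr hrt)
  have h2 := qd_nonneg h1 u
  rw [Matrix.sub_mul, qd_sub, qd_mul_self (psd_symm (h.pd hr hrt).posSemidef)] at h2
  rw [h.diff hs hst hr hrt, qd_smul]
  exact mul_le_mul_of_nonneg_left (by linarith) (rho_nonneg hst hrs)

/-- **abstract window comparison**: if `|(r + L)⁻¹ u|² ≤ lam |u|²` then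
`<u, (A_r - A_s) u> ≤ 8 (s / t) (1 + t² lam) <u, A_s u>` -/
theorem win (h : Dat G L t) {s r lam : ℝ} (hr : 0 < r) (hrs : r ≤ s) (hst : s ≤ t / 2)
    (u : I → ℝ) (hlam : 0 ≤ lam)
    (hu : sq ((r • (1 : Matrix I I ℝ) + L)⁻¹ *ᵥ u) ≤ lam * sq u) :
    qd (As G t r - As G t s) u ≤ 8 * (s / t) * (1 + t ^ 2 * lam) * qd (As G t s) u := by
  have t0 := h.t0
  have hs : 0 < s := by linarith
  have hst' : s < t := by linarith
  have hrt : r < t := by linarith
  have h1 := h.diff_le hr hrs hst' u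
  have h2 := h.up_sq' hr hrt u
  have h3 := h.low' hs hst' u
  have hq : 0 ≤ sq u := sq_nonneg' u
  have e1 : (t - s)⁻¹ - (t - r)⁻¹ = (s - r) / ((t - s) * (t - r)) := by
    have a : t - s ≠ 0 := by linarith
    have b : t - r ≠ 0 := by linarith
    field_simp
    ring
  have h4 : sq (As G t r *ᵥ u) ≤ (t - r) ^ 2 * (2 * (1 + t ^ 2 * lam) * sq u) := by
    refine h2.trans (mul_le_mul_of_nonneg_left ?_ (sq_nonneg _))
    have h5 : (t - r) ^ 2 ≤ t ^ 2 := by nlinarith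
    have h6 : 0 ≤ sq ((r • (1 : Matrix I I ℝ) + L)⁻¹ *ᵥ u) := sq_nonneg' _
    have h7 : (t - r) ^ 2 * sq ((r • (1 : Matrix I I ℝ) + L)⁻¹ *ᵥ u) ≤ t ^ 2 * (lam * sq u) :=
      mul_le_mul h5 hu h6 (sq_nonneg _)
    nlinarith
  have h8 : qd (As G t r - As G t s) u ≤ (s - r) / ((t - s) * (t - r)) *
      ((t - r) ^ 2 * (2 * (1 + t ^ 2 * lam) * sq u)) := by
    refine h1.trans ?_
    rw [e1]
    refine mul_le_mul_of_nonneg_left h4 ?_
    have : 0 < (t - s) * (t - r) := mul_pos (by linarith) (by linarith)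
    exact div_nonneg (by linarith) this.le
  have e2 : (s - r) / ((t - s) * (t - r)) * ((t - r) ^ 2 * (2 * (1 + t ^ 2 * lam) * sq u)) =
      2 * (1 + t ^ 2 * lam) * ((s - r) * (t - r) / (t - s)) * sq u := by
    have a : t - s ≠ 0 := by linarith
    have b : t - r ≠ 0 := by linarith
    field_simp
  rw [e2] at h8
  have h9 : (s - r) * (t - r) / (t - s) ≤ 4 * (s / t) * (t - s) := by
    rw [div_le_iff₀ (by linarith)]
    have h10 : (s - r) * (t - r) ≤ s * t := by nlinarith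
    have h11 : t ^ 2 ≤ 4 * (t - s) ^ 2 := by nlinarith
    have h12 : 4 * (s / t) * (t - s) * (t - s) = (s / t) * (4 * (t - s) ^ 2) := by ring
    rw [h12]
    calc (s - r) * (t - r) ≤ s * t := h10
      _ = (s / t) * t ^ 2 := by field_simp
      _ ≤ _ := mul_le_mul_of_nonneg_left h11 (by positivity)
  have h13 : 0 ≤ 1 + t ^ 2 * lam := by positivity
  calc qd (As G t r - As G t s) u
      ≤ 2 * (1 + t ^ 2 * lam) * ((s - r) * (t - r) / (t - s)) * sq u := h8
    _ ≤ 2 * (1 + t ^ 2 * lam) * (4 * (s / t) * (t - s)) * sq u :=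
        mul_le_mul_of_nonneg_right (mul_le_mul_of_nonneg_left h9 (by positivity)) hq
    _ = 8 * (s / t) * (1 + t ^ 2 * lam) * ((t - s) * sq u) := by ring
    _ ≤ _ := mul_le_mul_of_nonneg_left h3 (by positivity)

/-- the inverse of the covariance on a direction: `<u, A_s⁻¹ u> ≤ |u|² / (t - s)` -/
theorem inv_le (h : Dat G L t) {s : ℝ} (hs : 0 < s) (hst : s < t) (u : I → ℝ) :
    qd (As G t s)⁻¹ u ≤ (t - s)⁻¹ * sq u := by
  have e : (As G t s)⁻¹ = (t - s)⁻¹ • (1 : Matrix I I ℝ) - G := by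
    unfold As
    exact Matrix.nonsing_inv_nonsing_inv _ (pd_unit (h.inv_pd hs hst))
  rw [e, qd_sub, qd_smul, qd_one]
  linarith [qd_nonneg h.G0 u]

end Dat

end Vale.Agent.P159.H859
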