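import Vale.Agent.P159.H864.Fou0
import Vale.Agent.P159.TM.H764.Inh
import Vale.Agent.P159.TM.H764.Lamb
import Vale.Agent.P159.H859.Mat

/-!
P159 / module WCOV (helper859), file 2: the resolvent `(r + κ (-Δ))⁻¹` on the torus `V n` and
neutral vectors supported in a box.
-/

set_option linter.unusedSectionVars false

namespace Vale.Agent.P159.H859

open Finset Matrix
open Vale.Agent.P159.TM.H764 (Gh cN sN dt EE grd Q nrm bx)
open Vale.Agent.P159.TM.Spec (V)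
open Vale.Agent.P159.H37 (qf bf)
open Vale.Agent.P159.H864

noncomputable section

lemma qf_qd {I : Type*} [Fintype I] (M : Matrix I I ℝ) (u : I → ℝ) : qf M u = qd M u :=
  H37.qf_eq M u

lemma psd_of {I : Type*} [Fintype I] {M : Matrix I I ℝ} (hs : Mᵀ = M) (h : ∀ u, 0 ≤ qf M u) :
    M.PosSemidef := by
  refine Matrix.PosSemidef.of_dotProduct_mulVec_nonneg ?_ fun x => ?_
  · rw [Matrix.IsHermitian, Matrix.conjTranspose_eq_transpose_of_trivial, hs]
  · have := h x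
    rw [qf_qd] at this
    simpa using this

variable {n : ℕ} [NeZero n]

lemma grd_nonneg (u : V n → ℝ) : 0 ≤ grd u :=
  add_nonneg (TM.H764.Q_nonneg _ _) (TM.H764.Q_nonneg _ _)

lemma psd_lapM : (lapM : Matrix (V n) (V n) ℝ).PosSemidef :=
  psd_of ti_lapM.transpose fun u => by rw [qf_lapM]; exact grd_nonneg u

lemma psd_klap {κ : ℝ} (hκ : 0 ≤ κ) : (κ • (lapM : Matrix (V n) (V n) ℝ)).PosSemidef :=
  psd_lapM.smul hκ

/-- the resolvent -/
def Rk (r κ : ℝ) : Matrix (V n) (V n) ℝ :=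
  (r • (1 : Matrix (V n) (V n) ℝ) + κ • lapM)⁻¹

lemma ti_op (r κ : ℝ) : TI (r • (1 : Matrix (V n) (V n) ℝ) + κ • lapM) :=
  (TI.one.smul r).add (ti_lapM.smul κ)

lemma ti_Rk (r κ : ℝ) : TI (Rk r κ : Matrix (V n) (V n) ℝ) := (ti_op r κ).inv

lemma sym_op (r κ : ℝ) (k : V n) :
    sym (r • (1 : Matrix (V n) (V n) ℝ) + κ • lapM) k = r + κ * EE k := by
  rw [sym_add, sym_smul_one, sym_smul, sym_lapM]

lemma op_pos {r κ : ℝ} (hr : 0 < r) (hκ : 0 ≤ κ) (k : V n) : 0 < r + κ * EE k := by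
  have := mul_nonneg hκ (TM.H764.EE_nonneg k)
  linarith

lemma sym_Rk {r κ : ℝ} (hr : 0 < r) (hκ : 0 ≤ κ) (k : V n) :
    sym (Rk r κ) k = (r + κ * EE k)⁻¹ := by
  unfold Rk
  rw [sym_inv' (ti_op r κ) (fun k => by rw [sym_op]; exact (op_pos hr hκ k).ne'), sym_op]

lemma op_mul_Rk {r κ : ℝ} (hr : 0 < r) (hκ : 0 ≤ κ) :
    (r • (1 : Matrix (V n) (V n) ℝ) + κ • lapM) * Rk r κ = 1 :=
  Matrix.mul_nonsing_inv _ (pd_unit (pd_add (psd_klap hκ) hr))

lemma pd_Rk {r κ : ℝ} (hr : 0 < r) (hκ : 0 ≤ κ) : (Rk r κ : Matrix (V n) (V n) ℝ).PosDef :=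
  (pd_add (psd_klap hκ) hr).inv

/-- value of the kernel on the diagonal -/
def gd (n : ℕ) [NeZero n] (r κ : ℝ) : ℝ := (Rk r κ : Matrix (V n) (V n) ℝ) 0 0

lemma gd_eq {r κ : ℝ} (hr : 0 < r) (hκ : 0 ≤ κ) :
    gd n r κ = ((n : ℝ) ^ 2)⁻¹ * ∑ k : V n, (r + κ * EE k)⁻¹ := by
  unfold gd
  rw [(ti_Rk r κ).diag_eq]
  simp_rw [sym_Rk hr hκ]

lemma gd_nonneg {r κ : ℝ} (hr : 0 < r) (hκ : 0 ≤ κ) : 0 ≤ gd n r κ := by
  rw [gd_eq hr hκ]
  exact mul_nonneg (by positivity) (Finset.sum_nonneg fun k _ => (inv_pos.2 (op_pos hr hκ k)).le)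

/-- gradient energy of the kernel -/
lemma grd_ker {r κ : ℝ} (hr : 0 < r) (hκ : 0 ≤ κ) :
    κ * grd ((Rk r κ : Matrix (V n) (V n) ℝ) 0) ≤ gd n r κ := by
  set c : V n → ℝ := (Rk r κ : Matrix (V n) (V n) ℝ) 0 with hc
  have h1 : (r • (1 : Matrix (V n) (V n) ℝ) + κ • lapM) *ᵥ c = Pi.single 0 1 := by
    have e : c = Rk r κ *ᵥ Pi.single 0 1 := by
      funext z
      rw [Matrix.mulVec_single_one, Matrix.col_apply, hc]
      exact (ti_Rk r κ).sy _ _
    rw [e, Matrix.mulVec_mulVec, op_mul_Rk hr hκ, Matrix.one_mulVec]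
  have h2 : qd (r • (1 : Matrix (V n) (V n) ℝ) + κ • lapM) c = c 0 := by
    unfold qd
    rw [h1, dotProduct_single, mul_one]
  rw [qd_add, qd_smul, qd_smul, qd_one, ← qf_qd lapM, qf_lapM] at h2
  have h3 := sq_nonneg' c
  have h4 : gd n r κ = c 0 := rfl
  rw [h4]
  nlinarith [mul_nonneg hr.le h3]

lemma Q_le (ψ : V n → ℝ) (z : V n) : Q ψ z ≤ 2 * (nrm z : ℝ) ^ 2 * grd ψ := by
  have h1 := TM.H764.Q_par ψ (z.1, 0) (0, z.2)
  have e : ((z.1, 0) : V n) + (0, z.2) = z := by ext <;> simp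
  rw [e] at h1
  have h2 := TM.H764.Q_nonneg ψ ((0, z.2) - (z.1, 0))
  have h3 := TM.H764.Q_axis1 ψ z.1
  have h4 := TM.H764.Q_axis2 ψ z.2
  have h5 : ((z.1.valMinAbs : ℝ)) ^ 2 ≤ (nrm z : ℝ) ^ 2 := by
    have : (z.1.valMinAbs.natAbs : ℝ) ≤ (nrm z : ℝ) := by exact_mod_cast le_max_left _ _
    have h6 : ((z.1.valMinAbs : ℝ)) ^ 2 = (z.1.valMinAbs.natAbs : ℝ) ^ 2 := by
      rw [Nat.cast_natAbs, Int.cast_abs, sq_abs]
    rw [h6]
    exact pow_le_pow_left₀ (Nat.cast_nonneg _) this 2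
  have h5' : ((z.2.valMinAbs : ℝ)) ^ 2 ≤ (nrm z : ℝ) ^ 2 := by
    have : (z.2.valMinAbs.natAbs : ℝ) ≤ (nrm z : ℝ) := by exact_mod_cast le_max_right _ _
    have h6 : ((z.2.valMinAbs : ℝ)) ^ 2 = (z.2.valMinAbs.natAbs : ℝ) ^ 2 := by
      rw [Nat.cast_natAbs, Int.cast_abs, sq_abs]
    rw [h6]
    exact pow_le_pow_left₀ (Nat.cast_nonneg _) this 2
  have q1 := TM.H764.Q_nonneg ψ (1, 0)
  have q2 := TM.H764.Q_nonneg ψ (0, 1)
  unfold grd
  nlinarith [mul_le_mul_of_nonneg_right h5 q1, mul_le_mul_of_nonneg_right h5' q2]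

/-- the resolvent applied to the difference of two points -/
lemma sq_diff {r κ : ℝ} (x y : V n) :
    sq (Rk r κ *ᵥ (Pi.single x 1 - Pi.single y 1)) =
      Q ((Rk r κ : Matrix (V n) (V n) ℝ) 0) (y - x) := by
  have hT := ti_Rk (n := n) r κ
  have e : ∀ z, (Rk r κ *ᵥ (Pi.single x 1 - Pi.single y 1)) z =
      (Rk r κ : Matrix (V n) (V n) ℝ) 0 (x - z) - (Rk r κ : Matrix (V n) (V n) ℝ) 0 (y - z) := by
    intro z
    rw [Matrix.mulVec_sub, Pi.sub_apply, Matrix.mulVec_single_one, Matrix.mulVec_single_one,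
      Matrix.col_apply, Matrix.col_apply, hT.eq z x, hT.eq z y]
  unfold sq Q dotProduct
  simp_rw [e]
  rw [← Equiv.sum_comp (Equiv.subLeft x)]
  refine Finset.sum_congr rfl fun w _ => ?_
  simp only [Equiv.subLeft_apply]
  have e1 : x - (x - w) = w := by abel
  have e2 : y - (x - w) = w + (y - x) := by abel
  rw [e1, e2]
  ring

lemma sq_diff_le {r κ : ℝ} (hr : 0 < r) (hκ : 0 < κ) (x y : V n) :
    sq (Rk r κ *ᵥ (Pi.single x 1 - Pi.single y 1)) ≤
      2 * (nrm (y - x) : ℝ) ^ 2 * (gd n r κ / κ) := by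
  rw [sq_diff]
  refine (Q_le _ _).trans (mul_le_mul_of_nonneg_left ?_ (by positivity))
  rw [le_div_iff₀ hκ]
  have := grd_ker (n := n) hr hκ.le
  linarith

/-- triangle inequality for squares -/
lemma sq_sum_le {I J : Type*} [Fintype I] (s : Finset J) (a : J → ℝ) (v : J → I → ℝ) {K : ℝ}
    (hK : 0 ≤ K) (hv : ∀ j ∈ s, sq (v j) ≤ K) :
    sq (∑ j ∈ s, a j • v j) ≤ (∑ j ∈ s, |a j|) ^ 2 * K := by
  have h1 : sq (∑ j ∈ s, a j • v j) = ∑ i ∈ s, ∑ j ∈ s, a i * a j * (v i ⬝ᵥ v j) := by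
    unfold sq
    rw [sum_dotProduct]
    refine Finset.sum_congr rfl fun i _ => ?_
    rw [dotProduct_sum]
    refine Finset.sum_congr rfl fun j _ => ?_
    rw [smul_dotProduct, dotProduct_smul, smul_eq_mul, smul_eq_mul]
    ring
  have h2 : ∀ i ∈ s, ∀ j ∈ s, |v i ⬝ᵥ v j| ≤ K := by
    intro i hi j hj
    have h3 : (v i ⬝ᵥ v j) ^ 2 ≤ sq (v i) * sq (v j) := by
      have := Finset.sum_mul_sq_le_sq_mul_sq Finset.univ (v i) (v j)
      unfold sq dotProduct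
      simpa only [pow_two] using this
    have h4 : sq (v i) * sq (v j) ≤ K ^ 2 := by
      have := mul_le_mul (hv i hi) (hv j hj) (sq_nonneg' _) hK
      nlinarith
    exact abs_le_of_sq_le_sq (h3.trans h4) hK
  rw [h1, pow_two, Finset.sum_mul_sum, Finset.sum_mul]
  refine Finset.sum_le_sum fun i hi => ?_
  rw [Finset.sum_mul]
  refine Finset.sum_le_sum fun j hj => ?_
  refine (le_abs_self _).trans ?_
  rw [abs_mul, abs_mul]
  exact mul_le_mul_of_nonneg_left (h2 i hi j hj) (by positivity)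

/-- **neutral vectors in a box** -/
theorem sq_neutral {r κ : ℝ} (hr : 0 < r) (hκ : 0 < κ) (c : V n) (ρ : ℕ) (u : V n → ℝ)
    (hu : ∀ x, x ∉ bx c ρ → u x = 0) (hn : ∑ x, u x = 0) :
    sq (Rk r κ *ᵥ u) ≤ (2 * (ρ : ℝ) + 1) ^ 2 * (2 * (ρ : ℝ) ^ 2 * (gd n r κ / κ)) * sq u := by
  have hg := gd_nonneg (n := n) hr hκ.le
  have hn' : ∑ x ∈ bx c ρ, u x = 0 := by
    rw [← hn]
    refine Finset.sum_subset (Finset.subset_univ _) fun x _ hx => hu x hx
  have e1 : u = ∑ x ∈ bx c ρ, u x • (Pi.single x 1 - Pi.single c 1 : V n → ℝ) := by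
    funext y
    rw [Finset.sum_apply]
    simp only [Pi.smul_apply, Pi.sub_apply, smul_eq_mul, mul_sub, Finset.sum_sub_distrib]
    rw [← Finset.sum_mul, hn', zero_mul, sub_zero]
    simp only [Pi.single_apply, mul_ite, mul_one, mul_zero]
    rw [Finset.sum_ite_eq]
    split_ifs with h
    · rfl
    · exact hu y h
  have e2 : Rk r κ *ᵥ u =
      ∑ x ∈ bx c ρ, u x • (Rk r κ *ᵥ (Pi.single x 1 - Pi.single c 1 : V n → ℝ)) := by
    conv_lhs => rw [e1]
    rw [Matrix.mulVec_sum]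
    refine Finset.sum_congr rfl fun x _ => ?_
    rw [Matrix.mulVec_smul]
  have hK : 0 ≤ 2 * (ρ : ℝ) ^ 2 * (gd n r κ / κ) := by positivity
  have h1 : ∀ x ∈ bx c ρ, sq (Rk r κ *ᵥ (Pi.single x 1 - Pi.single c 1 : V n → ℝ)) ≤
      2 * (ρ : ℝ) ^ 2 * (gd n r κ / κ) := by
    intro x hx
    refine (sq_diff_le hr hκ x c).trans ?_
    have h2 : nrm (c - x) ≤ ρ := by
      have h3 : nrm (x - c) ≤ ρ := (Finset.mem_filter.1 hx).2
      have h4 : nrm (c - x) = nrm (x - c) := by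
        unfold nrm
        rw [← neg_sub x c, Prod.fst_neg, Prod.snd_neg, ZMod.natAbs_valMinAbs_neg,
          ZMod.natAbs_valMinAbs_neg]
      rwa [h4]
    have h5 : (nrm (c - x) : ℝ) ≤ ρ := by exact_mod_cast h2
    have h6 : (nrm (c - x) : ℝ) ^ 2 ≤ (ρ : ℝ) ^ 2 := pow_le_pow_left₀ (Nat.cast_nonneg _) h5 2
    have h7 : 0 ≤ gd n r κ / κ := by positivity
    nlinarith [mul_le_mul_of_nonneg_right h6 h7]
  rw [e2]
  refine (sq_sum_le _ _ _ hK h1).trans ?_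
  have h8 : (∑ x ∈ bx c ρ, |u x|) ^ 2 ≤ (2 * (ρ : ℝ) + 1) ^ 2 * sq u := by
    refine (sq_sum_le_card_mul_sum_sq (s := bx c ρ) (f := fun x => |u x|)).trans ?_
    have h9 : ((bx c ρ).card : ℝ) ≤ (2 * (ρ : ℝ) + 1) ^ 2 := by
      exact_mod_cast TM.H764.card_bx c ρ
    have h10 : ∑ x ∈ bx c ρ, |u x| ^ 2 ≤ sq u := by
      unfold sq dotProduct
      refine (Finset.sum_le_univ_sum_of_nonneg fun x => by positivity).trans (le_of_eq ?_)
      refine Finset.sum_congr rfl fun x _ => ?_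
      rw [sq_abs, pow_two]
    exact mul_le_mul h9 h10 (Finset.sum_nonneg fun x _ => by positivity) (by positivity)
  calc (∑ x ∈ bx c ρ, |u x|) ^ 2 * (2 * (ρ : ℝ) ^ 2 * (gd n r κ / κ))
      ≤ (2 * (ρ : ℝ) + 1) ^ 2 * sq u * (2 * (ρ : ℝ) ^ 2 * (gd n r κ / κ)) :=
        mul_le_mul_of_nonneg_right h8 hK
    _ = _ := by ring

/-- the form of the resolvent on neutral vectors in a box -/
theorem qd_neutral {r κ : ℝ} (hr : 0 < r) (hκ : 0 < κ) (c : V n) (ρ : ℕ) (u : V n → ℝ)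
    (hu : ∀ x, x ∉ bx c ρ → u x = 0) (hn : ∑ x, u x = 0) :
    qd (Rk r κ) u ≤ (2 * (ρ : ℝ) + 1) * (ρ : ℝ) * Real.sqrt (2 * (gd n r κ / κ)) * sq u := by
  have hg := gd_nonneg (n := n) hr hκ.le
  have h1 := sq_neutral hr hκ c ρ u hu hn
  have h2 : (qd (Rk r κ) u) ^ 2 ≤ sq u * sq (Rk r κ *ᵥ u) := by
    have := Finset.sum_mul_sq_le_sq_mul_sq Finset.univ u (Rk r κ *ᵥ u)
    unfold qd sq dotProduct
    simpa only [pow_two] using this
  have h3 : 0 ≤ sq u := sq_nonneg' u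
  have h4 : 0 ≤ 2 * (gd n r κ / κ) := by positivity
  have h5 : 0 ≤ (2 * (ρ : ℝ) + 1) * (ρ : ℝ) * Real.sqrt (2 * (gd n r κ / κ)) * sq u := by
    positivity
  refine (le_abs_self _).trans (abs_le_of_sq_le_sq (h2.trans ?_) h5)
  have h6 : ((2 * (ρ : ℝ) + 1) * (ρ : ℝ) * Real.sqrt (2 * (gd n r κ / κ)) * sq u) ^ 2 =
      sq u * ((2 * (ρ : ℝ) + 1) ^ 2 * (2 * (ρ : ℝ) ^ 2 * (gd n r κ / κ)) * sq u) := by
    rw [mul_pow, mul_pow, mul_pow, Real.sq_sqrt h4]
    ring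
  rw [h6]
  exact mul_le_mul_of_nonneg_left h1 h3

/-! ### the diagonal value -/

lemma one_sub_cN_low (j : ZMod n) :
    8 * ((j.valMinAbs.natAbs : ℝ)) ^ 2 / (n : ℝ) ^ 2 ≤ 1 - cN j := by
  have hn : (0 : ℝ) < n := by exact_mod_cast Nat.pos_of_ne_zero (NeZero.ne n)
  rw [TM.H764.cN_pw]
  have h1 : |TM.H764.pw j| ≤ Real.pi := by
    unfold TM.H764.pw
    have h2 : (j.valMinAbs.natAbs : ℝ) ≤ (n : ℝ) / 2 := by
      have h3 : j.valMinAbs.natAbs ≤ n / 2 := ZMod.natAbs_valMinAbs_le j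
      have h4 : ((n / 2 : ℕ) : ℝ) ≤ (n : ℝ) / 2 := Nat.cast_div_le
      exact le_trans (by exact_mod_cast h3) h4
    rw [abs_div, abs_mul, abs_of_pos (by positivity : (0 : ℝ) < 2 * Real.pi),
      abs_of_pos hn, div_le_iff₀ hn]
    have h5 : |(j.valMinAbs : ℝ)| = (j.valMinAbs.natAbs : ℝ) := by
      rw [Nat.cast_natAbs, Int.cast_abs]
    rw [h5]
    nlinarith [Real.pi_pos]
  refine le_trans (le_of_eq ?_) (TM.H764.one_sub_cos_low h1)
  unfold TM.H764.pw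
  have h6 : ((j.valMinAbs.natAbs : ℝ)) ^ 2 = (j.valMinAbs : ℝ) ^ 2 := by
    rw [Nat.cast_natAbs, Int.cast_abs, sq_abs]
  rw [h6]
  have := Real.pi_pos.ne'
  field_simp
  ring

lemma EE_low (k : V n) : 16 * (nrm k : ℝ) ^ 2 / (n : ℝ) ^ 2 ≤ EE k := by
  have h1 := one_sub_cN_low k.1
  have h2 := one_sub_cN_low k.2
  have h3 := TM.H764.cN_le_one k.1
  have h4 := TM.H764.cN_le_one k.2
  unfold EE
  rcases le_total k.1.valMinAbs.natAbs k.2.valMinAbs.natAbs with h | h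
  · have : nrm k = k.2.valMinAbs.natAbs := max_eq_right h
    rw [this]
    have e : 16 * ((k.2.valMinAbs.natAbs : ℝ)) ^ 2 / (n : ℝ) ^ 2 =
      2 * (8 * ((k.2.valMinAbs.natAbs : ℝ)) ^ 2 / (n : ℝ) ^ 2) := by ring
    rw [e]
    linarith
  · have : nrm k = k.1.valMinAbs.natAbs := max_eq_left h
    rw [this]
    have e : 16 * ((k.1.valMinAbs.natAbs : ℝ)) ^ 2 / (n : ℝ) ^ 2 =
      2 * (8 * ((k.1.valMinAbs.natAbs : ℝ)) ^ 2 / (n : ℝ) ^ 2) := by ring
    rw [e]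
    linarith

lemma card_abs_eq (m : ℕ) : (univ.filter fun a : ZMod n => a.valMinAbs.natAbs = m).card ≤ 2 := by
  have h : (univ.filter fun a : ZMod n => a.valMinAbs.natAbs = m).card ≤
      ({(m : ℤ), -(m : ℤ)} : Finset ℤ).card := by
    refine Finset.card_le_card_of_injOn (fun x => x.valMinAbs) ?_ ?_
    · intro x hx
      simp only [coe_filter, mem_univ, true_and, Set.mem_ofPred_eq] at hx
      simp only [Finset.coe_insert, Finset.coe_singleton, Set.mem_insert_iff,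
        Set.mem_singleton_iff]
      omega
    · intro x _ y _ h
      exact ZMod.valMinAbs_inj.1 h
  exact h.trans Finset.card_le_two

lemma card_nrm_eq {m : ℕ} (hm : 1 ≤ m) :
    (univ.filter fun k : V n => nrm k = m).card ≤ 12 * m := by
  have h1 : (univ.filter fun k : V n => nrm k = m) ⊆
      ((univ.filter fun a : ZMod n => a.valMinAbs.natAbs = m) ×ˢ
        (univ.filter fun a : ZMod n => (a - 0).valMinAbs.natAbs ≤ m)) ∪
      ((univ.filter fun a : ZMod n => (a - 0).valMinAbs.natAbs ≤ m) ×ˢ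
        (univ.filter fun a : ZMod n => a.valMinAbs.natAbs = m)) := by
    intro k hk
    have hk' : nrm k = m := (Finset.mem_filter.1 hk).2
    unfold nrm at hk'
    simp only [mem_union, mem_product, mem_filter, mem_univ, true_and, sub_zero]
    omega
  refine (Finset.card_le_card h1).trans ((Finset.card_union_le _ _).trans ?_)
  rw [Finset.card_product, Finset.card_product]
  have h2 := card_abs_eq (n := n) m
  have h3 := TM.H764.card_line (N := n) m 0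
  have h4 := Nat.mul_le_mul h2 h3
  have h5 := Nat.mul_le_mul h3 h2
  have h6 : 2 * (2 * m + 1) + (2 * m + 1) * 2 ≤ 12 * m := by omega
  linarith

lemma nrm_le (k : V n) : nrm k ≤ n := by
  unfold nrm
  have h1 := ZMod.natAbs_valMinAbs_le k.1
  have h2 := ZMod.natAbs_valMinAbs_le k.2
  omega

lemma nrm_eq_zero {k : V n} : nrm k = 0 ↔ k = 0 := by
  unfold nrm
  constructor
  · intro h
    have h1 : k.1.valMinAbs = 0 := by omega
    have h2 : k.2.valMinAbs = 0 := by omega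
    rw [ZMod.valMinAbs_eq_zero] at h1 h2
    exact Prod.ext h1 h2
  · rintro rfl
    simp

/-- `∑_{k ≠ 0} nrm(k)⁻² ≤ 12 (1 + log n)` -/
lemma sum_nrm_inv : ∑ k : V n, (if k = 0 then (0 : ℝ) else ((nrm k : ℝ) ^ 2)⁻¹) ≤
    12 * (1 + Real.log n) := by
  have h1 : ∑ k : V n, (if k = 0 then (0 : ℝ) else ((nrm k : ℝ) ^ 2)⁻¹) =
      ∑ m ∈ range (n + 1), ∑ k ∈ univ.filter (fun k : V n => nrm k = m),
        (if k = 0 then (0 : ℝ) else ((nrm k : ℝ) ^ 2)⁻¹) := by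
    rw [← Finset.sum_fiberwise_of_maps_to (s := univ) (t := range (n + 1)) (g := fun k : V n => nrm k)]
    intro k _
    rw [mem_range]
    have := nrm_le k
    omega
  rw [h1]
  have h2 : ∀ m ∈ range (n + 1), ∑ k ∈ univ.filter (fun k : V n => nrm k = m),
        (if k = 0 then (0 : ℝ) else ((nrm k : ℝ) ^ 2)⁻¹) ≤ if m = 0 then 0 else 12 * (m : ℝ)⁻¹ := by
    intro m _
    by_cases hm : m = 0
    · rw [if_pos hm]
      refine le_of_eq (Finset.sum_eq_zero fun k hk => ?_)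
      have := (mem_filter.1 hk).2
      rw [hm, nrm_eq_zero] at this
      rw [if_pos this]
    · rw [if_neg hm]
      have hm1 : 1 ≤ m := Nat.one_le_iff_ne_zero.2 hm
      have hm0 : (0 : ℝ) < m := by exact_mod_cast hm1
      calc ∑ k ∈ univ.filter (fun k : V n => nrm k = m),
            (if k = 0 then (0 : ℝ) else ((nrm k : ℝ) ^ 2)⁻¹)
          ≤ ∑ k ∈ univ.filter (fun k : V n => nrm k = m), ((m : ℝ) ^ 2)⁻¹ := by
            refine Finset.sum_le_sum fun k hk => ?_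
            have := (mem_filter.1 hk).2
            split_ifs
            · positivity
            · rw [this]
        _ = ((univ.filter fun k : V n => nrm k = m).card : ℝ) * ((m : ℝ) ^ 2)⁻¹ := by
            rw [Finset.sum_const, nsmul_eq_mul]
        _ ≤ (12 * (m : ℝ)) * ((m : ℝ) ^ 2)⁻¹ := by
            refine mul_le_mul_of_nonneg_right ?_ (by positivity)
            exact_mod_cast card_nrm_eq hm1
        _ = 12 * (m : ℝ)⁻¹ := by field_simp
  refine (Finset.sum_le_sum h2).trans ?_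
  rw [Finset.sum_range_succ']
  simp only [Nat.add_eq_zero_iff, one_ne_zero, and_false, if_false, if_true, add_zero]
  rw [← Finset.mul_sum]
  refine mul_le_mul_of_nonneg_left ?_ (by norm_num)
  have h3 := harmonic_le_one_add_log n
  unfold harmonic at h3
  push_cast at h3 ⊢
  exact h3

/-- **the diagonal value of the resolvent** -/
theorem gd_le {r κ : ℝ} (hr : 0 < r) (hκ : 0 < κ) :
    gd n r κ ≤ 1 / (r * (n : ℝ) ^ 2) + (1 + Real.log n) / κ := by
  have hn : (0 : ℝ) < n := by exact_mod_cast Nat.pos_of_ne_zero (NeZero.ne n)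
  rw [gd_eq hr hκ.le]
  have h1 : ∀ k : V n, (r + κ * EE k)⁻¹ ≤ (if k = 0 then r⁻¹ else 0) +
      (n : ℝ) ^ 2 / (16 * κ) * (if k = 0 then (0 : ℝ) else ((nrm k : ℝ) ^ 2)⁻¹) := by
    intro k
    by_cases hk : k = 0
    · rw [if_pos hk, if_pos hk, mul_zero, add_zero]
      refine inv_anti₀ hr ?_
      have := mul_nonneg hκ.le (TM.H764.EE_nonneg k)
      linarith
    · rw [if_neg hk, if_neg hk, zero_add]
      have h2 : (0 : ℝ) < nrm k := by
        have : nrm k ≠ 0 := fun h => hk (nrm_eq_zero.1 h)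
        exact_mod_cast Nat.pos_of_ne_zero this
      have h3 := EE_low k
      have h4 : κ * (16 * (nrm k : ℝ) ^ 2 / (n : ℝ) ^ 2) ≤ r + κ * EE k := by
        have := mul_le_mul_of_nonneg_left h3 hκ.le
        linarith
      refine (inv_anti₀ (by positivity) h4).trans (le_of_eq ?_)
      field_simp
  calc ((n : ℝ) ^ 2)⁻¹ * ∑ k : V n, (r + κ * EE k)⁻¹
      ≤ ((n : ℝ) ^ 2)⁻¹ * ∑ k : V n, ((if k = 0 then r⁻¹ else 0) +
        (n : ℝ) ^ 2 / (16 * κ) * (if k = 0 then (0 : ℝ) else ((nrm k : ℝ) ^ 2)⁻¹)) :=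
        mul_le_mul_of_nonneg_left (Finset.sum_le_sum fun k _ => h1 k) (by positivity)
    _ = ((n : ℝ) ^ 2)⁻¹ * (r⁻¹ + (n : ℝ) ^ 2 / (16 * κ) *
          ∑ k : V n, (if k = 0 then (0 : ℝ) else ((nrm k : ℝ) ^ 2)⁻¹)) := by
        rw [Finset.sum_add_distrib, ← Finset.mul_sum, Finset.sum_ite_eq']
        simp
    _ ≤ ((n : ℝ) ^ 2)⁻¹ * (r⁻¹ + (n : ℝ) ^ 2 / (16 * κ) * (12 * (1 + Real.log n))) := by
        refine mul_le_mul_of_nonneg_left (add_le_add le_rfl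
          (mul_le_mul_of_nonneg_left sum_nrm_inv (by positivity))) (by positivity)
    _ = 1 / (r * (n : ℝ) ^ 2) + (12 / 16) * ((1 + Real.log n) / κ) := by
        field_simp
    _ ≤ _ := by
        have h5 : 0 ≤ (1 + Real.log n) / κ := by
          have : 0 ≤ Real.log n := Real.log_natCast_nonneg n
          positivity
        linarith

end

end Vale.Agent.P159.H859
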