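import Vale.Agent.P159.H859.Smo2

/-!
P159 (helper859), LINKW (B), piece Lw4: the smoothed pyramid, one statement with explicit constant.
-/

set_option linter.unusedSectionVars false

namespace Vale.Agent.P159.H859

open Vale.Agent.P159 Vale.Agent.P159.H353 Vale.Agent.P159.R2.H254
open Vale.Agent.P159.H950 Vale.Agent.P159.H856

noncomputable section

/-- `- Laplacian`, one line form -/
theorem lapz_def (f : ℤ × ℤ → ℝ) (c : ℤ × ℤ) : lapz f c =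
    4 * f c - f (c + (1, 0)) - f (c - (1, 0)) - f (c + (0, 1)) - f (c - (0, 1)) := by
  unfold lapz
  ring

/-- **the smoothed pyramid** -/
theorem smo (x0 y0 : ℤ) {p s : ℕ} (hs : 1 ≤ s) (hsp : s ≤ p) : ∃ fs : ℤ × ℤ → ℝ,
    (∀ c, fs c ≠ 0 → x0 - 2 * p < c.1 ∧ c.1 < x0 + 2 * p - 1 ∧ y0 - 2 * p < c.2 ∧
      c.2 < y0 + 2 * p - 1) ∧
    (∀ c, |lapz fs c| ≤ 8 / s) ∧
    (∀ R : Finset (ℤ × ℤ), ∑ c ∈ R, lapz fs c ^ 2 ≤ 128 * p / s) ∧
    (∀ R : Finset (ℤ × ℤ), nG R (sF fun c => pf x0 y0 p c - fs c) ≤ 128 * p * s) ∧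
    (∀ R : Finset (ℤ × ℤ), (∀ c : ℤ × ℤ, x0 - p ≤ c.1 → c.1 < x0 + p → y0 - p ≤ c.2 →
      c.2 < y0 + p → c ∈ R) → nG R (sF fs) ≤ nG R (pyr x0 y0 p)) ∧
    (∀ c, 0 ≤ fs c ∧ fs c ≤ p) := by
  have hp : (1 : ℤ) ≤ (p : ℤ) := by exact_mod_cast hs.trans hsp
  have hs0 : (0 : ℝ) < s := by exact_mod_cast hs
  refine ⟨smz s (pf x0 y0 p), fun c hc => ?_, fun c => lapz_smz_le x0 y0 p hs c, fun R => ?_,
    fun R => ?_, fun R hR => ?_, fun c => ⟨smz_nonneg (pf_nonneg x0 y0 p) s c, ?_⟩⟩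
  · have h := smz_ne hc
    have : (s : ℤ) ≤ p := by exact_mod_cast hsp
    omega
  · refine (sq_lapz_smz x0 y0 hp hs R).trans ?_
    refine div_le_div_of_nonneg_right ?_ hs0.le
    push_cast
    linarith
  · refine (nG_diff_le R x0 y0 hp hs).trans ?_
    push_cast
    nlinarith [hs0]
  · rw [(nG_pyr hp hR).1]
    refine (nG_sF_le R (smz_fsu (pf_fsu x0 y0 p) s)).trans ?_
    have := enz_smz_le (pf_fsu x0 y0 (p : ℤ)) hs
    linarith
  · refine smz_le (fun c => ?_) hs c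
    exact_mod_cast pf_le x0 y0 (by omega) c

end

end Vale.Agent.P159.H859
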