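import Vale.Agent.P159.H859.Gn3
import Vale.Agent.P159.H446.Cut4

/-!
P159 / CUT (helper859), numbers of the ideal correction, part 4: helper446's hypothesis `ha` of
`cut_pair1` and the strong `R` numbers of its deterministic fields `H1`.
-/

open Finset MeasureTheory

set_option linter.unusedSectionVars false

namespace Vale.Agent.P159.H859.Gn

open Vale.Agent.P159.TM.Spec (V)
open Vale.Agent.P159.H817 (gr nrm GB sz e1 U gr_eq)
open Vale.Agent.P159.H191 (Wts YP th RT)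
open Vale.Agent.P159.H663.Dr (tT)
open Vale.Agent.P159.H859.Idl (gsR Prm s0 SmT)
open Vale.Agent.P159.H972 (FL)
open Vale.Agent.P159.H963.Core (RF)
open Vale.Agent.P159.H789 (lvS)
open Vale.Agent.P159.H446.Pr (sj H1 sj_nonneg sj_le_one)

noncomputable section

variable {N n l : ℕ} [NeZero N] [NeZero n]

/-- gradient of the profiles of the path -/
lemma GB_sj (hN : N = n * l) (hl : 0 < l) (j i : ℕ) : GB (1 / (N : ℝ)) (sj N n l j i) := by
  rintro ⟨x, b⟩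
  have h1 := H191.gr_th (N := N) (n := n) hN hl i (x, b)
  rw [gr_eq] at h1 ⊢
  unfold H446.Pr.sj
  have hn : (0 : ℝ) < n := by exact_mod_cast NeZero.pos n
  have hl' : (0 : ℝ) < l := by exact_mod_cast hl
  have e : ((j : ℝ) + th N n l i (x + H817.eb b)) / n - ((j : ℝ) + th N n l i x) / n =
      (th N n l i (x + H817.eb b) - th N n l i x) / n := by ring
  have e2 : (1 : ℝ) / N = 1 / (l : ℝ) / n := by
    rw [hN]
    push_cast
    field_simp
  rw [e, abs_div, abs_of_pos hn, e2]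
  exact div_le_div_of_nonneg_right h1 hn.le

lemma nrm_sj (hN : N = n * l) (hl : 0 < l) (j i : ℕ) : nrm (gr (sj N n l j i)) ≤ 2 := by
  have hN0 : (N : ℝ) ≠ 0 := by exact_mod_cast (NeZero.ne N)
  refine (nrm_GB (GB_sj hN hl j i)).trans (le_of_eq ?_)
  field_simp

lemma abs_sj {j : ℕ} (hj : j < n) (i : ℕ) (x : V N) : |sj N n l j i x| ≤ 1 := by
  rw [abs_of_nonneg (sj_nonneg j i x)]
  exact sj_le_one hj i x

variable {N1 : ℕ} [NeZero N1] {R1 lR R q s : ℕ} {μ w : V N → ℝ} {b t : ℝ}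

/-- **Dirichlet energy of the deterministic fields of the path** -/
theorem nrm_H1 (H : Prm N N1 lR R R1) (hq : 0 < q) (hN : N = n * l) (hl : 0 < l)
    (hw : Wts w s) (hμ : ∀ z, 0 ≤ μ z) (hμ1 : ∑ z, μ z = 1) (p p' : V N) {j : ℕ} (hj : j < n)
    (i : ℕ) :
    nrm (gr (H1 N n l (tT N q) (U (30 * lR) lR) μ w p p' (gsR N N1 R1 lR R) j i)) ≤
      130000000000 * (s0 ^ 2 * ((lR : ℝ) / R) ^ 2) := by
  unfold H446.Pr.H1
  exact nrm_gs H hq hl hw hμ hμ1 (abs_sj hj i) (nrm_sj hN hl j i) p p'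

/-- **`ha` of `cut_pair1`** -/
theorem ha_H1 (H : Prm N N1 lR R R1) (hq : 0 < q) (hN : N = n * l) (hl : 0 < l)
    (hw : Wts w s) (hμ : ∀ z, 0 ≤ μ z) (hμ1 : ∑ z, μ z = 1) (p p' : V N) (hb : 0 < b)
    (ht : 0 < t) {a η : ℝ} (h : FL b t a η N) (ha : a ≤ 2) (hη : η ≤ 1) :
    ∀ j < n, ∀ i ≤ n * n, H37.qf (H963.Anm N b t)
      (H1 N n l (tT N q) (U (30 * lR) lR) μ w p p' (gsR N N1 R1 lR R) j i) ≤
      780000000000 * (s0 ^ 2 * ((lR : ℝ) / R) ^ 2) := by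
  intro j hj i _
  unfold H446.Pr.H1
  exact qf_gs H hq hl hw hμ hμ1 (abs_sj hj i) (nrm_sj hN hl j i) p p' hb ht h ha hη

/-- **strong `R` numbers of the deterministic fields** -/
theorem rf_H1 (H : Prm N N1 lR R R1) (hq : 0 < q) (hN : N = n * l) (hl : 0 < l)
    (hw : Wts w s) (hμ : ∀ z, 0 ≤ μ z) (hμ1 : ∑ z, μ z = 1) (p p' : V N) (hb : 0 < b)
    (ht : 0 < t) {lc : ℕ} [NeZero (N / lc)] {Y ρ pa pb κ : ℝ} {j' k' : ℕ}
    (hS : SmT N lc b t Y ρ pa pb κ j' k') {z : ℝ}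
    (hz : 4160000000000 * z ^ 2 * κ * (s0 ^ 2 * ((lR : ℝ) / R) ^ 2) ≤ 4 ^ j') :
    ∀ j < n, ∀ i ≤ n * n, RF N b t (z • H1 N n l (tT N q) (U (30 * lR) lR) μ w p p'
      (gsR N N1 R1 lR R) j i) ≤
      lvS ρ j' k' / 2 + 2080000000000 * z ^ 2 * t * (lc : ℝ) ^ 2 *
        (s0 ^ 2 * ((lR : ℝ) / R) ^ 2) := by
  intro j hj i _
  unfold H446.Pr.H1
  exact rf_gs H hq hl hw hμ hμ1 (abs_sj hj i) (nrm_sj hN hl j i) p p' hb ht hS hz

end

end Vale.Agent.P159.H859.Gn
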