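import Vale.Agent.P159.H859.Idl2

/-!
P159 / ideal pair (helper859), part 3: harmonicity of the correction near the cores, the functions
`gsR` of helper686 for the axis pairs.
-/

set_option linter.unusedSectionVars false

namespace Vale.Agent.P159.H859.Idl

open Finset
open Vale.Agent.P159.TM.Spec (V)
open Vale.Agent.P159.H817

noncomputable section

section

variable {N : ℕ} [NeZero N] {N1 : ℕ} [NeZero N1]

lemma tr_sub {z : V N} (b : Bool) (h : 2 * (sz z + 2) < N) :
    tr N1 (z - eb b) = tr N1 z - eb b := by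
  have h1 := (sz_step (z - eb b) b).1
  rw [sub_add_cancel] at h1
  have h2 := tr_add (N1 := N1) (z := z - eb b) b (by omega)
  rw [sub_add_cancel] at h2
  rw [h2, add_sub_cancel_right]

/-- the lifted near field is divergence free near the core -/
lemma dv_nf (R1 : ℕ) (p x : V N) (h : 2 * (sz (x - p) + 2) < N) :
    dv (nf (bC N1 R1) p) x = 0 := by
  have a1 : tr N1 (x - e1 - p) = tr N1 (x - p) - e1 := by
    have h3 := tr_sub (N1 := N1) (z := x - p) false h
    have e : x - e1 - p = x - p - eb false := by
      show x - e1 - p = x - p - e1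
      abel
    rw [e]
    exact h3
  have a2 : tr N1 (x - e2 - p) = tr N1 (x - p) - e2 := by
    have h3 := tr_sub (N1 := N1) (z := x - p) true h
    have e : x - e2 - p = x - p - eb true := by
      show x - e2 - p = x - p - e2
      abel
    rw [e]
    exact h3
  have h4 := dv_bD (0 : V N1) (R1 • e1) (tr N1 (x - p))
  unfold dv at h4 ⊢
  rw [nf_bC, nf_bC, nf_bC, nf_bC]
  simp only
  rw [a1, a2]
  exact h4

/-- the correction is harmonic near the first core -/
theorem lap0 {R1 m : ℕ} {p q : V N} {g : V N → ℝ} (hI : H817.Idl (bC N1 R1) m p q g) {x : V N}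
    (hx : sz (x - p) + 1 ≤ m) (h : 2 * (sz (x - p) + 2) < N) : lp g x = 0 := by
  have hn : ∀ b : Bool, sz (x - eb b - p) ≤ sz (x - p) + 1 := by
    intro b
    have h1 := (sz_step (x - p - eb b) b).1
    rw [sub_add_cancel] at h1
    have e : x - eb b - p = x - p - eb b := by abel
    rw [e]
    exact h1
  have k1 := hI.at0 (x - eb false, false) (by have := hn false; simp only; omega)
  have k2 := hI.at0 (x, false) (by simp only; omega)
  have k3 := hI.at0 (x - eb true, true) (by have := hn true; simp only; omega)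
  have k4 := hI.at0 (x, true) (by simp only; omega)
  have d1 := dv_nf (N1 := N1) R1 p x h
  have d2 := dv_bD p q x
  have d3 := dv_gr g x
  change bD p q (x - e1, false) + gr g (x - e1, false) = _ at k1
  change bD p q (x - e2, true) + gr g (x - e2, true) = _ at k3
  change nf (bC N1 R1) p (x - e1, false) - nf (bC N1 R1) p (x, false) +
    (nf (bC N1 R1) p (x - e2, true) - nf (bC N1 R1) p (x, true)) = 0 at d1
  change bD p q (x - e1, false) - bD p q (x, false) +
    (bD p q (x - e2, true) - bD p q (x, true)) = 0 at d2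
  change gr g (x - e1, false) - gr g (x, false) +
    (gr g (x - e2, true) - gr g (x, true)) = -lp g x at d3
  change _ = nf (bC N1 R1) p (x - e1, false) at k1
  change _ = nf (bC N1 R1) p (x - e2, true) at k3
  linarith

/-- the correction is harmonic near the second core -/
theorem lap1 {R1 m : ℕ} {p q : V N} {g : V N → ℝ} (hI : H817.Idl (bC N1 R1) m p q g) {x : V N}
    (hx : sz (x - q) + 1 ≤ m) (h : 2 * (sz (x - q) + 2) < N) : lp g x = 0 := by
  have hn : ∀ b : Bool, sz (x - eb b - q) ≤ sz (x - q) + 1 := by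
    intro b
    have h1 := (sz_step (x - q - eb b) b).1
    rw [sub_add_cancel] at h1
    have e : x - eb b - q = x - q - eb b := by abel
    rw [e]
    exact h1
  have k1 := hI.at1 (x - eb false, false) (by have := hn false; simp only; omega)
  have k2 := hI.at1 (x, false) (by simp only; omega)
  have k3 := hI.at1 (x - eb true, true) (by have := hn true; simp only; omega)
  have k4 := hI.at1 (x, true) (by simp only; omega)
  have d1 := dv_nf (N1 := N1) R1 q x h
  have d2 := dv_bD p q x
  have d3 := dv_gr g x
  change bD p q (x - e1, false) + gr g (x - e1, false) = _ at k1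
  change bD p q (x - e2, true) + gr g (x - e2, true) = _ at k3
  change nf (bC N1 R1) q (x - e1, false) - nf (bC N1 R1) q (x, false) +
    (nf (bC N1 R1) q (x - e2, true) - nf (bC N1 R1) q (x, true)) = 0 at d1
  change bD p q (x - e1, false) - bD p q (x, false) +
    (bD p q (x - e2, true) - bD p q (x, true)) = 0 at d2
  change gr g (x - e1, false) - gr g (x, false) +
    (gr g (x - e2, true) - gr g (x, true)) = -lp g x at d3
  change _ = -nf (bC N1 R1) q (x - e1, false) at k1
  change _ = -nf (bC N1 R1) q (x - e2, true) at k3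
  linarith

end

/-! ### the axis pairs -/

/-- the function `gs` of the axis pair `(0, R e1)` of the torus `N` (window shift), with the near
field of the axis pair `(0, R1 e1)` of the torus `N1` -/
def gsR (N N1 : ℕ) [NeZero N] [NeZero N1] (R1 l R : ℕ) (x : V N) : ℝ :=
  -gid (bC N1 R1) l R (0 : V N) (R • e1) x

/-- the properties of `gsR` -/
structure GsR (N N1 : ℕ) [NeZero N] [NeZero N1] (R1 l R : ℕ) : Prop where
  idl : H817.Idl (bC N1 R1) (20 * l) (0 : V N) (R • e1) (fun x => -gsR N N1 R1 l R x)
  gb : GB (37 * s0 / R) (gsR N N1 R1 l R)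
  le : ∀ x, |gsR N N1 R1 l R x| ≤ 328 * s0 * (l / R)
  far : ∀ x : V N, 40 * l ≤ sz x → 40 * l ≤ sz (x - R • e1) → gsR N N1 R1 l R x = 0
  z0 : gsR N N1 R1 l R 0 = 0
  z1 : gsR N N1 R1 l R (R • e1) = 0
  en : nrm (gr (gsR N N1 R1 l R)) ≤ 60000000 * s0 ^ 2 * ((l : ℝ) / R) ^ 2

theorem gsR_spec {N N1 : ℕ} [NeZero N] [NeZero N1] {R1 l R : ℕ} (H : Prm N N1 l R R1) :
    GsR N N1 R1 l R := by
  have hl := H.hl
  have hlr := H.hlr
  have hrN := H.hrN
  have hz := z0_sz (N := N) (n := R) (by omega)
  have hf : Far R (0 : V N) (R • e1) := by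
    unfold Far
    rw [sub_zero, hz]
    omega
  have h := gid_spec H hf
  refine ⟨?_, ?_, ?_, ?_, ?_, ?_, ?_⟩
  · have e : (fun x => -gsR N N1 R1 l R x) = gid (bC N1 R1) l R (0 : V N) (R • e1) := by
      funext x
      unfold gsR
      rw [neg_neg]
    rw [e]
    exact h.idl
  · exact h.gb.neg
  · intro x
    unfold gsR
    rw [abs_neg]
    exact h.le x
  · intro x h1 h2
    unfold gsR
    rw [h.far x (by rw [sub_zero]; exact h1) h2, neg_zero]
  · unfold gsR
    rw [h.zp, neg_zero]
  · unfold gsR
    rw [h.zq, neg_zero]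
  · have e : nrm (gr (gsR N N1 R1 l R)) = nrm (gr (gid (bC N1 R1) l R (0 : V N) (R • e1))) := by
      unfold nrm
      refine Finset.sum_congr rfl fun e _ => ?_
      have h1 : gr (gsR N N1 R1 l R) e = -gr (gid (bC N1 R1) l R (0 : V N) (R • e1)) e := gr_neg _ e
      rw [h1]
      ring
    rw [e]
    exact h.en

end

end Vale.Agent.P159.H859.Idl
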