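import Vale.Agent.P159.H859.Gn1

/-!
P159 / CUT (helper859), numbers of the ideal correction, part 2: the tent average of a smooth field.
-/

open Finset

set_option linter.unusedSectionVars false

namespace Vale.Agent.P159.H859.Gn

open Vale.Agent.P159.TM.Spec (V)
open Vale.Agent.P159.H817 (gr nrm GB sz eb gr_eq e1 e2)
open Vale.Agent.P159.H276 (bxT)
open Vale.Agent.P159.H663.Dr (tT)

noncomputable section

variable {N q : ℕ} [NeZero N]

lemma bxT_fin (hq : 0 < q) (h : V N → ℝ) (x : V N) : bxT N q h x =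
    ∑ i : Fin q × Fin q, ((q : ℝ) ^ 2)⁻¹ *
      h (x + (((i.1 : ℕ) : ZMod N), ((i.2 : ℕ) : ZMod N))) := by
  unfold bxT
  rw [← Finset.mul_sum, Fintype.sum_prod_type, Finset.sum_range]
  congr 1
  refine Finset.sum_congr rfl fun i _ => ?_
  rw [Finset.sum_range]

lemma tT_fin (hq : 0 < q) (h : V N → ℝ) (x : V N) : tT N q h x =
    ∑ i : Fin q × Fin q, ((q : ℝ) ^ 2)⁻¹ *
      bxT N q h (x - (((i.1 : ℕ) : ZMod N), ((i.2 : ℕ) : ZMod N))) := by
  unfold tT
  rw [← Finset.mul_sum, Fintype.sum_prod_type, Finset.sum_range]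
  congr 1
  refine Finset.sum_congr rfl fun i _ => ?_
  rw [Finset.sum_range]

lemma sum_wq (hq : 0 < q) : ∑ _i : Fin q × Fin q, ((q : ℝ) ^ 2)⁻¹ = 1 := by
  have hq0 : (q : ℝ) ≠ 0 := by exact_mod_cast hq.ne'
  rw [Finset.sum_const, Finset.card_univ, Fintype.card_prod, Fintype.card_fin, nsmul_eq_mul]
  push_cast
  field_simp

lemma nrm_bxT (hq : 0 < q) (h : V N → ℝ) : nrm (gr (bxT N q h)) ≤ nrm (gr h) := by
  have e : bxT N q h = fun x => ∑ i : Fin q × Fin q, ((q : ℝ) ^ 2)⁻¹ *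
      (fun (i : Fin q × Fin q) x => h (x + (((i.1 : ℕ) : ZMod N), ((i.2 : ℕ) : ZMod N)))) i x := by
    funext x
    exact bxT_fin hq h x
  rw [e]
  refine nrm_avg (fun _ => by positivity) (sum_wq hq) _ fun i => ?_
  exact le_of_eq (nrm_shift h _)

/-- **the tent average contracts the Dirichlet energy** -/
theorem nrm_tT (hq : 0 < q) (h : V N → ℝ) : nrm (gr (tT N q h)) ≤ nrm (gr h) := by
  have e : tT N q h = fun x => ∑ i : Fin q × Fin q, ((q : ℝ) ^ 2)⁻¹ *
      (fun (i : Fin q × Fin q) x =>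
        bxT N q h (x - (((i.1 : ℕ) : ZMod N), ((i.2 : ℕ) : ZMod N)))) i x := by
    funext x
    exact tT_fin hq h x
  rw [e]
  refine nrm_avg (fun _ => by positivity) (sum_wq hq) _ fun i => ?_
  rw [nrm_shift_sub (bxT N q h)]
  exact nrm_bxT hq h

lemma bxT_loc (hq : 0 < q) {h : V N → ℝ} {x : V N} {B : ℝ}
    (hB : ∀ i < q, ∀ j < q, |h (x + ((i : ZMod N), (j : ZMod N)))| ≤ B) : |bxT N q h x| ≤ B := by
  rw [bxT_fin hq]
  refine (Finset.abs_sum_le_sum_abs _ _).trans ?_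
  have h1 : ∀ i : Fin q × Fin q, |((q : ℝ) ^ 2)⁻¹ *
      h (x + (((i.1 : ℕ) : ZMod N), ((i.2 : ℕ) : ZMod N)))| ≤ ((q : ℝ) ^ 2)⁻¹ * B := by
    intro i
    rw [abs_mul, abs_of_nonneg (by positivity : (0 : ℝ) ≤ ((q : ℝ) ^ 2)⁻¹)]
    exact mul_le_mul_of_nonneg_left (hB _ i.1.2 _ i.2.2) (by positivity)
  refine (Finset.sum_le_sum fun i _ => h1 i).trans (le_of_eq ?_)
  rw [← Finset.sum_mul, sum_wq hq, one_mul]

/-- the tent average is local -/
lemma tT_loc (hq : 0 < q) {h : V N → ℝ} {x : V N} {B : ℝ}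
    (hB : ∀ i' < q, ∀ j' < q, ∀ i < q, ∀ j < q,
      |h (x - ((i' : ZMod N), (j' : ZMod N)) + ((i : ZMod N), (j : ZMod N)))| ≤ B) :
    |tT N q h x| ≤ B := by
  rw [tT_fin hq]
  refine (Finset.abs_sum_le_sum_abs _ _).trans ?_
  have h1 : ∀ i : Fin q × Fin q, |((q : ℝ) ^ 2)⁻¹ *
      bxT N q h (x - (((i.1 : ℕ) : ZMod N), ((i.2 : ℕ) : ZMod N)))| ≤ ((q : ℝ) ^ 2)⁻¹ * B := by
    intro i
    rw [abs_mul, abs_of_nonneg (by positivity : (0 : ℝ) ≤ ((q : ℝ) ^ 2)⁻¹)]
    exact mul_le_mul_of_nonneg_left (bxT_loc hq fun a ha c hc => hB _ i.1.2 _ i.2.2 a ha c hc)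
      (by positivity)
  refine (Finset.sum_le_sum fun i _ => h1 i).trans (le_of_eq ?_)
  rw [← Finset.sum_mul, sum_wq hq, one_mul]

lemma pair_eq (i j : ℕ) : (((i : ZMod N), (j : ZMod N)) : V N) = i • (e1 : V N) + j • (e2 : V N) := by
  unfold H817.e1 H817.e2
  refine Prod.ext ?_ ?_
  · simp
  · simp

/-- moving by a box vector -/
lemma GB_move {s : ℝ} {g : V N → ℝ} (hg : GB s g) (x : V N) (i j : ℕ) :
    |g (x + ((i : ZMod N), (j : ZMod N))) - g x| ≤ (i + j) * s := by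
  rw [pair_eq, ← add_assoc]
  have h1 := hg.steps (Or.inl rfl) x i
  have h2 := hg.steps (Or.inr rfl) (x + i • e1) j
  have e : g (x + i • e1 + j • e2) - g x =
      (g (x + i • e1 + j • e2) - g (x + i • e1)) + (g (x + i • e1) - g x) := by ring
  rw [e]
  refine (abs_add_le _ _).trans ?_
  rw [add_mul]
  linarith

/-- **the tent average of a smooth field** -/
theorem tT_sub_GB (hq : 0 < q) {s : ℝ} (hs : 0 ≤ s) {g : V N → ℝ} (hg : GB s g) (x : V N) :
    |tT N q g x - g x| ≤ 4 * q * s := by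
  have e : tT N q g x - g x = tT N q (fun y => g y + -g x) x := by
    rw [H663.Dr.tT_addc hq]
    ring
  rw [e]
  refine tT_loc hq fun i' hi' j' hj' i hi j hj => ?_
  set y : V N := x - ((i' : ZMod N), (j' : ZMod N)) with hy
  have h1 := GB_move hg y i j
  have h2 := GB_move hg y i' j'
  have e2 : y + ((i' : ZMod N), (j' : ZMod N)) = x := by
    rw [hy]
    abel
  rw [e2] at h2
  have k1 : ((i : ℝ) + j) * s ≤ 2 * q * s := by
    refine mul_le_mul_of_nonneg_right ?_ hs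
    have a1 : (i : ℝ) ≤ q := by exact_mod_cast hi.le
    have a2 : (j : ℝ) ≤ q := by exact_mod_cast hj.le
    linarith
  have k2 : ((i' : ℝ) + j') * s ≤ 2 * q * s := by
    refine mul_le_mul_of_nonneg_right ?_ hs
    have a1 : (i' : ℝ) ≤ q := by exact_mod_cast hi'.le
    have a2 : (j' : ℝ) ≤ q := by exact_mod_cast hj'.le
    linarith
  have e3 : g (y + ((i : ZMod N), (j : ZMod N))) + -g x =
      (g (y + ((i : ZMod N), (j : ZMod N))) - g y) - (g x - g y) := by ring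
  rw [e3]
  refine (abs_sub _ _).trans ?_
  linarith

/-- energy of `T g - g` -/
theorem nrm_tT_sub (hq : 0 < q) (g : V N → ℝ) : nrm (gr (tT N q g - g)) ≤ 4 * nrm (gr g) := by
  have h1 := nrm_sub_le (tT N q g) g
  have h2 := nrm_tT hq g
  have e : (fun x => tT N q g x - g x) = tT N q g - g := rfl
  rw [e] at h1
  linarith

end

end Vale.Agent.P159.H859.Gn
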