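import Vale.Agent.P159.H145.Dz4

/-!
P159 (helper859), S, (R2): arms from a block in two copies with the same slowly varying real
background.  Part 1: circuits in every slowly varying background (the middle part of Theorem B).
-/

open scoped ENNReal BigOperators
open Finset Filter Topology

set_option linter.unusedSectionVars false

namespace Vale.Agent.P159.TM.H857

open Vale.Agent.P159.H353 Vale.Agent.P159.T1.H897 Vale.Agent.P159.TM.H131
  Vale.Agent.P159.TM.H60 Vale.Agent.P159.TM.H459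

/-- **circuits in every slowly varying background** -/
theorem circ_B {b1 b2 a : ℝ} (hb1 : 0 < b1) (hA6 : Spec.ThmA6 b1 b2 a) :
    ∃ c₀ δ : ℝ, ∃ A : ℕ, 0 < c₀ ∧ 0 < δ ∧ 8 ≤ A ∧ ∃ W₀ : ℝ, ∀ W : ℝ, W₀ ≤ W →
    ∃ L₀ η ys : ℝ, ∃ X : ℕ, 0 < L₀ ∧ 0 < η ∧ 0 < ys ∧ A ≤ X ∧
    ∀ (N : ℕ) [NeZero N] (b : ℝ) (hb : 0 ≤ b) (ξ : ℕ) (y : ℝ),
      Spec.Rng b1 b2 a W ys X N b ξ y → (N : ℝ) ^ 2 * y ≤ η * (ξ : ℝ) ^ 2 →
      ∀ f : Spec.V N → ℝ, Spec.LipS (2 * L₀ / ξ) f → ∀ x0 : Spec.V N,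
        c₀ ≤ Spec.PO N b ξ hb ⌊δ * (ξ : ℝ) ^ 2⌋₊ (ξ / A) f x0 := by
  obtain ⟨W1, hA6⟩ := hA6
  obtain ⟨c₀, δ, ys1, A, X1, hc₀, hδ, hys1, hA, hAX1, hA6⟩ := hA6 W1 le_rfl
  obtain ⟨W3, hH⟩ := H2_of_B1 hb1 (half_pos hc₀) hδ hA
    (H634.thmB1 hb1 b2 a (half_pos hc₀) hδ hA)
  refine ⟨c₀ / 2, δ, A, half_pos hc₀, hδ, hA, max W1 W3, fun W hW => ?_⟩
  have hW1 : W1 ≤ W := (le_max_left _ _).trans hW
  have hW3 : W3 ≤ W := (le_max_right _ _).trans hW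
  obtain ⟨c₂, C₂, η₂, ys3, X3, hc₂, hC₂, hη₂, hys3, hX3, hH⟩ := hH W hW3
  -- constants
  set s : ℝ := Real.log (1 + (c₀ / 8) ^ 2) with hs
  have hs0 : 0 < s := Real.log_pos (by have : 0 < (c₀ / 8) ^ 2 := by positivity
                                       linarith)
  set a' : ℝ := max a 0 with ha'
  have ha'0 : 0 ≤ a' := le_max_right _ _
  set m₀ : ℝ := min (1 / 2) (√(s / (400 * (a' + 1)))) with hm₀
  have hm₀0 : 0 < m₀ := lt_min (by norm_num) (Real.sqrt_pos.2 (by positivity))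
  have hm₀1 : m₀ ^ 2 ≤ 1 / 2 := by
    have h1 : m₀ ≤ 1 / 2 := min_le_left _ _
    nlinarith
  have hm₀2 : m₀ ^ 2 ≤ s / (400 * (a' + 1)) := by
    have h1 : m₀ ≤ √(s / (400 * (a' + 1))) := min_le_right _ _
    calc m₀ ^ 2 ≤ √(s / (400 * (a' + 1))) ^ 2 := pow_le_pow_left₀ hm₀0.le h1 2
      _ = _ := Real.sq_sqrt (by positivity)
  have hm₀3 : 4 * (a' * 50 * m₀ ^ 2) ≤ s / 2 := by
    have h1 : m₀ ^ 2 * (400 * (a' + 1)) ≤ s := by
      rwa [le_div_iff₀ (by positivity)] at hm₀2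
    have h2 : 0 ≤ m₀ ^ 2 := sq_nonneg _
    nlinarith
  set η : ℝ := min η₂ (s / 14) with hη
  have hη0 : 0 < η := lt_min hη₂ (by positivity)
  have hηs : 7 * η ≤ s / 2 := by
    have : η ≤ s / 14 := min_le_right _ _
    linarith
  have hsm : Real.exp (7 * η + 4 * (a' * 50 * m₀ ^ 2)) - 1 ≤ (c₀ / 8) ^ 2 := by
    have h1 : Real.exp (7 * η + 4 * (a' * 50 * m₀ ^ 2)) ≤ Real.exp s :=
      Real.exp_le_exp.2 (by linarith)
    rw [hs, Real.exp_log (by positivity)] at h1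
    linarith
  set D : ℝ := C₂ * Real.exp c₂ with hD
  have hD0 : 0 < D := by positivity
  set LL : ℝ := min m₀ (min (c₂ / 4) (c₂ * m₀ * c₀ / (32 * D))) with hLL
  have hLL0 : 0 < LL := lt_min hm₀0 (lt_min (by positivity) (by positivity))
  have hLLm : LL ≤ m₀ := min_le_left _ _
  have hLL1 : LL ≤ c₂ / 4 := (min_le_right _ _).trans (min_le_left _ _)
  have hLL2 : LL ≤ c₂ * m₀ * c₀ / (32 * D) := (min_le_right _ _).trans (min_le_right _ _)
  have hexp : ∀ t : ℝ, 0 < t → Real.exp (-t) ≤ 1 / t := by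
    intro t ht
    rw [Real.exp_neg, ← one_div]
    refine one_div_le_one_div_of_le ht ?_
    have := Real.add_one_le_exp t
    linarith
  have hq : Real.exp (-(c₂ / (2 * LL))) ≤ 1 / 2 := by
    refine (hexp _ (by positivity)).trans ?_
    refine one_div_le_one_div_of_le two_pos ?_
    rw [le_div_iff₀ (by positivity)]
    linarith
  have hsmall : 2 * D * Real.exp (-(c₂ * m₀ / (2 * LL))) ≤ c₀ / 8 := by
    have h1 := hexp (c₂ * m₀ / (2 * LL)) (by positivity)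
    have h2 : 16 * D / c₀ ≤ c₂ * m₀ / (2 * LL) := by
      rw [div_le_div_iff₀ hc₀ (by positivity)]
      rw [le_div_iff₀ (by positivity)] at hLL2
      nlinarith
    have h3 : 1 / (c₂ * m₀ / (2 * LL)) ≤ 1 / (16 * D / c₀) :=
      one_div_le_one_div_of_le (by positivity) h2
    calc 2 * D * Real.exp (-(c₂ * m₀ / (2 * LL))) ≤ 2 * D * (1 / (16 * D / c₀)) :=
          mul_le_mul_of_nonneg_left (h1.trans h3) (by positivity)
      _ = c₀ / 8 := by field_simp; norm_num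
  refine ⟨LL / 2, η, min ys1 ys3, max X1 X3, by positivity, hη0, lt_min hys1 hys3,
    hAX1.trans (le_max_left _ _), ?_⟩
  intro N _ b hb ξ y hR hNy f hf x0
  have hbpos : 0 < b := hb1.trans_le hR.hb1
  have hξ : 0 < ξ := lt_of_lt_of_le (Nat.lt_of_lt_of_le Nat.zero_lt_one
    (hX3.trans (le_max_right X1 _))) hR.hX
  have R1 := rng_mono hR hW1 (min_le_left _ _) (le_max_left _ _)
  have R3 : Spec.Rng b1 b2 a W ys3 X3 N b ξ y := rng_mono hR le_rfl (min_le_right _ _)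
    (le_max_right _ _)
  have hN3 : (N : ℝ) ^ 2 * y ≤ η₂ * (ξ : ℝ) ^ 2 := hNy.trans
    (mul_le_mul_of_nonneg_right (min_le_left _ _) (sq_nonneg _))
  set μ : ℕ := ⌊δ * (ξ : ℝ) ^ 2⌋₊ with hμ
  have hf' : Spec.LipS (LL / ξ) f := by
    have e : 2 * (LL / 2) / (ξ : ℝ) = LL / ξ := by ring
    rwa [e] at hf
  have h1 := tB4 hbpos hξ (μ := μ) (r := ξ / A) hR.y0 hR.hyp.qu hNy hLL0 hLLm hm₀1 hc₀ hc₂
    hC₂.le hsm (fun x0 => hA6 N b hb ξ y R1 x0)
    (fun f g hP x0 n h1 hfg => hH N b hb ξ y R3 hN3 f g hP x0 n h1 hfg)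
    hq hsmall f hf' x0
  refine le_trans ?_ h1
  linarith

end Vale.Agent.P159.TM.H857
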