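import Vale.Agent.P159.H859.Ab1

/-!
P159 (helper859), S, (R2), part 2: arms from a block in two copies with the same slowly varying
real background.
-/

set_option linter.unusedSectionVars false
set_option linter.unusedDecidableInType false

namespace Vale.Agent.P159.H145.Dz

open scoped ENNReal
open Finset Vale.Agent.P159.TM.H60 Vale.Agent.P159.TM.H576
open Vale.Agent.P159.TM.H459 (ball mem_ball ball_mono sd)
open Vale.Agent.P159.TM
open Vale.Agent.P159.TM.Spec (WF)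

variable {N : ℕ} [NeZero N]

/-- arms from a block, two copies in any background with circuits -/
theorem arm_circ {b1 b2 a : ℝ} (hb1 : 0 < b1) {c₀ δ : ℝ} {A : ℕ} (hc₀ : 0 < c₀) (hδ : 0 < δ)
    (hA : 8 ≤ A) : ∃ W₀ : ℝ, ∀ W : ℝ, W₀ ≤ W →
    ∃ c C η ys : ℝ, ∃ X : ℕ, 0 < c ∧ 0 < C ∧ 0 < η ∧ 0 < ys ∧ A ≤ X ∧
    ∀ (N : ℕ) [NeZero N] (b : ℝ) (hb : 0 ≤ b) (ξ : ℕ) (y : ℝ),
      Spec.Rng b1 b2 a W ys X N b ξ y → (N : ℝ) ^ 2 * y ≤ η * (ξ : ℝ) ^ 2 →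
      ∀ f : Spec.V N → ℝ,
      (∀ x0 : Spec.V N, c₀ ≤ Spec.PO N b ξ hb ⌊δ * (ξ : ℝ) ^ 2⌋₊ (ξ / A) f x0) →
      ∀ (x0 : Spec.V N) (m : ℕ),
        Ex (Spec.σ2 N b ξ hb f) (fun x om =>
          ind (Arm (Spec.σ2 N b ξ hb f) (ball x0 (ξ / A)) (ball x0 m) x om)) ≤
        ENNReal.ofReal (C * Real.exp (-(c * m / ξ))) * Ex (Spec.σ2 N b ξ hb f) fun _ _ => 1 := by
  obtain ⟨W2, h3⟩ := H634.thmB1 hb1 b2 a (c₀ := c₀) (δ := δ) (A := A) hc₀ hδ hA
  refine ⟨W2, fun W hW => ?_⟩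
  obtain ⟨c, C, η, ys2, X2, hc, hC, hη, hys2, hX2, h4⟩ := h3 W hW
  -- the constant
  set C' : ℝ := Real.exp c + 8 * C / (c₀ * δ ^ 2) with hC'
  have hC'0 : 0 < C' := by positivity
  refine ⟨c, C', η, ys2, max (max A X2) (⌈2 / δ⌉₊ + 1), hc, hC'0, hη,
    hys2, (le_max_left _ _).trans (le_max_left _ _), ?_⟩
  intro N _ b hb ξ y hR hηy f hPO x0 m
  have hR2 : Spec.Rng b1 b2 a W ys2 X2 N b ξ y := H857.rng_mono hR le_rfl le_rfl
    ((le_max_right _ _).trans (le_max_left _ _))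
  have hWF := h4 N b hb ξ y hR2 hηy f hPO x0 m
  have hb0 : 0 < b := lt_of_lt_of_le hb1 hR.hb1
  have hXξ := hR.hX
  have hδξ : ⌈2 / δ⌉₊ + 1 ≤ ξ := (le_max_right _ _).trans hXξ
  have hξ : 0 < ξ := by omega
  have hξ' : (0 : ℝ) < ξ := by exact_mod_cast hξ
  have hξ1 : (1 : ℝ) ≤ ξ := by exact_mod_cast hξ
  have hAξ : A ≤ ξ := ((le_max_left _ _).trans (le_max_left _ _)).trans hXξ
  rcases lt_or_ge m ξ with hm | hm
  · calc Ex (Spec.σ2 N b ξ hb f) (fun x om =>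
          ind (Arm (Spec.σ2 N b ξ hb f) (ball x0 (ξ / A)) (ball x0 m) x om))
        ≤ Ex (Spec.σ2 N b ξ hb f) fun _ _ => 1 := Ex_mono fun x om _ => ind_le_one _
      _ = 1 * Ex (Spec.σ2 N b ξ hb f) fun _ _ => 1 := (one_mul _).symm
      _ ≤ _ := by
        refine mul_le_mul' ?_ le_rfl
        rw [← ENNReal.ofReal_one]
        refine ENNReal.ofReal_le_ofReal ?_
        have h5 : (1 : ℝ) ≤ Real.exp c * Real.exp (-(c * m / ξ)) := by
          rw [← Real.exp_add]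
          refine Real.one_le_exp ?_
          have h6 : (m : ℝ) ≤ ξ := by exact_mod_cast hm.le
          have h7 : c * m / ξ ≤ c := by
            rw [div_le_iff₀ hξ']
            nlinarith
          linarith
        have h8 : 0 ≤ 8 * C / (c₀ * δ ^ 2) * Real.exp (-(c * m / ξ)) := by positivity
        rw [hC', add_mul]
        linarith
  · have M := H857.fk_T (N := N) hb0 hξ f
    have H := H857.evs_T (N := N) hb0 hξ hPO
    set μ := ⌊δ * (ξ : ℝ) ^ 2⌋₊ with hμ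
    have h5 := arm_le (B := ball x0 (ξ / A)) (B4 := ball x0 (4 * (ξ / A)))
      (Fr := (ball x0 (2 * (ξ / A)))ᶜ) (Λ := ball x0 m) M (H.mono x0 (Finset.mem_univ _))
      (H.prob x0 (Finset.mem_univ _)) (H.force x0 (Finset.mem_univ _)) (fun z hz => by
        rw [Finset.mem_compl]
        intro h6
        apply hz
        refine ball_mono ?_ h6
        have h7 : 8 * (ξ / A) ≤ ξ :=
          (Nat.mul_le_mul_right _ hA).trans (by rw [mul_comm]; exact Nat.div_mul_le_self ξ A)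
        omega)
    have h6 : Ex (Spec.σ2 N b ξ hb f) (WG (Spec.σ2 N b ξ hb f) (ball x0 (4 * (ξ / A)))
        (ball x0 m)) ≤ ENNReal.ofReal (C * (ξ : ℝ) ^ 4 * Real.exp (-(c * m / ξ))) *
          Ex (Spec.σ2 N b ξ hb f) fun _ _ => 1 := by
      refine le_trans (Ex_mono fun x om _ => ?_) hWF
      rw [WG_eq]
      refine WF_mono (ball_mono ?_) x om
      have h7 : 8 * (ξ / A) ≤ ξ :=
        (Nat.mul_le_mul_right _ hA).trans (by rw [mul_comm]; exact Nat.div_mul_le_self ξ A)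
      omega
    -- constants
    have hμ2 : δ * (ξ : ℝ) ^ 2 / 2 ≤ μ := by
      have h8 : δ * (ξ : ℝ) ^ 2 < μ + 1 := Nat.lt_floor_add_one _
      have h9 : 2 / δ ≤ (ξ : ℝ) := by
        refine (Nat.le_ceil _).trans ?_
        have : ⌈2 / δ⌉₊ ≤ ξ := by omega
        exact_mod_cast this
      rw [div_le_iff₀ hδ] at h9
      have h10 : (2 : ℝ) ≤ δ * (ξ : ℝ) ^ 2 := by
        calc (2 : ℝ) ≤ ξ * δ := h9
          _ = δ * (ξ * 1) := by ring
          _ ≤ δ * (ξ * ξ) := by gcongr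
          _ = _ := by ring
      linarith
    have hμ0 : (0 : ℝ) < μ := lt_of_lt_of_le (by positivity) hμ2
    set Z := Ex (Spec.σ2 N b ξ hb f) fun _ _ => 1 with hZ
    set P := Ex (Spec.σ2 N b ξ hb f) (fun x om =>
        ind (Arm (Spec.σ2 N b ξ hb f) (ball x0 (ξ / A)) (ball x0 m) x om)) with hP
    have h7 : ENNReal.ofReal (c₀ * (μ : ℝ) ^ 2) * P ≤
        ENNReal.ofReal (2 * (C * (ξ : ℝ) ^ 4 * Real.exp (-(c * m / ξ)))) * Z := by
      have e1 : ENNReal.ofReal (c₀ * (μ : ℝ) ^ 2) = ENNReal.ofReal c₀ * (μ : ℝ≥0∞) ^ 2 := by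
        rw [ENNReal.ofReal_mul hc₀.le, ENNReal.ofReal_pow (Nat.cast_nonneg _),
          ENNReal.ofReal_natCast]
      rw [e1, ENNReal.ofReal_mul (by norm_num), ENNReal.ofReal_ofNat, mul_assoc 2]
      exact h5.trans (mul_le_mul_right h6 _)
    have hcμ : 0 < c₀ * (μ : ℝ) ^ 2 := by positivity
    have h8 : P ≤ ENNReal.ofReal (2 * (C * (ξ : ℝ) ^ 4 * Real.exp (-(c * m / ξ))) /
        (c₀ * (μ : ℝ) ^ 2)) * Z := by
      rw [ENNReal.ofReal_div_of_pos hcμ, div_eq_mul_inv, mul_right_comm,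
        ← div_eq_mul_inv (_ * Z), ENNReal.le_div_iff_mul_le (Or.inl (by
          rw [Ne, ENNReal.ofReal_eq_zero, not_le]; exact hcμ)) (Or.inl ENNReal.ofReal_ne_top),
        mul_comm]
      exact h7
    refine h8.trans (mul_le_mul' (ENNReal.ofReal_le_ofReal ?_) le_rfl)
    rw [div_le_iff₀ hcμ]
    have h9 : (δ * (ξ : ℝ) ^ 2 / 2) ^ 2 ≤ (μ : ℝ) ^ 2 := by
      have : 0 ≤ δ * (ξ : ℝ) ^ 2 / 2 := by positivity
      exact pow_le_pow_left₀ this hμ2 2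
    have hE : 0 < Real.exp (-(c * m / ξ)) := Real.exp_pos _
    calc 2 * (C * (ξ : ℝ) ^ 4 * Real.exp (-(c * m / ξ)))
        = (8 * C / (c₀ * δ ^ 2)) * Real.exp (-(c * m / ξ)) *
            (c₀ * (δ * (ξ : ℝ) ^ 2 / 2) ^ 2) := by
          field_simp
          ring
      _ ≤ C' * Real.exp (-(c * m / ξ)) * (c₀ * (μ : ℝ) ^ 2) := by
          have h10 : 8 * C / (c₀ * δ ^ 2) ≤ C' := by
            rw [hC']
            have := Real.exp_pos c
            linarith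
          gcongr

/-- **arms from a block, two copies with the same slowly varying real background** -/
theorem arm_f {b1 b2 a : ℝ} (hb1 : 0 < b1) (hA6 : Spec.ThmA6 b1 b2 a) : ∃ W₀ : ℝ, ∀ W : ℝ,
    W₀ ≤ W → ∃ L₀ c C η ys : ℝ, ∃ A X : ℕ, 0 < L₀ ∧ 0 < c ∧ 0 < C ∧ 0 < η ∧ 0 < ys ∧ 8 ≤ A ∧
    A ≤ X ∧
    ∀ (N : ℕ) [NeZero N] (b : ℝ) (hb : 0 ≤ b) (ξ : ℕ) (y : ℝ),
      Spec.Rng b1 b2 a W ys X N b ξ y → (N : ℝ) ^ 2 * y ≤ η * (ξ : ℝ) ^ 2 →
      ∀ f : Spec.V N → ℝ, Spec.LipS (2 * L₀ / ξ) f → ∀ (x0 : Spec.V N) (m : ℕ),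
        Ex (Spec.σ2 N b ξ hb f) (fun x om =>
          ind (Arm (Spec.σ2 N b ξ hb f) (ball x0 (ξ / A)) (ball x0 m) x om)) ≤
        ENNReal.ofReal (C * Real.exp (-(c * m / ξ))) * Ex (Spec.σ2 N b ξ hb f) fun _ _ => 1 := by
  obtain ⟨c₀, δ, A, hc₀, hδ, hA, W1, h1⟩ := H857.circ_B (b2 := b2) hb1 hA6
  obtain ⟨W2, h2⟩ := arm_circ (b2 := b2) (a := a) hb1 hc₀ hδ hA
  refine ⟨max W1 W2, fun W hW => ?_⟩
  obtain ⟨L₀, η1, ys1, X1, hL, hη1, hys1, hAX, h1⟩ := h1 W ((le_max_left _ _).trans hW)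
  obtain ⟨c, C, η2, ys2, X2, hc, hC, hη2, hys2, hX2, h2⟩ := h2 W ((le_max_right _ _).trans hW)
  refine ⟨L₀, c, C, min η1 η2, min ys1 ys2, A, max X1 X2, hL, hc, hC, lt_min hη1 hη2,
    lt_min hys1 hys2, hA, hAX.trans (le_max_left _ _), ?_⟩
  intro N _ b hb ξ y hR hη f hf x0 m
  refine h2 N b hb ξ y (H857.rng_mono hR le_rfl (min_le_right _ _) (le_max_right _ _))
    (hη.trans (mul_le_mul_of_nonneg_right (min_le_right _ _) (sq_nonneg _))) f (fun x => ?_) x0 m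
  exact h1 N b hb ξ y (H857.rng_mono hR le_rfl (min_le_left _ _) (le_max_left _ _))
    (hη.trans (mul_le_mul_of_nonneg_right (min_le_left _ _) (sq_nonneg _))) f hf x

end Vale.Agent.P159.H145.Dz
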