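import Vale.Agent.P159.H859.Cell

/-!
P159 / module WCOV (helper859), file 5: the window comparison and the sizes, for neutral test
vectors supported in a box of the cell torus `V n`, for any data `Dat G (κ (-Δ)) t`; then the
constants for the cells of side `l`.
-/

set_option linter.unusedSectionVars false

namespace Vale.Agent.P159.H859

open Finset Matrix
open Vale.Agent.P159.TM.H764 (Gh cN sN dt EE grd Q nrm bx)
open Vale.Agent.P159.TM.Spec (V)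
open Vale.Agent.P159.TM.SpecC (Tor wT)
open Vale.Agent.P159.H37
open Vale.Agent.P159.H864

noncomputable section

/-- the loss of a box of radius `ρ` -/
def wk (n ρ : ℕ) (t r κ : ℝ) : ℝ :=
  1 + (2 * (ρ : ℝ) + 1) ^ 2 * (2 * (ρ : ℝ) ^ 2) *
    (t ^ 2 * (1 / (r * (n : ℝ) ^ 2 * κ) + (1 + Real.log n) / κ ^ 2))

section gen

variable {n : ℕ} [NeZero n] {G : Matrix (V n) (V n) ℝ} {t κ : ℝ}

lemma log_nn (n : ℕ) [NeZero n] : 0 ≤ Real.log n :=
  Real.log_nonneg (by exact_mod_cast Nat.one_le_iff_ne_zero.2 (NeZero.ne n))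

lemma wk_ge {ρ : ℕ} {r : ℝ} (hr : 0 < r) (hκ : 0 < κ) : 1 ≤ wk n ρ t r κ := by
  unfold wk
  have h1 := log_nn n
  have hn : (0 : ℝ) < n := by exact_mod_cast Nat.pos_of_ne_zero (NeZero.ne n)
  have : 0 ≤ (2 * (ρ : ℝ) + 1) ^ 2 * (2 * (ρ : ℝ) ^ 2) *
    (t ^ 2 * (1 / (r * (n : ℝ) ^ 2 * κ) + (1 + Real.log n) / κ ^ 2)) := by positivity
  linarith

lemma lam_le {ρ : ℕ} {r : ℝ} (hr : 0 < r) (hκ : 0 < κ) :
    t ^ 2 * ((2 * (ρ : ℝ) + 1) ^ 2 * (2 * (ρ : ℝ) ^ 2 * (gd n r κ / κ))) ≤ wk n ρ t r κ - 1 := by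
  have h1 := gd_le (n := n) hr hκ
  have hn : (0 : ℝ) < n := by exact_mod_cast Nat.pos_of_ne_zero (NeZero.ne n)
  have h2 : gd n r κ / κ ≤ 1 / (r * (n : ℝ) ^ 2 * κ) + (1 + Real.log n) / κ ^ 2 := by
    rw [div_le_iff₀ hκ]
    refine h1.trans (le_of_eq ?_)
    field_simp
  unfold wk
  have h3 : 0 ≤ (2 * (ρ : ℝ) + 1) ^ 2 * (2 * (ρ : ℝ) ^ 2) * t ^ 2 := by positivity
  have h4 := mul_le_mul_of_nonneg_left h2 h3
  calc t ^ 2 * ((2 * (ρ : ℝ) + 1) ^ 2 * (2 * (ρ : ℝ) ^ 2 * (gd n r κ / κ)))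
      = (2 * (ρ : ℝ) + 1) ^ 2 * (2 * (ρ : ℝ) ^ 2) * t ^ 2 * (gd n r κ / κ) := by ring
    _ ≤ _ := h4
    _ = _ := by ring

/-- **window comparison** -/
theorem win_box (h : Dat G (κ • lapM) t) (hκ : 0 < κ) {s r : ℝ} (hr : 0 < r) (hrs : r ≤ s)
    (hst : s ≤ t / 2) (c : V n) (ρ : ℕ) (u : V n → ℝ) (hu : ∀ x, x ∉ bx c ρ → u x = 0)
    (hn : ∑ x, u x = 0) :
    qf (As G t r - As G t s) u ≤ 8 * (s / t) * wk n ρ t r κ * qf (As G t s) u := by
  have hg := gd_nonneg (n := n) hr hκ.le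
  have h1 := h.win hr hrs hst u (lam := (2 * (ρ : ℝ) + 1) ^ 2 * (2 * (ρ : ℝ) ^ 2 *
    (gd n r κ / κ))) (by positivity) (sq_neutral hr hκ c ρ u hu hn)
  rw [qf_qd, qf_qd]
  refine h1.trans ?_
  have h2 := lam_le (n := n) (t := t) (ρ := ρ) hr hκ
  have h3 : 0 ≤ qd (As G t s) u :=
    qd_nonneg (h.pd (by linarith) (by linarith [h.t0])).posSemidef u
  have h4 : 0 ≤ 8 * (s / t) := by
    have := h.t0
    have : 0 < s := by linarith
    positivity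
  refine mul_le_mul_of_nonneg_right (mul_le_mul_of_nonneg_left ?_ h4) h3
  linarith

/-- size of the increment -/
theorem inc_box (h : Dat G (κ • lapM) t) (hκ : 0 < κ) {s r : ℝ} (hr : 0 < r) (hrs : r ≤ s)
    (hst : s ≤ t / 2) (c : V n) (ρ : ℕ) (u : V n → ℝ) (hu : ∀ x, x ∉ bx c ρ → u x = 0)
    (hn : ∑ x, u x = 0) :
    qf (As G t r - As G t s) u ≤ 4 * s * wk n ρ t r κ * ∑ x, u x ^ 2 := by
  have t0 := h.t0
  have hst' : s < t := by linarith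
  have hs : 0 < s := by linarith
  have hrt : r < t := by linarith
  have hg := gd_nonneg (n := n) hr hκ.le
  set lam : ℝ := (2 * (ρ : ℝ) + 1) ^ 2 * (2 * (ρ : ℝ) ^ 2 * (gd n r κ / κ)) with hlam
  have hl0 : 0 ≤ lam := by positivity
  have hsq : sq u = ∑ x, u x ^ 2 := by
    unfold sq dotProduct
    exact Finset.sum_congr rfl fun x _ => by ring
  have h1 := h.diff_le hr hrs hst' u
  have h2 := h.up_sq' hr hrt u
  have h5 : sq ((r • (1 : Matrix (V n) (V n) ℝ) + κ • lapM)⁻¹ *ᵥ u) ≤ lam * sq u :=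
    sq_neutral hr hκ c ρ u hu hn
  have hq : 0 ≤ sq u := sq_nonneg' u
  have h6 : t ^ 2 * lam ≤ wk n ρ t r κ - 1 := lam_le hr hκ
  have h7 : sq (As G t r *ᵥ u) ≤ (t - r) ^ 2 * (2 * wk n ρ t r κ * sq u) := by
    refine h2.trans (mul_le_mul_of_nonneg_left ?_ (sq_nonneg _))
    have h8 : (t - r) ^ 2 ≤ t ^ 2 := by nlinarith
    have h9 : (t - r) ^ 2 * sq ((r • (1 : Matrix (V n) (V n) ℝ) + κ • lapM)⁻¹ *ᵥ u) ≤
        t ^ 2 * (lam * sq u) := mul_le_mul h8 h5 (sq_nonneg' _) (sq_nonneg _)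
    have h10 : t ^ 2 * (lam * sq u) ≤ (wk n ρ t r κ - 1) * sq u := by
      rw [← mul_assoc]
      exact mul_le_mul_of_nonneg_right h6 hq
    linarith
  have e1 : (t - s)⁻¹ - (t - r)⁻¹ = (s - r) / ((t - s) * (t - r)) := by
    have a : t - s ≠ 0 := by linarith
    have b : t - r ≠ 0 := by linarith
    field_simp
    ring
  rw [qf_qd, ← hsq]
  refine h1.trans ?_
  rw [e1]
  have hp : 0 < (t - s) * (t - r) := mul_pos (by linarith) (by linarith)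
  have h11 : 0 ≤ (s - r) / ((t - s) * (t - r)) := div_nonneg (by linarith) hp.le
  refine (mul_le_mul_of_nonneg_left h7 h11).trans ?_
  have e2 : (s - r) / ((t - s) * (t - r)) * ((t - r) ^ 2 * (2 * wk n ρ t r κ * sq u)) =
      ((s - r) * (t - r) / (t - s)) * (2 * (wk n ρ t r κ * sq u)) := by
    have a : t - s ≠ 0 := by linarith
    have b : t - r ≠ 0 := by linarith
    field_simp
  rw [e2]
  have h12 : (s - r) * (t - r) / (t - s) ≤ 2 * s := by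
    rw [div_le_iff₀ (by linarith)]
    nlinarith
  have h13 : 0 ≤ 2 * (wk n ρ t r κ * sq u) := by
    have := wk_ge (n := n) (ρ := ρ) (t := t) hr hκ
    positivity
  have := mul_le_mul_of_nonneg_right h12 h13
  linarith

/-- size of the source on a neutral test vector in a box -/
theorem up_box (h : Dat G (κ • lapM) t) (hκ : 0 < κ) {s : ℝ} (hs : 0 < s) (hst : s < t)
    (c : V n) (ρ : ℕ) (u : V n → ℝ) (hu : ∀ x, x ∉ bx c ρ → u x = 0) (hn : ∑ x, u x = 0) :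
    qf (As G t s) u ≤ 2 * t * wk n ρ t s κ * ∑ x, u x ^ 2 := by
  have t0 := h.t0
  have hg := gd_nonneg (n := n) hs hκ.le
  have hsq : sq u = ∑ x, u x ^ 2 := by
    unfold sq dotProduct
    exact Finset.sum_congr rfl fun x _ => by ring
  have h1 := h.up hs hst u
  have h2 : qd (s • (1 : Matrix (V n) (V n) ℝ) + κ • lapM)⁻¹ u ≤
      (2 * (ρ : ℝ) + 1) * (ρ : ℝ) * Real.sqrt (2 * (gd n s κ / κ)) * sq u :=
    qd_neutral hs hκ c ρ u hu hn
  have hq : 0 ≤ sq u := sq_nonneg' u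
  set z : ℝ := t * ((2 * (ρ : ℝ) + 1) * (ρ : ℝ) * Real.sqrt (2 * (gd n s κ / κ))) with hz
  have hz2 : z ^ 2 ≤ wk n ρ t s κ - 1 := by
    refine le_trans (le_of_eq ?_) (lam_le (n := n) (t := t) (ρ := ρ) hs hκ)
    rw [hz, mul_pow, mul_pow, mul_pow, Real.sq_sqrt (by positivity)]
    ring
  have hz0 : 0 ≤ z := by positivity
  have hz1 : 1 + z ≤ 2 * wk n ρ t s κ := by nlinarith [sq_nonneg (z - 1)]
  rw [qf_qd, ← hsq]
  refine h1.trans ?_
  have h3 : (t - s) ^ 2 * qd (s • (1 : Matrix (V n) (V n) ℝ) + κ • lapM)⁻¹ u ≤ t * z * sq u := by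
    have h4 : (t - s) ^ 2 ≤ t ^ 2 := by nlinarith
    have h5 : 0 ≤ qd (s • (1 : Matrix (V n) (V n) ℝ) + κ • lapM)⁻¹ u :=
      qd_nonneg (pd_Rk hs hκ.le).posSemidef u
    calc (t - s) ^ 2 * qd (s • (1 : Matrix (V n) (V n) ℝ) + κ • lapM)⁻¹ u
        ≤ t ^ 2 * ((2 * (ρ : ℝ) + 1) * (ρ : ℝ) * Real.sqrt (2 * (gd n s κ / κ)) * sq u) :=
          mul_le_mul h4 h2 h5 (sq_nonneg _)
      _ = t * z * sq u := by rw [hz]; ring
  have h6 : (t - s) * sq u ≤ t * sq u := mul_le_mul_of_nonneg_right (by linarith) hq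
  have h7 : t * (1 + z) * sq u ≤ t * (2 * wk n ρ t s κ) * sq u :=
    mul_le_mul_of_nonneg_right (mul_le_mul_of_nonneg_left hz1 t0.le) hq
  linarith

/-- crude size, every test vector: `<u, A_s u> ≤ (t² / s) |u|²` -/
theorem up_all (h : Dat G (κ • lapM) t) (hκ : 0 ≤ κ) {s : ℝ} (hs : 0 < s) (hst : s < t)
    (u : V n → ℝ) : qf (As G t s) u ≤ t ^ 2 / s * ∑ x, u x ^ 2 := by
  have t0 := h.t0
  have hsq : sq u = ∑ x, u x ^ 2 := by
    unfold sq dotProduct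
    exact Finset.sum_congr rfl fun x _ => by ring
  have h1 := h.up hs hst u
  have h2 : qd (s • (1 : Matrix (V n) (V n) ℝ) + κ • lapM)⁻¹ u ≤ s⁻¹ * sq u := by
    have h3 := (qf_le_iff (ti_Rk (n := n) s κ) (TI.one.smul s⁻¹)).2 (fun k => by
      rw [sym_Rk hs hκ, sym_smul_one]
      refine inv_anti₀ hs ?_
      have := mul_nonneg hκ (TM.H764.EE_nonneg k)
      linarith) u
    rw [qf_smul_one, ← hsq, qf_qd] at h3
    exact h3
  rw [qf_qd, ← hsq]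
  have hq : 0 ≤ sq u := sq_nonneg' u
  have h4 := mul_le_mul_of_nonneg_left h2 (sq_nonneg (t - s))
  have e : (t - s) * sq u + (t - s) ^ 2 * (s⁻¹ * sq u) = (t - s) * t / s * sq u := by
    field_simp
    ring
  have h5 : (t - s) * t / s * sq u ≤ t ^ 2 / s * sq u := by
    refine mul_le_mul_of_nonneg_right (div_le_div_of_nonneg_right ?_ hs.le) hq
    nlinarith
  linarith

/-! ### window maps -/

variable {I : Type*} [Fintype I]

lemma qf_conj (L : Matrix I (V n) ℝ) (S : Matrix (V n) (V n) ℝ) (v : I → ℝ) :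
    qf (L * S * Lᵀ) v = qf S (Lᵀ *ᵥ v) := by
  rw [qf_eq, qf_eq, ← Matrix.mulVec_mulVec, ← Matrix.mulVec_mulVec, Matrix.dotProduct_mulVec v L,
    ← Matrix.mulVec_transpose]

/-- a window map: it kills the constants and only sees the box -/
structure Wmap (L : Matrix I (V n) ℝ) (c : V n) (ρ : ℕ) : Prop where
  row : ∀ i, ∑ x, L i x = 0
  supp : ∀ i x, x ∉ bx c ρ → L i x = 0

lemma Wmap.neu {L : Matrix I (V n) ℝ} {c : V n} {ρ : ℕ} (h : Wmap L c ρ) (v : I → ℝ) :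
    ∑ x, (Lᵀ *ᵥ v) x = 0 := by
  simp only [Matrix.mulVec, dotProduct, Matrix.transpose_apply]
  rw [Finset.sum_comm]
  refine Finset.sum_eq_zero fun i _ => ?_
  rw [← Finset.sum_mul, h.row, zero_mul]

lemma Wmap.sup {L : Matrix I (V n) ℝ} {c : V n} {ρ : ℕ} (h : Wmap L c ρ) (v : I → ℝ) (x : V n)
    (hx : x ∉ bx c ρ) : (Lᵀ *ᵥ v) x = 0 := by
  simp only [Matrix.mulVec, dotProduct, Matrix.transpose_apply]
  refine Finset.sum_eq_zero fun i _ => ?_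
  rw [h.supp i x hx, zero_mul]

/-- **Loewner comparison of the window covariances** -/
theorem win_map (h : Dat G (κ • lapM) t) (hκ : 0 < κ) {s r : ℝ} (hr : 0 < r) (hrs : r ≤ s)
    (hst : s ≤ t / 2) {c : V n} {ρ : ℕ} {L : Matrix I (V n) ℝ} (hL : Wmap L c ρ) (v : I → ℝ) :
    qf (L * (As G t r - As G t s) * Lᵀ) v ≤
      8 * (s / t) * wk n ρ t r κ * qf (L * As G t s * Lᵀ) v := by
  rw [qf_conj, qf_conj]
  exact win_box h hκ hr hrs hst c ρ _ (hL.sup v) (hL.neu v)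

theorem inc_map (h : Dat G (κ • lapM) t) (hκ : 0 < κ) {s r : ℝ} (hr : 0 < r) (hrs : r ≤ s)
    (hst : s ≤ t / 2) {c : V n} {ρ : ℕ} {L : Matrix I (V n) ℝ} (hL : Wmap L c ρ) (v : I → ℝ) :
    qf (L * (As G t r - As G t s) * Lᵀ) v ≤ 4 * s * wk n ρ t r κ * qf (L * Lᵀ) v := by
  rw [qf_conj]
  refine (inc_box h hκ hr hrs hst c ρ _ (hL.sup v) (hL.neu v)).trans (le_of_eq ?_)
  congr 1
  have e := qf_conj L 1 v
  rw [Matrix.mul_one] at e
  rw [e, qf_qd, qd_one]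
  unfold sq dotProduct
  exact Finset.sum_congr rfl fun x _ => by ring

theorem up_map (h : Dat G (κ • lapM) t) (hκ : 0 < κ) {s : ℝ} (hs : 0 < s) (hst : s < t)
    {c : V n} {ρ : ℕ} {L : Matrix I (V n) ℝ} (hL : Wmap L c ρ) (v : I → ℝ) :
    qf (L * As G t s * Lᵀ) v ≤ 2 * t * wk n ρ t s κ * qf (L * Lᵀ) v := by
  rw [qf_conj]
  refine (up_box h hκ hs hst c ρ _ (hL.sup v) (hL.neu v)).trans (le_of_eq ?_)
  congr 1
  have e := qf_conj L 1 v
  rw [Matrix.mul_one] at e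
  rw [e, qf_qd, qd_one]
  unfold sq dotProduct
  exact Finset.sum_congr rfl fun x _ => by ring

/-- Gram form of a positive semidefinite matrix -/
theorem exists_gram {I : Type*} [Fintype I] [DecidableEq I] {S : Matrix I I ℝ}
    (hS : S.PosSemidef) : ∃ A : Matrix I I ℝ, A * Aᵀ = S := by
  obtain ⟨ev, U, hev, e1⟩ : ∃ (ev : I → ℝ) (U : Matrix I I ℝ), (∀ i, 0 ≤ ev i) ∧
      S = U * diagonal ev * Uᵀ := by
    refine ⟨hS.1.eigenvalues, (hS.1.eigenvectorUnitary : Matrix I I ℝ), hS.eigenvalues_nonneg, ?_⟩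
    conv_lhs => rw [hS.1.spectral_theorem, Unitary.conjStarAlgAut_apply]
    rfl
  refine ⟨U * diagonal fun i => Real.sqrt (ev i), ?_⟩
  rw [Matrix.transpose_mul, Matrix.diagonal_transpose, Matrix.mul_assoc, ← Matrix.mul_assoc
    (diagonal _) (diagonal _), Matrix.diagonal_mul_diagonal, e1, Matrix.mul_assoc]
  congr 2
  congr 1
  funext i
  exact Real.mul_self_sqrt (hev i)

/-- Gram forms of the two Gaussian pieces, the white part separated -/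
theorem exists_split (h : Dat G (κ • lapM) t) {s r : ℝ} (hr : 0 < r) (hrs : r ≤ s)
    (hst : s < t) : ∃ A B : Matrix (V n) (V n) ℝ, A * Aᵀ + (t - s) • 1 = As G t s ∧
      A * Aᵀ + (t - s) • 1 + B * Bᵀ = As G t r := by
  have hs : 0 < s := by linarith
  obtain ⟨A, hA⟩ := exists_gram (h.low hs hst)
  obtain ⟨B, hB⟩ := exists_gram (h.mono hr hrs hst)
  refine ⟨A, B, ?_, ?_⟩
  · rw [hA, sub_add_cancel]
  · rw [hA, hB, sub_add_cancel, add_sub_cancel]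

end gen

/-! ### the cells of side `l` -/

variable {N l : ℕ} [NeZero N] [NeZero (N / l)] {b t : ℝ}

/-- the loss of a box of `ρ` cells of side `l`: `1 + C (ρ l / ξ)⁴ (b² (1 + log (N / l)) + b / (r N²))`
-/
def wc (N l ρ : ℕ) (b t r : ℝ) : ℝ :=
  1 + (2 * (ρ : ℝ) + 1) ^ 2 * (2 * (ρ : ℝ) ^ 2) * ((t * (l : ℝ) ^ 2) ^ 2 *
    (b / (r * (N : ℝ) ^ 2) + b ^ 2 * (1 + Real.log ((N / l : ℕ) : ℝ))))

/-- covariance of the cell source, integer model, prior mass `s` -/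
def Sg (N l : ℕ) [NeZero N] [NeZero (N / l)] (b t s : ℝ) : Matrix (V (N / l)) (V (N / l)) ℝ :=
  As (Gc l (Gm (wt N b t))) t s

lemma kcell_pos (hl : l ∣ N) (hb : 0 < b) : 0 < 1 / b / (l : ℝ) ^ 2 := by
  have : (0 : ℝ) < l := by exact_mod_cast l_pos hl
  positivity

lemma wk_cell (hl : l ∣ N) (hb : 0 < b) {r : ℝ} (hr : 0 < r) (ρ : ℕ) :
    wk (N / l) ρ t r (1 / b / (l : ℝ) ^ 2) = wc N l ρ b t r := by
  have h0 : (0 : ℝ) < l := by exact_mod_cast l_pos hl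
  have hN : (0 : ℝ) < N := by exact_mod_cast NeZero.pos N
  have e : ((N / l : ℕ) : ℝ) = (N : ℝ) / l := by
    rw [Nat.cast_div hl h0.ne']
  unfold wk wc
  have e2 : t ^ 2 * (1 / (r * ((N / l : ℕ) : ℝ) ^ 2 * (1 / b / (l : ℝ) ^ 2)) +
      (1 + Real.log ((N / l : ℕ) : ℝ)) / (1 / b / (l : ℝ) ^ 2) ^ 2) =
      (t * (l : ℝ) ^ 2) ^ 2 *
    (b / (r * (N : ℝ) ^ 2) + b ^ 2 * (1 + Real.log ((N / l : ℕ) : ℝ))) := by
    generalize Real.log ((N / l : ℕ) : ℝ) = q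
    rw [e]
    field_simp
  rw [e2]

theorem dat_cell' (hb : 0 < b) (hl : l ∣ N) (ht : 0 < t) :
    Dat (Gc l (Gm (wt N b t))) ((1 / b / (l : ℝ) ^ 2) • lapM) t :=
  dat_cell hb.le hl ht (by positivity) (by rw [mul_one_div_cancel hb.ne'])

/-- **(WC2)**, integer model -/
theorem Sg_win (hb : 0 < b) (hl : l ∣ N) (ht : 0 < t) {s r : ℝ} (hr : 0 < r) (hrs : r ≤ s)
    (hst : s ≤ t / 2) (c : V (N / l)) (ρ : ℕ) (u : V (N / l) → ℝ)
    (hu : ∀ x, x ∉ bx c ρ → u x = 0) (hn : ∑ x, u x = 0) :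
    qf (Sg N l b t r - Sg N l b t s) u ≤ 8 * (s / t) * wc N l ρ b t r * qf (Sg N l b t s) u := by
  have h := win_box (dat_cell' hb hl ht) (kcell_pos hl hb) hr hrs hst c ρ u hu hn
  rwa [wk_cell hl hb hr] at h

theorem Sg_inc (hb : 0 < b) (hl : l ∣ N) (ht : 0 < t) {s r : ℝ} (hr : 0 < r) (hrs : r ≤ s)
    (hst : s ≤ t / 2) (c : V (N / l)) (ρ : ℕ) (u : V (N / l) → ℝ)
    (hu : ∀ x, x ∉ bx c ρ → u x = 0) (hn : ∑ x, u x = 0) :
    qf (Sg N l b t r - Sg N l b t s) u ≤ 4 * s * wc N l ρ b t r * ∑ x, u x ^ 2 := by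
  have h := inc_box (dat_cell' hb hl ht) (kcell_pos hl hb) hr hrs hst c ρ u hu hn
  rwa [wk_cell hl hb hr] at h

theorem Sg_up (hb : 0 < b) (hl : l ∣ N) (ht : 0 < t) {s : ℝ} (hs : 0 < s) (hst : s < t)
    (c : V (N / l)) (ρ : ℕ) (u : V (N / l) → ℝ)
    (hu : ∀ x, x ∉ bx c ρ → u x = 0) (hn : ∑ x, u x = 0) :
    qf (Sg N l b t s) u ≤ 2 * t * wc N l ρ b t s * ∑ x, u x ^ 2 := by
  have h := up_box (dat_cell' hb hl ht) (kcell_pos hl hb) hs hst c ρ u hu hn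
  rwa [wk_cell hl hb hs] at h

theorem Sg_up_all (hb : 0 < b) (hl : l ∣ N) (ht : 0 < t) {s : ℝ} (hs : 0 < s) (hst : s < t)
    (u : V (N / l) → ℝ) : qf (Sg N l b t s) u ≤ t ^ 2 / s * ∑ x, u x ^ 2 :=
  up_all (dat_cell' hb hl ht) (kcell_pos hl hb).le hs hst u

theorem Sg_low (hb : 0 < b) (hl : l ∣ N) (ht : 0 < t) {s : ℝ} (hs : 0 < s) (hst : s < t)
    (u : V (N / l) → ℝ) : (t - s) * ∑ x, u x ^ 2 ≤ qf (Sg N l b t s) u := by
  have h := (dat_cell' hb hl ht).low' hs hst u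
  have hsq : sq u = ∑ x, u x ^ 2 := by
    unfold sq dotProduct
    exact Finset.sum_congr rfl fun x _ => by ring
  rw [hsq] at h
  unfold Sg
  rwa [qf_qd]

end

end Vale.Agent.P159.H859
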