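import Vale.Agent.P159.H859.Gdom
import Vale.Agent.P159.H864.Cel2

/-!
P159 / module WCOV (helper859), file 4: the cells of side `l`.

* `grd_cob`: `grd (cob f) ≤ l² grd f`.
* `cob_res_le`: `cob (M + κ (-Δ))⁻¹ cobᵀ ≤ (τ + (κ / l²) (-Δ_cell))⁻¹` as soon as
  `τ |cob f|² ≤ <f, M f>`.
* `Gc_dom`: bare domination of the cell covariance, every coercive mass form.
* `dat_cell`: the structure `Dat` for the cell covariance of `wt N b t`.
-/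

set_option linter.unusedSectionVars false

namespace Vale.Agent.P159.H859

open Finset Matrix
open Vale.Agent.P159.TM.H764 (Gh cN sN dt EE grd Q nrm bx)
open Vale.Agent.P159.TM.Spec (V)
open Vale.Agent.P159.TM.SpecC (Tor wT)
open Vale.Agent.P159.H37
open Vale.Agent.P159.H864

noncomputable section

variable {N l : ℕ} [NeZero N] [NeZero (N / l)]

lemma sq_cobV_le (hl : l ∣ N) (f : V N → ℝ) :
    ∑ c, (cobV N l *ᵥ f) c ^ 2 ≤ ∑ x, f x ^ 2 := by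
  rw [← qf_cellP hl]
  exact qf_cellP_le hl f

lemma cobV_shift (hl : l ∣ N) (f : V N → ℝ) (a c : V (N / l)) :
    (cobV N l *ᵥ f) (c + a) = (cobV N l *ᵥ fun x => f (x + up a)) c := by
  rw [cobV_mulVec, cobV_mulVec]
  congr 1
  rw [Finset.sum_filter, Finset.sum_filter, ← Equiv.sum_comp (Equiv.addRight (up a : V N))]
  refine Finset.sum_congr rfl fun x _ => ?_
  simp only [Equiv.coe_addRight, cl_add_up hl, add_left_inj]

lemma Q_cob (hl : l ∣ N) (f : V N → ℝ) (a : V (N / l)) :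
    Q (cobV N l *ᵥ f) a ≤ Q f (up a) := by
  have h1 : ∀ c, (cobV N l *ᵥ f) (c + a) - (cobV N l *ᵥ f) c =
      (cobV N l *ᵥ fun x => f (x + up a) - f x) c := by
    intro c
    rw [cobV_shift hl]
    have : (fun x => f (x + up a) - f x) = (fun x => f (x + up a)) - f := rfl
    rw [this, Matrix.mulVec_sub, Pi.sub_apply]
  unfold Q
  simp_rw [h1]
  exact sq_cobV_le hl _

lemma up1_one : (up1 (1 : ZMod (N / l)) : ZMod N) = ((l * (1 % (N / l)) : ℕ) : ZMod N) := by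
  unfold up1
  rw [ZMod.val_one_eq_one_mod]

lemma mod_le_one (m : ℕ) : 1 % m ≤ 1 := by
  rcases Nat.lt_or_ge 1 m with h | h
  · rw [Nat.mod_eq_of_lt h]
  · exact Nat.mod_le _ _

lemma grd_cob (hl : l ∣ N) (f : V N → ℝ) : grd (cobV N l *ᵥ f) ≤ (l : ℝ) ^ 2 * grd f := by
  have hm : ((l * (1 % (N / l)) : ℕ) : ℝ) ^ 2 ≤ (l : ℝ) ^ 2 := by
    have h1 : l * (1 % (N / l)) ≤ l * 1 := Nat.mul_le_mul_left _ (mod_le_one _)
    rw [mul_one] at h1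
    exact pow_le_pow_left₀ (Nat.cast_nonneg _) (by exact_mod_cast h1) 2
  have e1 : (up ((1, 0) : V (N / l)) : V N) = (l * (1 % (N / l))) • ((1, 0) : V N) := by
    refine Prod.ext ?_ ?_
    · show up1 1 = _
      rw [up1_one]
      simp
    · show up1 0 = _
      rw [up1_zero]
      simp
  have e2 : (up ((0, 1) : V (N / l)) : V N) = (l * (1 % (N / l))) • ((0, 1) : V N) := by
    refine Prod.ext ?_ ?_
    · show up1 0 = _
      rw [up1_zero]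
      simp
    · show up1 1 = _
      rw [up1_one]
      simp
  have h1 := Q_cob hl f (1, 0)
  have h2 := Q_cob hl f (0, 1)
  rw [e1] at h1
  rw [e2] at h2
  have h3 := TM.H764.Q_nsmul f (1, 0) (l * (1 % (N / l)))
  have h4 := TM.H764.Q_nsmul f (0, 1) (l * (1 % (N / l)))
  have q1 := TM.H764.Q_nonneg f (1, 0)
  have q2 := TM.H764.Q_nonneg f (0, 1)
  unfold grd
  have h5 := mul_le_mul_of_nonneg_right hm q1
  have h6 := mul_le_mul_of_nonneg_right hm q2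
  linarith

lemma qf_Rk_inv {n : ℕ} [NeZero n] (r κ : ℝ) (u : V n → ℝ) :
    qf (r • (1 : Matrix (V n) (V n) ℝ) + κ • lapM) u = r * ∑ x, u x ^ 2 + κ * grd u := by
  rw [qf_add_mat, qf_smul_one, qf_smul_mat, qf_lapM]

/-- **from sites to cells** -/
theorem cob_res_le (hl : l ∣ N) {M : Matrix (V N) (V N) ℝ} (hMs : Mᵀ = M) {m0 : ℝ} (hm0 : 0 < m0)
    (hM : ∀ u : V N → ℝ, m0 * ∑ x, u x ^ 2 ≤ qf M u) {τ κ : ℝ} (hτ : 0 < τ) (hκ : 0 ≤ κ)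
    (hMτ : ∀ f : V N → ℝ, τ * ∑ c, (cobV N l *ᵥ f) c ^ 2 ≤ qf M f) (u : V (N / l) → ℝ) :
    qf (M + κ • lapM)⁻¹ ((cobV N l)ᵀ *ᵥ u) ≤ qf (Rk τ (κ / (l : ℝ) ^ 2)) u := by
  have hl0 : (0 : ℝ) < (l : ℝ) ^ 2 := by
    have : (0 : ℝ) < l := by exact_mod_cast l_pos hl
    positivity
  set A : Matrix (V N) (V N) ℝ := M + κ • lapM with hA
  have hA0 : ∀ f, qf A f = qf M f + κ * grd f := by
    intro f
    rw [hA, qf_add_mat, qf_smul_mat, qf_lapM]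
  have hAc : ∀ f, m0 * ∑ x, f x ^ 2 ≤ qf A f := by
    intro f
    rw [hA0]
    have := mul_nonneg hκ (grd_nonneg f)
    linarith [hM f]
  have hdet : IsUnit A.det := coer_det hm0 hAc
  set w : V N → ℝ := A⁻¹ *ᵥ ((cobV N l)ᵀ *ᵥ u) with hw
  set g : V (N / l) → ℝ := cobV N l *ᵥ w with hg
  have hAu : IsUnit A := (Matrix.isUnit_iff_isUnit_det A).2 hdet
  have h1 : qf A w = qf A⁻¹ ((cobV N l)ᵀ *ᵥ u) := qf_of_mul hAu _
  have h2 : qf A⁻¹ ((cobV N l)ᵀ *ᵥ u) = u ⬝ᵥ g := by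
    rw [qf_eq, ← hw, hg, Matrix.dotProduct_mulVec u, ← Matrix.mulVec_transpose]
  set B : Matrix (V (N / l)) (V (N / l)) ℝ :=
    τ • (1 : Matrix (V (N / l)) (V (N / l)) ℝ) + (κ / (l : ℝ) ^ 2) • lapM with hB
  have hκl : 0 ≤ κ / (l : ℝ) ^ 2 := div_nonneg hκ hl0.le
  have h3 : qf B g ≤ qf A w := by
    rw [hB, qf_Rk_inv, hA0]
    have h4 := grd_cob hl w
    have h5 : κ / (l : ℝ) ^ 2 * grd g ≤ κ * grd w := by
      have := mul_le_mul_of_nonneg_left h4 hκl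
      have e : κ / (l : ℝ) ^ 2 * ((l : ℝ) ^ 2 * grd w) = κ * grd w := by
        rw [← mul_assoc, div_mul_cancel₀ _ hl0.ne']
      rw [e] at this
      exact this
    have h6 := hMτ w
    linarith
  have hBpos : ∀ v : V (N / l) → ℝ, v ≠ 0 → 0 < qf B v := by
    intro v hv
    rw [hB, qf_Rk_inv]
    have h7 : 0 < ∑ x, v x ^ 2 := by
      obtain ⟨x, hx⟩ := Function.ne_iff.1 hv
      exact Finset.sum_pos' (fun _ _ => sq_nonneg _) ⟨x, Finset.mem_univ _, by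
        have : v x ≠ 0 := hx
        positivity⟩
    have h8 := mul_nonneg hκl (grd_nonneg v)
    have h9 := mul_pos hτ h7
    linarith
  have hBs : Bᵀ = B := (ti_op τ (κ / (l : ℝ) ^ 2)).transpose
  have h10 := dot_sq_le hBs hBpos u g
  have h11 : 0 ≤ qf B⁻¹ u := psd_inv hBpos u
  rw [h2] at h1
  rw [h2]
  show u ⬝ᵥ g ≤ qf B⁻¹ u
  rw [h1] at h3
  by_contra hcon
  push Not at hcon
  have h12 : 0 < u ⬝ᵥ g := lt_of_le_of_lt h11 hcon
  have h13 : qf B⁻¹ u * qf B g ≤ qf B⁻¹ u * (u ⬝ᵥ g) := mul_le_mul_of_nonneg_left h3 h11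
  have h14 : qf B⁻¹ u * (u ⬝ᵥ g) < (u ⬝ᵥ g) * (u ⬝ᵥ g) := mul_lt_mul_of_pos_right hcon h12
  nlinarith

/-- **bare domination of the cell covariance** -/
theorem Gc_dom {b : ℝ} (hb : 0 ≤ b) (hl : l ∣ N) {M : Matrix (V N) (V N) ℝ} (hMs : Mᵀ = M)
    {m0 : ℝ} (hm0 : 0 < m0) (hM : ∀ u : V N → ℝ, m0 * ∑ x, u x ^ 2 ≤ qf M u) {τ κ : ℝ}
    (hτ : 0 < τ) (hκ : 0 ≤ κ) (hbκ : b * κ ≤ 1)
    (hMτ : ∀ f : V N → ℝ, τ * ∑ c, (cobV N l *ᵥ f) c ^ 2 ≤ qf M f) (u : V (N / l) → ℝ) :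
    qf (Gc l (Gm (wM (wT b N) M))) u ≤ qf (Rk τ (κ / (l : ℝ) ^ 2)) u := by
  rw [qf_Gc]
  exact (gm_le_res hb hMs hm0 hM hκ hbκ _).trans (cob_res_le hl hMs hm0 hM hτ hκ hMτ u)

/-- the masses `MC` -/
theorem Gc_dom_MC {b : ℝ} (hb : 0 ≤ b) (hl : l ∣ N) {t τ κ : ℝ} (hτ : 0 < τ) (hτt : τ ≤ t)
    (hκ : 0 ≤ κ) (hbκ : b * κ ≤ 1) (u : V (N / l) → ℝ) :
    qf (Gc l (GM N l b t τ)) u ≤ qf (Rk τ (κ / (l : ℝ) ^ 2)) u := by
  refine Gc_dom hb hl (MC_tr N l t τ) hτ (fun u => qf_MC_ge hl hτt u) hτ hκ hbκ (fun f => ?_) u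
  rw [qf_MC' hl]
  have h1 : 0 ≤ t * ∑ x, (f x - (cellP N l *ᵥ f) x) ^ 2 :=
    mul_nonneg (hτ.le.trans hτt) (Finset.sum_nonneg fun _ _ => sq_nonneg _)
  linarith

/-- symbols -/
theorem Gck_dom {b : ℝ} (hb : 0 ≤ b) (hl : l ∣ N) {t τ κ : ℝ} (hτ : 0 < τ) (hτt : τ ≤ t)
    (hκ : 0 ≤ κ) (hbκ : b * κ ≤ 1) (k : V (N / l)) :
    Gck N l b t τ k ≤ (τ + κ / (l : ℝ) ^ 2 * EE k)⁻¹ := by
  have hl0 : (0 : ℝ) < (l : ℝ) ^ 2 := by
    have : (0 : ℝ) < l := by exact_mod_cast l_pos hl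
    positivity
  have h := (qf_le_iff (ti_Gc_GM hl b t τ) (ti_Rk τ (κ / (l : ℝ) ^ 2))).1
    (fun u => Gc_dom_MC hb hl hτ hτt hκ hbκ u) k
  rwa [sym_Rk hτ (div_nonneg hκ hl0.le)] at h

/-- **the data of the cell channel**, integer model -/
theorem dat_cell {b : ℝ} (hb : 0 ≤ b) (hl : l ∣ N) {t κ : ℝ} (ht : 0 < t)
    (hκ : 0 ≤ κ) (hbκ : b * κ ≤ 1) :
    Dat (Gc l (Gm (wt N b t))) ((κ / (l : ℝ) ^ 2) • lapM) t := by
  have hl0 : (0 : ℝ) < (l : ℝ) ^ 2 := by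
    have : (0 : ℝ) < l := by exact_mod_cast l_pos hl
    positivity
  have hκl : 0 ≤ κ / (l : ℝ) ^ 2 := div_nonneg hκ hl0.le
  have hTI : TI (Gc l (Gm (wt N b t))) := by
    have := ti_Gc_GM hl b t t
    rwa [GM_self] at this
  have hE := H789.em_wt (N := N) hb ht
  refine ⟨ht, ?_, psd_klap hκl, hTI.comm (ti_lapM.smul _), ?_⟩
  · refine psd_of hTI.transpose fun u => ?_
    rw [qf_Gc]
    exact qf_Cm_nonneg hE 0 _
  · have h := Gc_dom_MC hb hl ht le_rfl hκ hbκ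
    rw [GM_self] at h
    refine psd_of ((ti_Rk t _).sub hTI).transpose fun u => ?_
    have h1 := qf_add_mat ((t • (1 : Matrix (V (N / l)) (V (N / l)) ℝ) +
      (κ / (l : ℝ) ^ 2) • lapM)⁻¹ - Gc l (Gm (wt N b t))) (Gc l (Gm (wt N b t))) u
    rw [sub_add_cancel] at h1
    have h2 := h u
    unfold Rk at h2
    linarith

end

end Vale.Agent.P159.H859
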