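import Vale.Agent.P159.H817.St3

/-!
P159 / CUT (helper859), difference of two box means, part 1: the flow of a neutral functional given
by the gradient of the Green function of the torus; its energy and its supremum.
-/

open Finset

set_option linter.unusedSectionVars false

namespace Vale.Agent.P159.H859.Cf

open Vale.Agent.P159.TM.Spec (V)
open Vale.Agent.P159.H817

noncomputable section

/-! ### radial sums -/

lemma inv_le_log {k : ℕ} (hk : 1 ≤ k) :
    1 / (1 + (k : ℝ)) ≤ Real.log (1 + k) - Real.log k := by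
  have hk0 : (0 : ℝ) < k := by exact_mod_cast hk
  have h1 : (0 : ℝ) < k / (1 + k) := by positivity
  have h2 := Real.log_le_sub_one_of_pos h1
  rw [Real.log_div hk0.ne' (by positivity)] at h2
  have h3 : (k : ℝ) / (1 + k) - 1 = -(1 / (1 + (k : ℝ))) := by
    field_simp
    ring
  rw [h3] at h2
  linarith

lemma harm_le (s : ℕ) : ∑ k ∈ range (s + 1), 1 / (1 + (k : ℝ)) ≤ 1 + Real.log (1 + s) := by
  induction s with
  | zero => simp
  | succ s ih =>
    rw [Finset.sum_range_succ]
    have h1 := inv_le_log (k := s + 1) (by omega)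
    push_cast at h1 ih ⊢
    have e : Real.log ((s : ℝ) + 1) = Real.log (1 + s) := by rw [add_comm]
    rw [e] at h1
    linarith

variable {N : ℕ} [NeZero N]

lemma inv2_sum : ∑ x : V N, 1 / (1 + (sz x : ℝ)) ^ 2 ≤ 8 * (1 + Real.log (1 + N)) := by
  have h1 := sum_sz_le (N := N) (g := fun k => 1 / (1 + (k : ℝ)) ^ 2) (fun k => by positivity) 0
  have e1 : (univ : Finset (V N)).filter (fun x => 0 ≤ sz x) = univ := by
    ext x
    simp
  have e2 : (range (N + 1)).filter (fun k => 0 ≤ k) = range (N + 1) := by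
    ext x
    simp
  rw [e1, e2] at h1
  refine h1.trans ?_
  have h2 : ∀ k : ℕ, 8 * ((k : ℝ) + 1) * (1 / (1 + (k : ℝ)) ^ 2) = 8 * (1 / (1 + (k : ℝ))) := by
    intro k
    field_simp
    ring
  simp_rw [h2]
  rw [← Finset.mul_sum]
  exact mul_le_mul_of_nonneg_left (harm_le N) (by norm_num)

/-! ### the gradient of the potential -/

/-- one component of the gradient of `G0` -/
def dG (b : Bool) (x : V N) : ℝ := G0 (x + eb b) - G0 x

lemma dG_le (b : Bool) (x : V N) : |dG b x| ≤ CG / (1 + (sz x : ℝ)) := by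
  have h := grad_G0 (N := N) (eb_cases b) x
  rw [pow_one] at h
  exact h

lemma dG_sq (b : Bool) : ∑ x : V N, dG b x ^ 2 ≤ CG ^ 2 * (8 * (1 + Real.log (1 + N))) := by
  have hC := CG_pos
  have h1 : ∑ x : V N, dG b x ^ 2 ≤ ∑ x : V N, CG ^ 2 * (1 / (1 + (sz x : ℝ)) ^ 2) := by
    refine Finset.sum_le_sum fun x _ => ?_
    have h2 : dG b x ^ 2 ≤ (CG / (1 + (sz x : ℝ))) ^ 2 := by
      rw [← sq_abs (dG b x)]
      exact pow_le_pow_left₀ (abs_nonneg _) (dG_le b x) 2
    refine h2.trans (le_of_eq ?_)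
    rw [div_pow]
    ring
  rw [← Finset.mul_sum] at h1
  exact h1.trans (mul_le_mul_of_nonneg_left inv2_sum (by positivity))

lemma gr_cG (u : V N → ℝ) (x : V N) (b : Bool) :
    gr (cG u) (x, b) = ∑ y, dG b (x - y) * u y := by
  rw [gr_eq]
  unfold cG dG
  rw [← Finset.sum_sub_distrib]
  refine Finset.sum_congr rfl fun y _ => ?_
  have e : x + eb b - y = x - y + eb b := by abel
  rw [e]
  ring

/-- **sup of the flow** -/
theorem abs_gr_cG (u : V N → ℝ) (e : V N × Bool) : |gr (cG u) e| ≤ CG * ∑ y, |u y| := by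
  obtain ⟨x, b⟩ := e
  have hC := CG_pos
  rw [gr_cG, Finset.mul_sum]
  refine (Finset.abs_sum_le_sum_abs _ _).trans (Finset.sum_le_sum fun y _ => ?_)
  rw [abs_mul]
  refine mul_le_mul_of_nonneg_right ((dG_le b _).trans ?_) (abs_nonneg _)
  exact div_le_self hC.le (by
    have : (0 : ℝ) ≤ (sz (x - y) : ℝ) := Nat.cast_nonneg _
    linarith)

/-- **energy of the flow** -/
theorem nrm_gr_cG (u : V N → ℝ) :
    nrm (gr (cG u)) ≤ 16 * CG ^ 2 * (1 + Real.log (1 + N)) * (∑ y, |u y|) ^ 2 := by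
  have hC := CG_pos
  set A : ℝ := ∑ y, |u y| with hA
  have hA0 : 0 ≤ A := Finset.sum_nonneg fun _ _ => abs_nonneg _
  have hb : ∀ b : Bool, ∑ x, gr (cG u) (x, b) ^ 2 ≤ A ^ 2 * (CG ^ 2 * (8 * (1 + Real.log (1 + N)))) := by
    intro b
    have h1 : ∀ x, gr (cG u) (x, b) ^ 2 ≤ A * ∑ y, |u y| * dG b (x - y) ^ 2 := by
      intro x
      rw [gr_cG]
      have h2 : (∑ y, dG b (x - y) * u y) ^ 2 ≤ (∑ y, |u y| * |dG b (x - y)|) ^ 2 := by
        rw [← sq_abs]
        refine pow_le_pow_left₀ (abs_nonneg _) ?_ 2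
        refine (Finset.abs_sum_le_sum_abs _ _).trans (le_of_eq ?_)
        exact Finset.sum_congr rfl fun y _ => by rw [abs_mul, mul_comm]
      refine h2.trans ?_
      have h3 := Finset.sum_mul_sq_le_sq_mul_sq (univ : Finset (V N)) (fun y => √|u y|)
        (fun y => √|u y| * |dG b (x - y)|)
      have e1 : ∀ y : V N, √|u y| * (√|u y| * |dG b (x - y)|) = |u y| * |dG b (x - y)| := by
        intro y
        rw [← mul_assoc, Real.mul_self_sqrt (abs_nonneg _)]
      have e2 : ∀ y : V N, √|u y| ^ 2 = |u y| := fun y => Real.sq_sqrt (abs_nonneg _)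
      have e3 : ∀ y : V N, (√|u y| * |dG b (x - y)|) ^ 2 = |u y| * dG b (x - y) ^ 2 := by
        intro y
        rw [mul_pow, e2, sq_abs]
      simp_rw [e1, e2, e3] at h3
      exact h3
    refine (Finset.sum_le_sum fun x _ => h1 x).trans ?_
    rw [← Finset.mul_sum, Finset.sum_comm]
    have h4 : ∀ y : V N, ∑ x, |u y| * dG b (x - y) ^ 2 ≤
        |u y| * (CG ^ 2 * (8 * (1 + Real.log (1 + N)))) := by
      intro y
      rw [← Finset.mul_sum, sum_shift_sub (fun x => dG b x ^ 2) y]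
      exact mul_le_mul_of_nonneg_left (dG_sq b) (abs_nonneg _)
    calc A * ∑ y, ∑ x, |u y| * dG b (x - y) ^ 2
        ≤ A * ∑ y, |u y| * (CG ^ 2 * (8 * (1 + Real.log (1 + N)))) :=
          mul_le_mul_of_nonneg_left (Finset.sum_le_sum fun y _ => h4 y) hA0
      _ = _ := by rw [← Finset.sum_mul, ← hA]; ring
  have h5 : nrm (gr (cG u)) = ∑ x : V N, (gr (cG u) (x, true) ^ 2 + gr (cG u) (x, false) ^ 2) := by
    unfold nrm
    rw [Fintype.sum_prod_type]
    exact Finset.sum_congr rfl fun x _ => by rw [Fintype.sum_bool]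
  rw [h5, Finset.sum_add_distrib]
  have h6 := hb true
  have h7 := hb false
  nlinarith

/-- the flow of a neutral functional -/
theorem sum_cG {u : V N → ℝ} (hu : ∑ y, u y = 0) (g : V N → ℝ) :
    ∑ e, gr (cG u) e * gr g e = ∑ x, u x * g x := by
  rw [parts]
  refine Finset.sum_congr rfl fun x _ => ?_
  rw [dv_gr, lp_cG hu, neg_neg]
  ring

end

end Vale.Agent.P159.H859.Cf
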