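import Vale.Agent.P159.H859.Cf1
import Vale.Agent.P159.H883.Lin2

/-!
P159 / CUT (helper859), difference of two box means, part 2: tails of averages of absolute values of
neutral linear functionals under `nuM (wT b N) (t • 1)`.
-/

open MeasureTheory Finset Matrix

set_option linter.unusedSectionVars false

namespace Vale.Agent.P159.H859.Cf

open Vale.Agent.P159.TM.Spec (V)
open Vale.Agent.P159.TM.SpecC (Tor wT)
open Vale.Agent.P159.H770 (Ed eS eT)
open Vale.Agent.P159.H817 (gr nrm cG CG CG_pos)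
open Vale.Agent.P159.H883 (nuM FlJ)

noncomputable section

variable {N : ℕ} [NeZero N] {b t : ℝ}

lemma gr_ends (f : V N → ℝ) (e : V N × Bool) : gr f e = f (eT N e) - f (eS N e) := by
  unfold gr eT eS
  split_ifs <;> rfl

/-- the flow of a neutral functional -/
theorem flJ_cG {u : V N → ℝ} (hu : ∑ y, u y = 0) : FlJ u (gr (cG u)) := by
  intro g
  rw [← sum_cG hu g]
  exact Finset.sum_congr rfl fun e _ => by rw [gr_ends g]

lemma cosh_le_sq {x : ℝ} (hx : |x| ≤ 1) : Real.cosh x - 1 ≤ x ^ 2 := by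
  have h1 := Real.cosh_le_exp_half_sq x
  have h2 : x ^ 2 ≤ 1 := by
    rw [← sq_abs]
    exact pow_le_one₀ (abs_nonneg _) hx
  have h3 : Real.exp (x ^ 2 / 2) ≤ 1 + 2 * (x ^ 2 / 2) := by
    have h4 := Real.abs_exp_sub_one_le (x := x ^ 2 / 2) (by
      rw [abs_of_nonneg (by positivity)]
      linarith)
    rw [abs_of_nonneg (by positivity : (0 : ℝ) ≤ x ^ 2 / 2)] at h4
    have h5 := (abs_le.1 h4).2
    linarith
  linarith

/-- number of the variance -/
def VV (N : ℕ) (b A B : ℝ) : ℝ := B + 32 * b * CG ^ 2 * (1 + Real.log (1 + N)) * A ^ 2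

/-- exponential moment of the absolute value of a neutral functional -/
theorem abs_mgf (hb : 0 < b) (ht : 0 < t) (x₀ : V N) {u : V N → ℝ} (hu : ∑ y, u y = 0)
    {A B : ℝ} (hA : ∑ y, |u y| ≤ A) (hB : ∑ y, u y ^ 2 ≤ t * B) {s : ℝ} (hs : 0 ≤ s)
    (h1 : s * (CG * A) ≤ 1) :
    Integrable (fun F : V N → ℝ => Real.exp (s * |∑ y, u y * F y|))
      (nuM (wT b N) (t • (1 : Matrix (V N) (V N) ℝ)) x₀) ∧
    ∫ F, Real.exp (s * |∑ y, u y * F y|) ∂(nuM (wT b N) (t • (1 : Matrix (V N) (V N) ℝ)) x₀) ≤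
      2 * Real.exp (s ^ 2 / 2 * VV N b A B) := by
  have hC := CG_pos
  have hA0 : 0 ≤ ∑ y, |u y| := Finset.sum_nonneg fun _ _ => abs_nonneg _
  have hl : 0 ≤ Real.log (1 + (N : ℝ)) := Real.log_nonneg (by
    have : (0 : ℝ) ≤ N := Nat.cast_nonneg _
    linarith)
  -- both signs
  have key : ∀ c : ℝ, c ^ 2 = s ^ 2 →
      Integrable (fun F : V N → ℝ => Real.exp (∑ y, (c • u) y * F y))
        (nuM (wT b N) (t • (1 : Matrix (V N) (V N) ℝ)) x₀) ∧
      ∫ F, Real.exp (∑ y, (c • u) y * F y)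
        ∂(nuM (wT b N) (t • (1 : Matrix (V N) (V N) ℝ)) x₀) ≤
        Real.exp (s ^ 2 / 2 * VV N b A B) := by
    intro c hc
    obtain ⟨h2, h3⟩ := H883.lin_int hb ht x₀ ((flJ_cG hu).smul c)
    refine ⟨h2, h3.trans (Real.exp_le_exp.2 ?_)⟩
    have h4 : (∑ y, (c • u) y ^ 2) / (2 * t) ≤ s ^ 2 / 2 * B := by
      rw [div_le_iff₀ (by positivity)]
      simp only [Pi.smul_apply, smul_eq_mul, mul_pow, hc]
      rw [← Finset.mul_sum]
      have := mul_le_mul_of_nonneg_left hB (sq_nonneg s)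
      nlinarith
    have hca : |c| = s := by
      rw [← abs_of_nonneg hs]
      exact (sq_eq_sq_iff_abs_eq_abs c s).1 hc
    have h5 : ∑ e, (Real.cosh ((c • gr (cG u)) e) - 1) ≤
        s ^ 2 * (16 * CG ^ 2 * (1 + Real.log (1 + N)) * A ^ 2) := by
      have h6 : ∀ e, Real.cosh ((c • gr (cG u)) e) - 1 ≤ s ^ 2 * gr (cG u) e ^ 2 := by
        intro e
        have h7 : |(c • gr (cG u)) e| ≤ 1 := by
          rw [Pi.smul_apply, smul_eq_mul, abs_mul, hca]
          refine (mul_le_mul_of_nonneg_left ((abs_gr_cG u e).trans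
            (mul_le_mul_of_nonneg_left hA hC.le)) hs).trans h1
        refine (cosh_le_sq h7).trans (le_of_eq ?_)
        rw [Pi.smul_apply, smul_eq_mul, mul_pow, hc]
      refine (Finset.sum_le_sum fun e _ => h6 e).trans ?_
      rw [← Finset.mul_sum]
      refine mul_le_mul_of_nonneg_left ?_ (sq_nonneg s)
      have h8 := nrm_gr_cG u
      unfold nrm at h8
      refine h8.trans ?_
      exact mul_le_mul_of_nonneg_left (pow_le_pow_left₀ hA0 hA 2) (by positivity)
    have h6 := mul_le_mul_of_nonneg_left h5 hb.le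
    unfold VV
    nlinarith
  obtain ⟨i1, l1⟩ := key s rfl
  obtain ⟨i2, l2⟩ := key (-s) (by ring)
  have e1 : ∀ (c : ℝ) (F : V N → ℝ), ∑ y, (c • u) y * F y = c * ∑ y, u y * F y := by
    intro c F
    rw [Finset.mul_sum]
    refine Finset.sum_congr rfl fun y _ => ?_
    simp only [Pi.smul_apply, smul_eq_mul]
    ring
  simp only [e1] at i1 i2 l1 l2
  have hle : ∀ F : V N → ℝ, Real.exp (s * |∑ y, u y * F y|) ≤
      Real.exp (s * ∑ y, u y * F y) + Real.exp (-s * ∑ y, u y * F y) := by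
    intro F
    rcases abs_cases (∑ y, u y * F y) with ⟨h, -⟩ | ⟨h, -⟩
    · rw [h]
      have := Real.exp_pos (-s * ∑ y, u y * F y)
      linarith
    · rw [h]
      have h2 := Real.exp_pos (s * ∑ y, u y * F y)
      have e2 : s * -∑ y, u y * F y = -s * ∑ y, u y * F y := by ring
      rw [e2]
      linarith
  have hm : Measurable fun F : V N → ℝ => Real.exp (s * |∑ y, u y * F y|) :=
    Real.measurable_exp.comp ((H883.meas_lin u).abs.const_mul s)
  have hi : Integrable (fun F : V N → ℝ => Real.exp (s * |∑ y, u y * F y|))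
      (nuM (wT b N) (t • (1 : Matrix (V N) (V N) ℝ)) x₀) := by
    refine (i1.add i2).mono' hm.aestronglyMeasurable (Filter.Eventually.of_forall fun F => ?_)
    rw [Real.norm_eq_abs, abs_of_pos (Real.exp_pos _)]
    exact hle F
  refine ⟨hi, ?_⟩
  calc ∫ F, Real.exp (s * |∑ y, u y * F y|)
        ∂(nuM (wT b N) (t • (1 : Matrix (V N) (V N) ℝ)) x₀)
      ≤ ∫ F, (Real.exp (s * ∑ y, u y * F y) + Real.exp (-s * ∑ y, u y * F y))
        ∂(nuM (wT b N) (t • (1 : Matrix (V N) (V N) ℝ)) x₀) :=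
        integral_mono hi (i1.add i2) hle
    _ = _ := integral_add i1 i2
    _ ≤ 2 * Real.exp (s ^ 2 / 2 * VV N b A B) := by linarith

/-- **tail of a weighted average of absolute values** -/
theorem avg_tail {ι : Type*} [Fintype ι] (hb : 0 < b) (ht : 0 < t) (x₀ : V N) {w : ι → ℝ}
    (hw : ∀ i, 0 ≤ w i) (hw1 : ∑ i, w i = 1) {u : ι → V N → ℝ} (hu : ∀ i, ∑ y, u i y = 0)
    {A B : ℝ} (hA : ∀ i, ∑ y, |u i y| ≤ A) (hB : ∀ i, ∑ y, u i y ^ 2 ≤ t * B) {x V : ℝ}
    (hx : 0 ≤ x) (hV : 0 < V) (h1 : VV N b A B ≤ V) (h2 : x * (CG * A) ≤ V) :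
    (nuM (wT b N) (t • (1 : Matrix (Vale.Agent.P159.TM.Spec.V N) (Vale.Agent.P159.TM.Spec.V N) ℝ))
      x₀).real {F | x < ∑ i, w i * |∑ y, u i y * F y|} ≤ 2 * Real.exp (-(x ^ 2 / (2 * V))) := by
  have := H883.prob_nuM (H963.gw_wT (N := N) hb.le) (H883.bw_wT hb) (H883.mf_scalar ht) x₀
  set s : ℝ := x / V with hs
  have hs0 : 0 ≤ s := div_nonneg hx hV.le
  have hsA : s * (CG * A) ≤ 1 := by
    rw [hs, div_mul_eq_mul_div, div_le_one hV]
    exact h2
  have hk := fun i => abs_mgf hb ht x₀ (hu i) (hA i) (hB i) hs0 hsA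
  set P := nuM (wT b N) (t • (1 : Matrix (Vale.Agent.P159.TM.Spec.V N)
    (Vale.Agent.P159.TM.Spec.V N) ℝ)) x₀ with hP
  set f : (Vale.Agent.P159.TM.Spec.V N → ℝ) → ℝ :=
    fun F => ∑ i, w i * Real.exp (s * |∑ y, u i y * F y|) with hf
  have hfi : Integrable f P := integrable_finsetSum _ fun i _ => (hk i).1.const_mul (w i)
  have hfe : ∫ F, f F ∂P ≤ 2 * Real.exp (s ^ 2 / 2 * V) := by
    rw [hf, integral_finsetSum _ fun i _ => (hk i).1.const_mul (w i)]
    have h3 : ∀ i, ∫ F, w i * Real.exp (s * |∑ y, u i y * F y|) ∂P ≤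
        w i * (2 * Real.exp (s ^ 2 / 2 * V)) := by
      intro i
      rw [integral_const_mul]
      refine mul_le_mul_of_nonneg_left ((hk i).2.trans ?_) (hw i)
      refine mul_le_mul_of_nonneg_left (Real.exp_le_exp.2 ?_) (by norm_num)
      exact mul_le_mul_of_nonneg_left h1 (by positivity)
    refine (Finset.sum_le_sum fun i _ => h3 i).trans (le_of_eq ?_)
    rw [← Finset.sum_mul, hw1, one_mul]
  have hj : ∀ F : Vale.Agent.P159.TM.Spec.V N → ℝ,
      Real.exp (s * ∑ i, w i * |∑ y, u i y * F y|) ≤ f F := by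
    intro F
    have h4 := convexOn_exp.map_sum_le (t := (univ : Finset ι)) (w := w)
      (p := fun i => s * |∑ y, u i y * F y|) (fun i _ => hw i) hw1 fun i _ => Set.mem_univ _
    simp only [smul_eq_mul] at h4
    refine le_trans (le_of_eq ?_) h4
    congr 1
    rw [Finset.mul_sum]
    exact Finset.sum_congr rfl fun i _ => by ring
  have h5 := mul_meas_ge_le_integral_of_nonneg (μ := P) (f := f)
    (Filter.Eventually.of_forall fun F => (Real.exp_pos _).le.trans (hj F)) hfi (Real.exp (s * x))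
  have h6 : P.real {F | x < ∑ i, w i * |∑ y, u i y * F y|} ≤ P.real {F | Real.exp (s * x) ≤ f F} := by
    refine measureReal_mono (fun F hF => ?_) (measure_ne_top _ _)
    exact (Real.exp_le_exp.2 (mul_le_mul_of_nonneg_left (le_of_lt hF) hs0)).trans (hj F)
  have h7 : P.real {F | Real.exp (s * x) ≤ f F} ≤ 2 * Real.exp (s ^ 2 / 2 * V) / Real.exp (s * x) := by
    rw [le_div_iff₀ (Real.exp_pos _), mul_comm]
    exact h5.trans hfe
  refine h6.trans (h7.trans (le_of_eq ?_))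
  rw [mul_div_assoc, ← Real.exp_sub]
  congr 2
  rw [hs]
  field_simp
  ring

end

end Vale.Agent.P159.H859.Cf
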