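import Vale.Agent.P159.H859.Cf2
import Vale.Agent.P159.H663.Drl1
import Vale.Agent.P159.H191.Ct6

/-!
P159 / CUT (helper859), difference of two box means, part 3: the tail of
`∑ v, w v * |mean at q + v - mean at p + v|` of the tent average of the field.
-/

open MeasureTheory Finset Matrix

set_option linter.unusedSectionVars false

namespace Vale.Agent.P159.H859.Cf

open Vale.Agent.P159.TM.Spec (V)
open Vale.Agent.P159.TM.SpecC (Tor wT)
open Vale.Agent.P159.H817 (gr nrm cG CG CG_pos sz sum_shift_sub)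
open Vale.Agent.P159.H883 (nuM FlJ)
open Vale.Agent.P159.H276 (bxT)
open Vale.Agent.P159.H663.Dr (tT tT_dot sum_tT sq_tT tT_add tT_const)
open Vale.Agent.P159.H191 (mn Wts)

noncomputable section

variable {N q : ℕ} [NeZero N] {b t : ℝ}

lemma bxT_mono {h g : V N → ℝ} (hg : ∀ x, h x ≤ g x) (x : V N) : bxT N q h x ≤ bxT N q g x := by
  unfold bxT
  refine mul_le_mul_of_nonneg_left ?_ (by positivity)
  exact Finset.sum_le_sum fun i _ => Finset.sum_le_sum fun j _ => hg _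

lemma tT_mono {h g : V N → ℝ} (hg : ∀ x, h x ≤ g x) (x : V N) : tT N q h x ≤ tT N q g x := by
  unfold tT
  refine mul_le_mul_of_nonneg_left ?_ (by positivity)
  exact Finset.sum_le_sum fun i _ => Finset.sum_le_sum fun j _ => bxT_mono hg _

/-- the tent average is positive -/
lemma abs_tT (h : V N → ℝ) (x : V N) : |tT N q h x| ≤ tT N q (fun y => |h y|) x := by
  rw [abs_le]
  constructor
  · have h1 := tT_mono (q := q) (h := -h) (g := fun y => |h y|) (fun y => neg_le_abs (h y)) x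
    rw [H663.Dr.tT_neg] at h1
    simp only [Pi.neg_apply] at h1
    linarith
  · exact tT_mono (fun y => le_abs_self (h y)) x

lemma tT_sup (hq : 0 < q) {h : V N → ℝ} {B : ℝ} (hB : ∀ x, |h x| ≤ B) (x : V N) :
    |tT N q h x| ≤ B := by
  refine (abs_tT h x).trans ((tT_mono hB x).trans ?_)
  rw [tT_const hq]

lemma l1_tT (hq : 0 < q) (h : V N → ℝ) : ∑ x, |tT N q h x| ≤ ∑ x, |h x| := by
  refine (Finset.sum_le_sum fun x _ => abs_tT h x).trans ?_
  rw [sum_tT hq]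

/-- the functional `mean at a - mean at c` of the tent average -/
def uD (q : ℕ) (μ : V N → ℝ) (a c : V N) : V N → ℝ := tT N q fun y => μ (y - a) - μ (y - c)

lemma mn_tT (μ : V N → ℝ) (a c : V N) (F : V N → ℝ) :
    mn μ a (tT N q F) - mn μ c (tT N q F) = ∑ y, uD q μ a c y * F y := by
  unfold uD mn
  rw [← tT_dot, ← Finset.sum_sub_distrib]
  exact Finset.sum_congr rfl fun y _ => by ring

lemma sum_uD (hq : 0 < q) (μ : V N → ℝ) (a c : V N) : ∑ y, uD q μ a c y = 0 := by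
  unfold uD
  rw [sum_tT hq, Finset.sum_sub_distrib, sum_shift_sub μ a, sum_shift_sub μ c, sub_self]

lemma l1_uD (hq : 0 < q) {μ : V N → ℝ} (hμ : ∀ z, 0 ≤ μ z) (hμ1 : ∑ z, μ z = 1) (a c : V N) :
    ∑ y, |uD q μ a c y| ≤ 2 := by
  unfold uD
  refine (l1_tT hq _).trans ?_
  have h1 : ∀ y, |μ (y - a) - μ (y - c)| ≤ μ (y - a) + μ (y - c) := by
    intro y
    have h2 := hμ (y - a)
    have h3 := hμ (y - c)
    rw [abs_le]
    constructor <;> linarith
  refine (Finset.sum_le_sum fun y _ => h1 y).trans ?_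
  rw [Finset.sum_add_distrib, sum_shift_sub μ a, sum_shift_sub μ c, hμ1]
  norm_num

lemma l2_uD (hq : 0 < q) (hd : q ∣ N) (μ : V N → ℝ) (a c : V N) :
    ∑ y, uD q μ a c y ^ 2 ≤ 4 * ∑ z, μ z ^ 2 := by
  unfold uD
  refine (sq_tT hq hd _).trans ?_
  have h1 : ∀ y, (μ (y - a) - μ (y - c)) ^ 2 ≤ 2 * μ (y - a) ^ 2 + 2 * μ (y - c) ^ 2 := by
    intro y
    nlinarith [sq_nonneg (μ (y - a) + μ (y - c))]
  refine (Finset.sum_le_sum fun y _ => h1 y).trans (le_of_eq ?_)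
  rw [Finset.sum_add_distrib, ← Finset.mul_sum, ← Finset.mul_sum,
    sum_shift_sub (fun z => μ z ^ 2) a, sum_shift_sub (fun z => μ z ^ 2) c]
  ring

/-- **tail of the averaged difference of the means** -/
theorem mean_tail (hb : 0 < b) (ht : 0 < t) (x₀ : V N) (hq : 0 < q) (hd : q ∣ N) {μ w : V N → ℝ}
    (hμ : ∀ z, 0 ≤ μ z) (hμ1 : ∑ z, μ z = 1) (hμ2 : 4 * ∑ z, μ z ^ 2 ≤ t) {s : ℕ} (hw : Wts w s)
    (p p' : V N) {x V : ℝ} (hx : 0 ≤ x) (hV : 0 < V)
    (h1 : 1 + 128 * b * CG ^ 2 * (1 + Real.log (1 + N)) ≤ V) (h2 : 2 * CG * x ≤ V) :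
    (nuM (wT b N) (t • (1 : Matrix (Vale.Agent.P159.TM.Spec.V N) (Vale.Agent.P159.TM.Spec.V N) ℝ))
      x₀).real {F | x < ∑ v, w v * |mn μ (p' + v) (tT N q F) - mn μ (p + v) (tT N q F)|} ≤
      2 * Real.exp (-(x ^ 2 / (2 * V))) := by
  have h3 := avg_tail hb ht x₀ hw.nn hw.one (u := fun v => uD q μ (p' + v) (p + v))
    (fun v => sum_uD hq μ _ _) (A := 2) (B := 1) (fun v => l1_uD hq hμ hμ1 _ _)
    (fun v => by
      rw [mul_one]
      exact (l2_uD hq hd μ _ _).trans hμ2) hx hV (by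
        unfold VV
        refine le_trans (le_of_eq ?_) h1
        ring) (by
        refine le_trans (le_of_eq ?_) h2
        ring)
  simp only [← mn_tT] at h3
  exact h3

/-- the mean of a bounded field -/
lemma abs_mn {μ : V N → ℝ} (hμ : ∀ z, 0 ≤ μ z) (hμ1 : ∑ z, μ z = 1) {H : V N → ℝ} {B : ℝ}
    (hB : ∀ x, |H x| ≤ B) (a : V N) : |mn μ a H| ≤ B := by
  unfold mn
  refine (Finset.abs_sum_le_sum_abs _ _).trans ?_
  have h1 : ∀ y, |μ (y - a) * H y| ≤ μ (y - a) * B := by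
    intro y
    rw [abs_mul, abs_of_nonneg (hμ _)]
    exact mul_le_mul_of_nonneg_left (hB y) (hμ _)
  refine (Finset.sum_le_sum fun y _ => h1 y).trans ?_
  rw [← Finset.sum_mul, sum_shift_sub μ a, hμ1, one_mul]

/-- the averaged difference of the means -/
def dM (μ w : V N → ℝ) (p p' : V N) (H : V N → ℝ) : ℝ :=
  ∑ v, w v * |mn μ (p' + v) H - mn μ (p + v) H|

lemma dM_add_le {μ w : V N → ℝ} {s : ℕ} (hw : Wts w s) (hμ : ∀ z, 0 ≤ μ z) (hμ1 : ∑ z, μ z = 1)
    (p p' : V N) (H : V N → ℝ) {G : V N → ℝ} {B : ℝ} (hB : ∀ x, |G x| ≤ B) :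
    dM μ w p p' (fun x => H x + G x) ≤ dM μ w p p' H + 2 * B := by
  unfold dM
  have h1 : ∀ v, w v * |mn μ (p' + v) (fun x => H x + G x) - mn μ (p + v) (fun x => H x + G x)| ≤
      w v * |mn μ (p' + v) H - mn μ (p + v) H| + w v * (2 * B) := by
    intro v
    rw [H191.mn_add, H191.mn_add, ← mul_add]
    refine mul_le_mul_of_nonneg_left ?_ (hw.nn v)
    have h2 := abs_mn hμ hμ1 hB (p' + v)
    have h3 := abs_mn hμ hμ1 hB (p + v)
    have e : mn μ (p' + v) H + mn μ (p' + v) G - (mn μ (p + v) H + mn μ (p + v) G) =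
        (mn μ (p' + v) H - mn μ (p + v) H) + (mn μ (p' + v) G - mn μ (p + v) G) := by ring
    rw [e]
    refine (abs_add_le _ _).trans (add_le_add le_rfl ?_)
    refine (abs_sub _ _).trans ?_
    linarith
  refine (Finset.sum_le_sum fun v _ => h1 v).trans (le_of_eq ?_)
  rw [Finset.sum_add_distrib, ← Finset.sum_mul, hw.one, one_mul]

/-- **the tail with the ideal part**: `H = T (F + g)` -/
theorem dM_tail (hb : 0 < b) (ht : 0 < t) (x₀ : V N) (hq : 0 < q) (hd : q ∣ N) {μ w : V N → ℝ}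
    (hμ : ∀ z, 0 ≤ μ z) (hμ1 : ∑ z, μ z = 1) (hμ2 : 4 * ∑ z, μ z ^ 2 ≤ t) {s : ℕ} (hw : Wts w s)
    (p p' : V N) {g : V N → ℝ} {B : ℝ} (hg : ∀ x, |g x| ≤ B) {x : ℝ} (hx : 0 < x)
    (h1 : 1 + 128 * b * CG ^ 2 * (1 + Real.log (1 + N)) ≤ 2 * CG * x) :
    (nuM (wT b N) (t • (1 : Matrix (V N) (V N) ℝ)) x₀).real
      {F | x + 2 * B < dM μ w p p' (tT N q (F + g))} ≤ 2 * Real.exp (-(x / (4 * CG))) := by
  have hC := CG_pos
  have := H883.prob_nuM (H963.gw_wT (N := N) hb.le) (H883.bw_wT hb) (H883.mf_scalar ht) x₀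
  have h3 := mean_tail hb ht x₀ hq hd hμ hμ1 hμ2 hw p p' hx.le (V := 2 * CG * x) (by positivity)
    h1 le_rfl
  have e : x ^ 2 / (2 * (2 * CG * x)) = x / (4 * CG) := by
    field_simp
    ring
  rw [e] at h3
  refine le_trans (measureReal_mono (fun F hF => ?_) (measure_ne_top _ _)) h3
  have h4 : x + 2 * B < dM μ w p p' (tT N q (F + g)) := hF
  have h5 : dM μ w p p' (tT N q (F + g)) ≤ dM μ w p p' (tT N q F) + 2 * B := by
    have h6 := dM_add_le hw hμ hμ1 p p' (tT N q F) (G := tT N q g) (tT_sup hq hg)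
    have e2 : tT N q (F + g) = fun x => tT N q F x + tT N q g x := by
      rw [tT_add]
      rfl
    rw [e2]
    exact h6
  show x < dM μ w p p' (tT N q F)
  linarith

end

end Vale.Agent.P159.H859.Cf
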