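import Vale.Agent.P159.H859.Gn4
import Vale.Agent.P159.H770.Sti4
import Vale.Agent.P159.H446.Cut3

/-!
P159 / CUT (helper859), numbers of the ideal correction, part 6: `ha`, `hH` of helper446's `cutP_of`
along the flow.

* `prm_flow` : at every pair of the window: `Prm`, flatness `FL`, `s0² (lR / R)² ≤ x0`;
* `haH_flow` : `qf (Anm) (H1 ..) ≤ x1` and `RT (4 • H1 ..) ≤ L / 2 + x1 w`.
-/

open Finset MeasureTheory Filter Topology

set_option linter.unusedSectionVars false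

namespace Vale.Agent.P159.H859.Gn

open Vale.Agent.P159.TM.Spec (V)
open Vale.Agent.P159.H817 (gr nrm GB sz e1 U gr_eq)
open Vale.Agent.P159.H191 (Wts YP th RT)
open Vale.Agent.P159.H663.Dr (tT)
open Vale.Agent.P159.H859.Idl (gsR Prm s0 s0_pos SmT)
open Vale.Agent.P159.H972 (FL Par tn lg)
open Vale.Agent.P159.H963.Core (RF)
open Vale.Agent.P159.H789 (lvS)
open Vale.Agent.P159.H446.Pr (sj H1 nC sd_nC log_ge)
open Vale.Agent.P159.H773 (sd sd_ge sd_pow)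
open Vale.Agent.P159.H801 (SFlow)
open Vale.Agent.P159.H37.Sf (kf lb_tend)
open Vale.Agent.P159.H145.Sp (lR lC gC)
open Vale.Agent.P159.H770.Sti (lvn_flow Lvn FL_cast)

noncomputable section

/-- the ratio of the lengths -/
lemma lR_ratio {n k K R : ℕ} (hk : 4 * K ≤ k) (hR : 2 ^ (n + k) ≤ R) : 2 ^ K * lR n R ≤ R := by
  have h1 := log_ge hR
  have h2 : 2 ^ Nat.log 2 R ≤ R := Nat.pow_log_le_self 2 (by
    have := Nat.one_le_two_pow (n := n + k)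
    omega)
  unfold H145.Sp.lR H145.Sp.lK H145.Sp.lE
  rw [← pow_add]
  exact (Nat.pow_le_pow_right (by norm_num) (by omega)).trans h2

section flow

variable {P : Par} {b σ c c1 q2 qx : ℝ} {a y ε xs : ℕ → ℝ} {c' r q A : ℝ} {N : ℕ}

/-- **the lengths of the window** -/
theorem prm_flow (hA : P.Adm) (hσ0 : 0 ≤ σ) (hσ : σ ≤ 1 / 4)
    (h : SFlow P b σ c c1 q2 qx a y ε xs c' r q A N) {ck : ℝ} (hck : 0 < ck)
    (hck1 : ck ≤ P.thp) (hth : 2 * P.th ≤ ck) (i : ℕ) (hi : 6 ≤ i) {x0 : ℝ} (hx0 : 0 < x0) :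
    ∀ᶠ n in atTop, ∀ R, 2 ^ (n + kf ck y n) ≤ R →
      R ≤ 2 ^ (n + P.w (ε n) + kf ck y (n + P.w (ε n))) →
      Prm (sd i R) (sd i (2 ^ (n + P.w (ε n) + kf ck y (n + P.w (ε n))))) (lR n R) R
        (2 ^ (n + P.w (ε n) + kf ck y (n + P.w (ε n)))) ∧
      FL b (tn n) (a n) (17 * ε n ^ P.pf) (sd i R) ∧ a n ≤ 2 ∧ 17 * ε n ^ P.pf ≤ 1 ∧
      s0 ^ 2 * ((lR n R : ℝ) / R) ^ 2 ≤ x0 := by
  have hs0 := s0_pos
  obtain ⟨K, hK⟩ := pow_unbounded_of_one_lt (s0 ^ 2 / x0) (show (1 : ℝ) < 4 by norm_num)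
  have e3 := (lb_tend h.fl.y0 h.fl.yt).eventually_ge_atTop (((4 * K + 60 : ℕ) : ℝ) / ck)
  filter_upwards [lvn_flow hA hσ0 hσ h hck hck1 hth i hi, e3, eventually_ge_atTop 2] with n hL g3 hn
  intro R h1 h2
  have hkf : ck * Real.logb 2 (1 / y n) ≤ (kf ck y n : ℝ) := Nat.le_ceil _
  have hk : 4 * K + 60 ≤ kf ck y n := by
    have h3 : ((4 * K + 60 : ℕ) : ℝ) ≤ ck * Real.logb 2 (1 / y n) := by
      rw [div_le_iff₀ hck] at g3
      linarith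
    exact_mod_cast h3.trans hkf
  have hR1 : 1 ≤ R := (Nat.one_le_two_pow (n := n + kf ck y n)).trans h1
  have h64 : ∀ M, 64 * M ≤ sd i M := fun M => by
    have h4 : 2 ^ 6 ≤ 2 ^ i := Nat.pow_le_pow_right (by norm_num) hi
    exact (Nat.mul_le_mul_right M h4).trans (sd_ge i M)
  have h8 : 2 ^ 8 * lR n R ≤ R := lR_ratio (by omega) h1
  have hl4 : 4 ≤ lR n R := by
    unfold H145.Sp.lR H145.Sp.lK
    have h4 : 2 ^ 2 ≤ 2 ^ (n + H145.Sp.lE (Nat.log 2 R - n)) :=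
      Nat.pow_le_pow_right (by norm_num) (by omega)
    exact h4
  refine ⟨⟨hl4, by omega, h64 R, h64 _, by omega⟩, ?_, hL.ha2, ?_, ?_⟩
  · have h4 : n + kf ck y n ≤ Nat.clog 2 R := H446.Pr.clog_ge h1
    have h5 : Nat.clog 2 R ≤ n + P.w (ε n) + kf ck y (n + P.w (ε n)) :=
      Nat.clog_le_of_le_pow h2
    refine FL_cast ?_ (hL.fl (Nat.clog 2 R) h4 h5)
    rw [sd_pow, pow_add]
    rfl
  · have := hL.hη1
    have := hL.hη0
    linarith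
  · have hKR : 2 ^ K * lR n R ≤ R := lR_ratio (by omega) h1
    have hR0 : (0 : ℝ) < R := by exact_mod_cast hR1
    have h4 : (2 : ℝ) ^ K * (lR n R : ℝ) ≤ R := by exact_mod_cast hKR
    have h5 : (lR n R : ℝ) / R ≤ 1 / 2 ^ K := by
      rw [div_le_div_iff₀ hR0 (by positivity)]
      linarith
    have h6 : ((lR n R : ℝ) / R) ^ 2 ≤ (1 / 2 ^ K) ^ 2 := pow_le_pow_left₀ (by positivity) h5 2
    have h7 : ((1 : ℝ) / 2 ^ K) ^ 2 = 1 / 4 ^ K := by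
      rw [div_pow, one_pow, ← pow_mul, mul_comm K 2, pow_mul]
      norm_num
    rw [h7] at h6
    have h9 : s0 ^ 2 * (1 / 4 ^ K) ≤ x0 := by
      rw [div_lt_iff₀ hx0] at hK
      rw [mul_one_div, div_le_iff₀ (by positivity)]
      linarith
    exact (mul_le_mul_of_nonneg_left h6 (sq_nonneg s0)).trans h9

/-- **`ha` and `hH` of `cutP_of` along the flow** -/
theorem haH_flow (hb : 0 < b) (hA : P.Adm) (hσ0 : 0 ≤ σ) (hσ : σ ≤ 1 / 4)
    (h : SFlow P b σ c c1 q2 qx a y ε xs c' r q A N) {ck : ℝ} (hck : 0 < ck)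
    (hck1 : ck ≤ P.thp) (hth : 2 * P.th ≤ ck) (i : ℕ) (hi : 6 ≤ i) {κ x1 : ℝ} (hκ : 0 < κ)
    (hx1 : 0 < x1) {L G w0 : ℕ → ℝ}
    (hS : ∀ᶠ n in atTop, 1 ≤ G n ∧ ∀ R, 2 ^ (n + kf ck y n) ≤ R →
      R ≤ 2 ^ (n + P.w (ε n) + kf ck y (n + P.w (ε n))) →
      ∃ (lc : ℕ) (_ : NeZero (sd i R / lc)) (Y ρ p p' : ℝ) (j k : ℕ),
        SmT (sd i R) lc b (tn n) Y ρ p p' κ j k ∧ 0 ≤ ρ ∧ G n ≤ 4 ^ j ∧ lvS ρ j k ≤ L n ∧
          tn n * (lc : ℝ) ^ 2 ≤ w0 n) :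
    ∀ᶠ n in atTop, ∀ R, 2 ^ (n + kf ck y n) ≤ R →
      R ≤ 2 ^ (n + P.w (ε n) + kf ck y (n + P.w (ε n))) →
      ∀ (q s : ℕ) (μ w : V (sd i R) → ℝ), 0 < q → (∀ z, 0 ≤ μ z) → ∑ z, μ z = 1 → Wts w s →
      ∀ j < nC i n (kf ck y n) R, ∀ i' ≤ nC i n (kf ck y n) R * nC i n (kf ck y n) R,
        H37.qf (H963.Anm (sd i R) b (tn n))
          (H1 (sd i R) (nC i n (kf ck y n) R) (lC n (kf ck y n)) (tT (sd i R) q)
            (U (30 * lR n R) (lR n R)) μ w 0 (R • e1)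
            (gC i n (n + P.w (ε n) + kf ck y (n + P.w (ε n))) R) j i') ≤ x1 ∧
        RT (sd i R) b (tn n) ((4 : ℝ) •
          H1 (sd i R) (nC i n (kf ck y n) R) (lC n (kf ck y n)) (tT (sd i R) q)
            (U (30 * lR n R) (lR n R)) μ w 0 (R • e1)
            (gC i n (n + P.w (ε n) + kf ck y (n + P.w (ε n))) R) j i') ≤
          L n / 2 + x1 * w0 n := by
  set x0 : ℝ := min (x1 / 33280000000000) (1 / (66560000000000 * κ)) with hx0d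
  have hx0 : 0 < x0 := lt_min (by positivity) (by positivity)
  filter_upwards [prm_flow hA hσ0 hσ h hck hck1 hth i hi hx0, hS] with n hP hS'
  intro R h1 h2 q s μ w hq hμ hμ1 hw j hj i' hi'
  obtain ⟨H, hFL, ha2, hη1, hX⟩ := hP R h1 h2
  obtain ⟨hG1, hS2⟩ := hS'
  obtain ⟨lc, hne, Y, ρ, p, p', jj, kk, hT, hρ, g1, g2, g3⟩ := hS2 R h1 h2
  have ht : 0 < tn n := by unfold H972.tn; positivity
  have hN : sd i R = nC i n (kf ck y n) R * lC n (kf ck y n) := sd_nC h1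
  have hl : 0 < lC n (kf ck y n) := by unfold H145.Sp.lC; positivity
  have hX1 : s0 ^ 2 * ((lR n R : ℝ) / R) ^ 2 ≤ x1 / 33280000000000 := hX.trans (min_le_left _ _)
  have hX2 : s0 ^ 2 * ((lR n R : ℝ) / R) ^ 2 ≤ 1 / (66560000000000 * κ) :=
    hX.trans (min_le_right _ _)
  constructor
  · have k1 := ha_H1 H hq hN hl hw hμ hμ1 0 (R • e1) hb ht hFL ha2 hη1 j hj i' hi'
    refine le_trans (b := 780000000000 * (s0 ^ 2 * ((lR n R : ℝ) / R) ^ 2)) k1 ?_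
    linarith
  · have hz : 4160000000000 * (4 : ℝ) ^ 2 * κ * (s0 ^ 2 * ((lR n R : ℝ) / R) ^ 2) ≤ 4 ^ jj := by
      rw [le_div_iff₀ (by positivity)] at hX2
      have : 4160000000000 * (4 : ℝ) ^ 2 * κ * (s0 ^ 2 * ((lR n R : ℝ) / R) ^ 2) =
          s0 ^ 2 * ((lR n R : ℝ) / R) ^ 2 * (66560000000000 * κ) := by ring
      rw [this]
      linarith
    have k1 := rf_H1 H hq hN hl hw hμ hμ1 0 (R • e1) hb ht hT hz j hj i' hi'
    rw [H446.Pr.RT_RF hb ht]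
    refine le_trans (b := lvS ρ jj kk / 2 + 2080000000000 * (4 : ℝ) ^ 2 * tn n * (lc : ℝ) ^ 2 *
        (s0 ^ 2 * ((lR n R : ℝ) / R) ^ 2)) k1 ?_
    have k2 : 0 ≤ tn n * (lc : ℝ) ^ 2 := by positivity
    have k3 : 2080000000000 * (4 : ℝ) ^ 2 * tn n * (lc : ℝ) ^ 2 *
        (s0 ^ 2 * ((lR n R : ℝ) / R) ^ 2) =
        33280000000000 * (s0 ^ 2 * ((lR n R : ℝ) / R) ^ 2) * (tn n * (lc : ℝ) ^ 2) := by ring
    have k4 : 33280000000000 * (s0 ^ 2 * ((lR n R : ℝ) / R) ^ 2) ≤ x1 := by linarith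
    have k5 : 33280000000000 * (s0 ^ 2 * ((lR n R : ℝ) / R) ^ 2) * (tn n * (lc : ℝ) ^ 2) ≤
        x1 * w0 n := mul_le_mul k4 g3 k2 hx1.le
    rw [k3]
    linarith

end flow

end

end Vale.Agent.P159.H859.Gn
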