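import Vale.Agent.P159.H883.E4r
import Vale.Agent.P159.H859.Gn6

/-!
P159 / CUT (helper859): the number e4 of the nodes (helper883's `e4_lvl`) along the flow.
-/

open Finset MeasureTheory Filter Topology

set_option linter.unusedSectionVars false

namespace Vale.Agent.P159.H859.Gn

open Vale.Agent.P159.TM.Spec (V)
open Vale.Agent.P159.H817 (gr nrm GB sz e1 U gr_eq dv)
open Vale.Agent.P159.H191 (Wts nd BT)
open Vale.Agent.P159.H663.Dr (tT kT)
open Vale.Agent.P159.H859.Idl (gsR gsR_spec Prm s0 s0_pos)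
open Vale.Agent.P159.H972 (FL Par tn lg)
open Vale.Agent.P159.H446.Pr (Y1 nC)
open Vale.Agent.P159.H773 (sd nuF)
open Vale.Agent.P159.H801 (SFlow)
open Vale.Agent.P159.H37.Sf (kf lb_tend sf_eps)
open Vale.Agent.P159.H145.Sp (lR lC gC muK)
open Vale.Agent.P159.H770.Sti (lvn_flow Lvn deg_small)
open Vale.Agent.P159.H764.Ctg (Cc Cc_pos)
open Vale.Agent.P159.H883e (lx lx_ge ev_lx ev_lxp cB cT cA cB_nonneg e4_lvl)

noncomputable section

lemma two_mul_le_pow (m : ℕ) : 2 * m ≤ 2 ^ m := by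
  induction m with
  | zero => norm_num
  | succ m ih =>
    rcases Nat.eq_zero_or_pos m with h | h
    · subst h
      norm_num
    · have : 2 ≤ 2 ^ m := by
        calc 2 = 2 ^ 1 := rfl
          _ ≤ 2 ^ m := Nat.pow_le_pow_right (by norm_num) h
      rw [pow_succ]
      omega

/-- the power of two of the window -/
lemma pow16 {y ck : ℝ} (hy : 0 < y) (hy1 : y ≤ 1) (hck : 0 < ck) :
    (2 : ℝ) ^ (lg ck y / 16) ≤ 2 * y ^ (-(ck / 16)) ∧
      y ^ (-(ck / 16)) ≤ 2 * (2 : ℝ) ^ (lg ck y / 16) := by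
  have hl : 0 ≤ Real.logb 2 (1 / y) :=
    Real.logb_nonneg one_lt_two (by rw [le_div_iff₀ hy]; linarith)
  have h1 : (lg ck y : ℝ) ≤ ck * Real.logb 2 (1 / y) + 1 :=
    (Nat.ceil_lt_add_one (mul_nonneg hck.le hl)).le
  have h1' : ck * Real.logb 2 (1 / y) ≤ (lg ck y : ℝ) := Nat.le_ceil _
  have h2 : (2 : ℝ) ^ (ck / 16 * Real.logb 2 (1 / y)) = y ^ (-(ck / 16)) := by
    rw [mul_comm, Real.rpow_mul two_pos.le, Real.rpow_logb two_pos (by norm_num) (by positivity),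
      one_div, Real.inv_rpow hy.le, Real.rpow_neg hy.le]
  have h3 : (2 : ℝ) ^ (lg ck y / 16) = 2 ^ (((lg ck y / 16 : ℕ) : ℝ)) :=
    (Real.rpow_natCast _ _).symm
  constructor
  · have h4 : ((lg ck y / 16 : ℕ) : ℝ) ≤ 1 + ck / 16 * Real.logb 2 (1 / y) := by
      have h5 : 16 * ((lg ck y / 16 : ℕ) : ℝ) ≤ lg ck y := by
        have : 16 * (lg ck y / 16) ≤ lg ck y := by omega
        exact_mod_cast this
      linarith
    calc (2 : ℝ) ^ (lg ck y / 16) = 2 ^ (((lg ck y / 16 : ℕ) : ℝ)) := h3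
      _ ≤ 2 ^ (1 + ck / 16 * Real.logb 2 (1 / y)) :=
          Real.rpow_le_rpow_of_exponent_le one_lt_two.le h4
      _ = 2 * y ^ (-(ck / 16)) := by rw [Real.rpow_add two_pos, Real.rpow_one, h2]
  · have h4 : ck / 16 * Real.logb 2 (1 / y) ≤ 1 + ((lg ck y / 16 : ℕ) : ℝ) := by
      have h5 : (lg ck y : ℝ) ≤ 16 * ((lg ck y / 16 : ℕ) : ℝ) + 16 := by
        have : lg ck y ≤ 16 * (lg ck y / 16) + 16 := by omega
        exact_mod_cast this
      linarith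
    calc y ^ (-(ck / 16)) = 2 ^ (ck / 16 * Real.logb 2 (1 / y)) := h2.symm
      _ ≤ 2 ^ (1 + ((lg ck y / 16 : ℕ) : ℝ)) :=
          Real.rpow_le_rpow_of_exponent_le one_lt_two.le h4
      _ = 2 * (2 : ℝ) ^ (lg ck y / 16) := by rw [Real.rpow_add two_pos, Real.rpow_one, h3]

/-- the final number -/
lemma fin_num {y v s1 cs cz ck C0 b η L : ℝ} (hy : 0 < y) (hb : 0 < b) (hC : 0 ≤ C0)
    (hη0 : 0 ≤ η) (hη : η ≤ 17 * y ^ s1) (hL0 : 0 ≤ L) (hL : L ≤ 2 * y ^ (-(ck / 16)))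
    (hx0 : 0 ≤ lx y)
    (hn : 68 * (5 + b) * √C0 * lx y ^ 2 * y ^ (s1 - 3 * cs / 2 - cz - ck / 16) ≤ y ^ v) :
    2 * η * (5 + b) * √(C0 * (lx y ^ 4 * (y ^ (-cs)) ^ 3 * (y ^ (-cz)) ^ 2 * L ^ 2)) ≤ y ^ v := by
  have Py : ∀ a : ℝ, 0 < y ^ a := fun a => Real.rpow_pos_of_pos hy a
  set U : ℝ := lx y ^ 2 * y ^ (-(3 * cs / 2)) * y ^ (-cz) * (2 * y ^ (-(ck / 16))) with hU
  have p1 : (y ^ (-cs)) ^ 3 = (y ^ (-(3 * cs / 2))) ^ 2 := by
    rw [← Real.rpow_natCast, ← Real.rpow_natCast, ← Real.rpow_mul hy.le, ← Real.rpow_mul hy.le]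
    congr 1
    push_cast
    ring
  have hU0 : 0 ≤ U := by
    have := Py (-(3 * cs / 2))
    have := Py (-cz)
    have := Py (-(ck / 16))
    positivity
  have h1 : lx y ^ 4 * (y ^ (-cs)) ^ 3 * (y ^ (-cz)) ^ 2 * L ^ 2 ≤ U ^ 2 := by
    have h2 : L ^ 2 ≤ (2 * y ^ (-(ck / 16))) ^ 2 := pow_le_pow_left₀ hL0 hL 2
    have h3 : 0 ≤ lx y ^ 4 * (y ^ (-cs)) ^ 3 * (y ^ (-cz)) ^ 2 := by
      have := Py (-cs)
      have := Py (-cz)
      positivity
    refine (mul_le_mul_of_nonneg_left h2 h3).trans (le_of_eq ?_)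
    rw [p1, hU]
    ring
  have h4 : √(C0 * (lx y ^ 4 * (y ^ (-cs)) ^ 3 * (y ^ (-cz)) ^ 2 * L ^ 2)) ≤ √C0 * U := by
    calc √(C0 * (lx y ^ 4 * (y ^ (-cs)) ^ 3 * (y ^ (-cz)) ^ 2 * L ^ 2))
        ≤ √(C0 * U ^ 2) := Real.sqrt_le_sqrt (mul_le_mul_of_nonneg_left h1 hC)
      _ = √C0 * U := by rw [Real.sqrt_mul hC, Real.sqrt_sq hU0]
  have h5 : 2 * η * (5 + b) ≤ 2 * (17 * y ^ s1) * (5 + b) := by
    have : 0 < 5 + b := by linarith
    nlinarith
  have h6 : 0 ≤ 2 * (17 * y ^ s1) * (5 + b) := by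
    have := Py s1
    positivity
  refine le_trans (mul_le_mul h5 h4 (Real.sqrt_nonneg _) h6) (le_trans (le_of_eq ?_) hn)
  have h7 : y ^ (s1 - 3 * cs / 2 - cz - ck / 16) =
      y ^ s1 * y ^ (-(3 * cs / 2)) * y ^ (-cz) * y ^ (-(ck / 16)) := by
    rw [← Real.rpow_add hy, ← Real.rpow_add hy, ← Real.rpow_add hy]
    have e : s1 - 3 * cs / 2 - cz - ck / 16 =
        s1 + -(3 * cs / 2) + -cz + -(ck / 16) := by ring
    rw [e]
  rw [h7, hU]
  ring

section flow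

variable {P : Par} {b σ c c1 q2 qx : ℝ} {a y ε xs : ℕ → ℝ} {c' r q A : ℝ} {N : ℕ}

/-- `1 / y_n ≤ K n` -/
lemma yn1 (h : SFlow P b σ c c1 q2 qx a y ε xs c' r q A N) :
    ∃ K : ℝ, 0 < K ∧ ∀ᶠ n : ℕ in atTop, 1 / y n ≤ K * n := by
  have h1 := h.t3.ny.eventually (gt_mem_nhds (lt_add_one (Real.sqrt (H264.kap * A))))
  have h0 := Real.sqrt_nonneg (H264.kap * A)
  refine ⟨Real.sqrt (H264.kap * A) + 1, by linarith, ?_⟩
  filter_upwards [h1, eventually_gt_atTop 0] with n hn hn0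
  have hn' : (0 : ℝ) < n := by exact_mod_cast hn0
  rw [inv_mul_lt_iff₀ hn'] at hn
  linarith

lemma y_tend (h : SFlow P b σ c c1 q2 qx a y ε xs c' r q A N) : Tendsto y atTop (𝓝[>] 0) :=
  tendsto_nhdsWithin_iff.2 ⟨h.fl.yt, Eventually.of_forall h.fl.y0⟩

/-- **the level against the cells** -/
lemma cells_flow (h : SFlow P b σ c c1 q2 qx a y ε xs c' r q A N) {cs cz M : ℝ}
    (hcs : 0 < cs) (hcz : 0 < cz) (h1 : 3 * cs + cz < 1) {sc : ℕ → ℕ}
    (hsc : ∀ᶠ n in atTop, sc n ≤ n ∧ (sc n : ℝ) ≤ y n ^ (-cs) + 1) :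
    ∀ᶠ n in atTop, M * (lx (y n) ^ 3 * (y n ^ (-cs)) ^ 3 * y n ^ (-cz)) ≤ 2 ^ (n - sc n) := by
  obtain ⟨K, hK, hKn⟩ := yn1 h
  have e1 := (y_tend h).eventually (ev_lxp (K * M) 3 (s := -(3 * cs + cz)) (v := -1)
    (by linarith))
  have e2 := (y_tend h).eventually (ev_lxp (K * 4) 0 (s := -cs) (v := -1) (by linarith))
  filter_upwards [hKn, e1, e2, hsc, eventually_ge_atTop N] with n g1 g2 g3 g4 hN
  have hy := h.fl.y0 n
  have hy1 := h.y1 n hN
  have g5 : y n ^ (-1 : ℝ) = 1 / y n := by rw [Real.rpow_neg hy.le, Real.rpow_one, one_div]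
  rw [g5] at g2 g3
  have hS1 : 1 ≤ y n ^ (-cs) := Real.one_le_rpow_of_pos_of_le_one_of_nonpos hy hy1 (by linarith)
  have k1 : M * (lx (y n) ^ 3 * (y n ^ (-cs)) ^ 3 * y n ^ (-cz)) ≤ n := by
    have p1 : (y n ^ (-cs)) ^ 3 * y n ^ (-cz) = y n ^ (-(3 * cs + cz)) := by
      rw [← Real.rpow_natCast, ← Real.rpow_mul hy.le, ← Real.rpow_add hy]
      congr 1
      push_cast
      ring
    have p2 : K * (M * (lx (y n) ^ 3 * (y n ^ (-cs)) ^ 3 * y n ^ (-cz))) ≤ K * n := by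
      refine le_trans (le_of_eq ?_) (g2.trans g1)
      rw [← p1]
      ring
    exact le_of_mul_le_mul_left p2 hK
  have k2 : 4 * y n ^ (-cs) ≤ n := by
    have p2 : K * (4 * y n ^ (-cs)) ≤ K * n := by
      refine le_trans (le_of_eq ?_) (g3.trans g1)
      rw [pow_zero]
      ring
    exact le_of_mul_le_mul_left p2 hK
  have k3 : n ≤ 2 * (n - sc n) := by
    have p3 : (2 : ℝ) * sc n ≤ n := by linarith [g4.2]
    have p4 : 2 * sc n ≤ n := by exact_mod_cast p3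
    omega
  have k4 : (n : ℝ) ≤ 2 ^ (n - sc n) := by exact_mod_cast k3.trans (two_mul_le_pow _)
  exact k1.trans k4

/-- **e4 along the flow** -/
theorem e4_flow (hb : 0 < b) (hA : P.Adm) (hσ0 : 0 ≤ σ) (hσ : σ ≤ 1 / 4)
    (h : SFlow P b σ c c1 q2 qx a y ε xs c' r q A N) {ck : ℝ} (hck : 0 < ck)
    (hck1 : ck ≤ P.thp) (hth : 2 * P.th ≤ ck) (i : ℕ) (hi : 6 ≤ i) {cs cz v : ℝ}
    (hcs : 0 < cs) (hcz : 0 < cz) (h1 : 3 * cs + cz < 1)
    (hv : v < (2 - 3 * σ) * P.pf - 3 * cs / 2 - cz - ck / 16) {sc : ℕ → ℕ}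
    (hsc : ∀ᶠ n in atTop, sc n ≤ n ∧ (sc n : ℝ) ≤ y n ^ (-cs) + 1) :
    ∀ᶠ n in atTop, ∀ R, 2 ^ (n + kf ck y n) ≤ R →
      R ≤ 2 ^ (n + P.w (ε n) + kf ck y (n + P.w (ε n))) →
      ∀ {w : V (sd i R) → ℝ}, Wts w (2 ^ n) → ∀ p p' : V (sd i R),
      ∃ G : Set (V (sd i R) → ℝ), MeasurableSet G ∧
        (nuF b (sd i) (tn n) R).real Gᶜ ≤ Real.exp (-(6 * y n ^ (-cz))) ∧
        ∀ F ∈ G, ∀ j, ∀ i' < nC i n (kf ck y n) R * nC i n (kf ck y n) R,
          ∀ v' : V (sd i R) → ℝ,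
          (∀ x, sz (x - nd (sd i R) (nC i n (kf ck y n) R) (lC n (kf ck y n)) i') <
            3 * (2 * lC n (kf ck y n)) → dv (gr v') x = 0) → nrm (gr v') ≤ 3528 * Cc ^ 2 →
          |BT (sd i R) b (tn n) (Y1 (sd i R) (nC i n (kf ck y n) R) (lC n (kf ck y n))
              (U (30 * lR n R) (lR n R))
              (muK (sd i R) (lC n (kf ck y n)) (kT (lC n (kf ck y n) / 4))) w p p'
              (tT (sd i R) (2 ^ (n - sc n))
                (F + gC i n (n + P.w (ε n) + kf ck y (n + P.w (ε n))) R))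
              (gC i n (n + P.w (ε n) + kf ck y (n + P.w (ε n))) R) j i' -
            Y1 (sd i R) (nC i n (kf ck y n) R) (lC n (kf ck y n)) (U (30 * lR n R) (lR n R))
              (muK (sd i R) (lC n (kf ck y n)) (kT (lC n (kf ck y n) / 4))) w p p'
              (tT (sd i R) (2 ^ (n - sc n))
                (F + gC i n (n + P.w (ε n) + kf ck y (n + P.w (ε n))) R))
              (gC i n (n + P.w (ε n) + kf ck y (n + P.w (ε n))) R) j (i' + 1)) v'| ≤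
            y n ^ v := by
  have hs0 := s0_pos
  obtain ⟨hpf0, hpf1⟩ : 0 < P.pf ∧ P.pf ≤ 1 := ⟨hA.pf0, hA.pf1⟩
  set C0 : ℝ := cT b (i + 10) (37 * s0) (656 * s0) * (3528 * Cc ^ 2) with hC0d
  have hC0 : 0 ≤ C0 := by
    have hcB := cB_nonneg (D := (i : ℝ) + 10) hb (by positivity)
    have : 0 ≤ cA b ((i : ℝ) + 10) := by
      unfold H883e.cA
      positivity
    rw [hC0d]
    unfold H883e.cT
    positivity
  obtain ⟨E0, hE0, hE01, hdeg⟩ := deg_small (c' := ck / 64) (by positivity)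
  have e1 := cells_flow h hcs hcz h1 (M := 1 + cB b (i + 10)) hsc
  have e2 := (y_tend h).eventually (ev_lxp (68 * (5 + b) * √C0) 2 hv)
  have e3 : ∀ᶠ n in atTop, y n ^ cz ≤ 1 / 14 := h.fl.ev_pow hcz (by norm_num)
  have e4 : ∀ᶠ n in atTop, y n ^ (2 : ℝ) ≤ E0 := h.fl.ev_pow (by norm_num) hE0
  have e5 : ∀ᶠ n in atTop, y n ^ (ck / 32) ≤ 1 / 2 := h.fl.ev_pow (by positivity) (by norm_num)
  have e6 := (lb_tend h.fl.y0 h.fl.yt).eventually_ge_atTop (32 / ck)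
  filter_upwards [lvn_flow hA hσ0 hσ h hck hck1 hth i hi,
    prm_flow hA hσ0 hσ h hck hck1 hth i hi (x0 := 1) one_pos, e1, e2, e3, e4, e5, e6, hsc,
    eventually_ge_atTop (max N 2)] with n hL hP g1 g2 g3 g4 g5 g6 g7 hn
  intro R hR1 hR2 w hw p p'
  have hN : N ≤ n := (le_max_left _ _).trans hn
  have hn2 : 2 ≤ n := (le_max_right _ _).trans hn
  obtain ⟨Hp, hFL, ha2, hη1, -⟩ := hP R hR1 hR2
  have hyn := h.fl.y0 n
  have hy1 := h.y1 n hN
  have hε := sf_eps h hN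
  have hε1 : ε n ≤ 1 := (h.es n hN).trans (P.es1.trans (by norm_num))
  have Py : ∀ a : ℝ, 0 < y n ^ a := fun a => Real.rpow_pos_of_pos hyn a
  have hx := lx_ge hyn hy1
  have hS1 : 1 ≤ y n ^ (-cs) := Real.one_le_rpow_of_pos_of_le_one_of_nonpos hyn hy1 (by linarith)
  have hZ14 : 14 ≤ y n ^ (-cz) := by
    rw [Real.rpow_neg hyn.le]
    have := inv_anti₀ (Py cz) g3
    linarith
  have hZe : 14 ≤ Real.exp (y n ^ (-cz)) := by
    have := Real.add_one_le_exp (y n ^ (-cz))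
    linarith
  -- the exponents
  have hcl : n + kf ck y n ≤ Nat.clog 2 R := H446.Pr.clog_ge hR1
  have hcl2 : Nat.clog 2 R ≤ n + P.w (ε n) + kf ck y (n + P.w (ε n)) := Nat.clog_le_of_le_pow hR2
  have hw4 := hL.hw
  have hw2 := hL.w1
  have hw3 : (P.w (ε n) : ℝ) ≤ 2 * lx (y n) := hw2
  have hsS : (sc n : ℝ) ≤ 2 * y n ^ (-cs) := by linarith [g7.2]
  have hkk : ((i + Nat.clog 2 R - n + sc n : ℕ) : ℝ) ≤ ((i : ℝ) + 10) * (lx (y n) * y n ^ (-cs)) := by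
    have k1 : i + Nat.clog 2 R - n + sc n ≤ i + 4 * P.w (ε n) + sc n := by omega
    have k2 : ((i + Nat.clog 2 R - n + sc n : ℕ) : ℝ) ≤ i + 4 * P.w (ε n) + sc n := by
      exact_mod_cast k1
    have k3 : lx (y n) ≤ lx (y n) * y n ^ (-cs) := le_mul_of_one_le_right (by linarith) hS1
    have k4 : y n ^ (-cs) ≤ lx (y n) * y n ^ (-cs) := le_mul_of_one_le_left (by linarith) hx
    have k5 : (i : ℝ) ≤ i * (lx (y n) * y n ^ (-cs)) :=
      le_mul_of_one_le_right (by positivity) (by linarith)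
    linarith
  have hKK : ((i + Nat.clog 2 R - (n + kf ck y n / 16) + 2 : ℕ) : ℝ) ≤
      ((i : ℝ) + 10) * lx (y n) := by
    have k1 : i + Nat.clog 2 R - (n + kf ck y n / 16) + 2 ≤ i + 4 * P.w (ε n) + 2 := by omega
    have k2 : ((i + Nat.clog 2 R - (n + kf ck y n / 16) + 2 : ℕ) : ℝ) ≤
        i + 4 * P.w (ε n) + 2 := by exact_mod_cast k1
    have k5 : (i : ℝ) ≤ i * lx (y n) := le_mul_of_one_le_right (by positivity) hx
    linarith
  -- the degree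
  obtain ⟨hL1, hL2⟩ := pow16 hyn hy1 hck
  have heη : y n ^ (2 : ℝ) ≤ 17 * ε n ^ P.pf := by
    have k1 : ε n ≤ ε n ^ P.pf := by
      have := Real.rpow_le_rpow_of_exponent_ge hε hε1 hpf1
      rwa [Real.rpow_one] at this
    have k2 : y n ^ (2 : ℝ) ≤ ε n :=
      (Real.rpow_le_rpow_of_exponent_ge hyn hy1 (by linarith)).trans (h.lo n hN)
    linarith
  have hm2 : 2 ≤ kf ck y n / 16 := by
    have k1 : ck * Real.logb 2 (1 / y n) ≤ (kf ck y n : ℝ) := Nat.le_ceil _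
    rw [div_le_iff₀ hck] at g6
    have k2 : 32 ≤ kf ck y n := by
      have : ((32 : ℕ) : ℝ) ≤ kf ck y n := by
        push_cast
        linarith
      exact_mod_cast this
    omega
  have hde : ⌈4 * Real.log (4 / (2 * (17 * ε n ^ P.pf)))⌉₊ + 3 ≤ 4 * 2 ^ (kf ck y n / 16) := by
    have k1 := hdeg (y n ^ (2 : ℝ)) (17 * ε n ^ P.pf) (Py 2) g4 heη (kf ck y n / 16) hm2 (by
      rw [← Real.rpow_mul hyn.le]
      have k2 : y n ^ ((2 : ℝ) * -(ck / 64)) = y n ^ (-(ck / 16)) * y n ^ (ck / 32) := by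
        rw [← Real.rpow_add hyn]
        congr 1
        ring
      rw [k2]
      have k3 : y n ^ (-(ck / 16)) * y n ^ (ck / 32) ≤ 2 * 2 ^ (kf ck y n / 16) * (1 / 2) :=
        mul_le_mul hL2 g5 (Py _).le (by positivity)
      linarith)
    have k4 : 2 ^ (3 * (kf ck y n / 16) / 4) ≤ 2 ^ (kf ck y n / 16) :=
      Nat.pow_le_pow_right (by norm_num) (by omega)
    omega
  -- the ideal correction
  have hG := gsR_spec Hp
  have hlC : 0 < lC n (kf ck y n) := by unfold H145.Sp.lC; positivity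
  have hlR := H446.Pr.lC_le hR1
  have hRl : lR n R ≤ R := by
    have := Hp.hlr
    omega
  have hR0 : (0 : ℝ) < R := by
    have : 0 < R := by omega
    exact_mod_cast this
  have hlC0 : (0 : ℝ) < lC n (kf ck y n) := by exact_mod_cast hlC
  have gg : GB (37 * s0 / (lC n (kf ck y n) : ℝ))
      (gC i n (n + P.w (ε n) + kf ck y (n + P.w (ε n))) R) := by
    refine GB.mono hG.gb ?_
    refine div_le_div_of_nonneg_left (by positivity) hlC0 ?_
    exact_mod_cast hlR.trans hRl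
  have hgo : ∀ x x' : V (sd i R), |gC i n (n + P.w (ε n) + kf ck y (n + P.w (ε n))) R x -
      gC i n (n + P.w (ε n) + kf ck y (n + P.w (ε n))) R x'| ≤ 656 * s0 := by
    intro x x'
    have k1 := hG.le x
    have k2 := hG.le x'
    have k3 : (lR n R : ℝ) / R ≤ 1 := by
      rw [div_le_one hR0]
      exact_mod_cast hRl
    have k4 : 328 * s0 * ((lR n R : ℝ) / R) ≤ 328 * s0 :=
      mul_le_of_le_one_right (by positivity) k3
    have k5 := k1.trans k4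
    have k6 := k2.trans k4
    unfold H145.Sp.gC
    exact (abs_sub _ _).trans (by linarith)
  obtain ⟨G, hGm, hGp, hGF⟩ := e4_lvl (D := (i : ℝ) + 10) hb hn2 hR1 hL.ha ha2 hL.hη0 hL.hη1 hFL
    g7.1 hx hS1 (by linarith : 1 ≤ y n ^ (-cz)) (by positivity) hkk hKK hsS g1 hZe hde hw p p'
    gg hgo
  refine ⟨G, hGm, hGp, fun F hF j i' hi' v' hd hnv => ?_⟩
  refine (hGF F hF j i' hi' v' hd hnv).trans ?_
  have hfin := fin_num (L := (2 : ℝ) ^ (kf ck y n / 16)) hyn hb hC0 hL.hη0.le hL.hη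
    (by positivity) hL1 (by linarith) g2
  refine le_trans (le_of_eq ?_) hfin
  congr 2
  rw [hC0d]
  ring

end flow

end

end Vale.Agent.P159.H859.Gn
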