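import Vale.Agent.P159.H513.E2
import Vale.Agent.P159.H789.Ray
import Vale.Agent.P159.H340.Kl0
import Vale.Agent.P159.H864.Cel1
import Vale.Agent.P159.H859.Nbx

/-!
P159 / module WCOV (helper859), file 3: the quadratic form of `E2`, and the bare domination
`Gm ≤ (M + κ (-Δ))⁻¹` for every coercive mass form `M` and every `κ ≤ 1 / b`.
-/

set_option linter.unusedSectionVars false

namespace Vale.Agent.P159.H859

open Finset Matrix
open Vale.Agent.P159.TM.H764 (Gh cN sN dt EE grd Q nrm bx)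
open Vale.Agent.P159.TM.Spec (V)
open Vale.Agent.P159.TM.SpecC (Tor wT)
open Vale.Agent.P159.H37
open Vale.Agent.P159.H513 (dvT nC nK oK eE2 st EB)
open Vale.Agent.P159.H864

noncomputable section

section blocks

variable {N l n : ℕ} [NeZero N] {b : ℝ}

lemma dvT_smul (δ : ℝ) (c : Tor N → Bool → ℝ) (x : Tor N) :
    dvT (fun x t => δ * c x t) x = δ * dvT c x := by
  unfold dvT
  ring

lemma nC_smul (δ : ℝ) (c : Tor N → Bool → ℝ) : nC (fun x t => δ * c x t) = δ ^ 2 * nC c := by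
  unfold nC
  rw [Finset.mul_sum]
  exact Finset.sum_congr rfl fun x _ => by ring

lemma nK_smul (δ : ℝ) (c : Tor N → Bool → ℝ) (k : Fin n × Fin n) :
    nK N l n (fun x t => δ * c x t) k = δ ^ 2 * nK N l n c k := by
  unfold nK
  rw [Finset.mul_sum]
  exact Finset.sum_congr rfl fun x _ => by ring

lemma mK_smul (δ : ℝ) (c : Tor N → Bool → ℝ) (k : Fin n × Fin n) (t : Bool) :
    H513.mK N l n (fun x t => δ * c x t) k t = δ * H513.mK N l n c k t := by
  unfold H513.mK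
  rw [← Finset.mul_sum, mul_div_assoc]

lemma oK_smul (δ : ℝ) (c : Tor N → Bool → ℝ) (k : Fin n × Fin n) :
    oK N l n (fun x t => δ * c x t) k = δ ^ 2 * oK N l n c k := by
  unfold oK
  rw [Finset.mul_sum]
  refine Finset.sum_congr rfl fun x _ => ?_
  rw [mK_smul, mK_smul]
  ring

lemma scal {δ η L g q S nc b' s2 m s4 : ℝ} (hδ : 0 < δ)
    (h1 : L ≤ δ ^ 2 * q / 2 + ((1 + η) / 2 * (S * (δ ^ 2 * nc)) +
      (1 + 1 / η) / 2 * (b' * (δ ^ 2 * s2)) + 3 * m ^ 2 * (δ ^ 4 * s4)))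
    (h2 : 0 ≤ L - δ ^ 2 * g / 2) :
    g ≤ q + (1 + η) * (S * nc) + (1 + 1 / η) * (b' * s2) + δ ^ 2 * (2 * (3 * m ^ 2 * s4)) := by
  have h3 : δ ^ 2 * g ≤ δ ^ 2 * (q + (1 + η) * (S * nc) + (1 + 1 / η) * (b' * s2) +
      δ ^ 2 * (2 * (3 * m ^ 2 * s4))) := by
    have e3 : δ ^ 2 * (q + (1 + η) * (S * nc) + (1 + 1 / η) * (b' * s2) +
        δ ^ 2 * (2 * (3 * m ^ 2 * s4))) = 2 * (δ ^ 2 * q / 2 + ((1 + η) / 2 * (S * (δ ^ 2 * nc)) +
      (1 + 1 / η) / 2 * (b' * (δ ^ 2 * s2)) + 3 * m ^ 2 * (δ ^ 4 * s4))) := by ring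
    rw [e3]
    linarith
  exact le_of_mul_le_mul_left h3 (by positivity)

/-- **quadratic form of E2**: `J = M w + div c` -/
theorem gm_blocks (hN : N = n * l) (hb : 0 ≤ b) (hl : 1 ≤ l) {M : Matrix (Tor N) (Tor N) ℝ}
    (hMs : Mᵀ = M) {m0 : ℝ} (hm0 : 0 < m0) (hM : ∀ u : Tor N → ℝ, m0 * ∑ x, u x ^ 2 ≤ qf M u)
    (J w : Tor N → ℝ) (c : Tor N → Bool → ℝ)
    (hJ : ∀ x, J x = (M *ᵥ w) x + dvT c x) {η : ℝ} (hη : 0 < η) :
    qf (Gm (wM (wT b N) M)) J ≤ qf M w + (1 + η) * (stiff l b * nC c) +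
      (1 + 1 / η) * (b * ∑ k, oK N l n c k) := by
  have hE := H789.em_wM_wT (N := N) hb hm0 hM
  have hK := H789.pk_wM_wT' (N := N) hb hm0 hM
  have he : Ev (wM (wT b N) M) := H789.ev_wM_wT M
  obtain ⟨K, hK1, hKc⟩ : ∃ K : ℝ, 1 ≤ K ∧ ∀ x t, |c x t| ≤ K := by
    refine ⟨1 + ∑ x, ∑ t, |c x t|, ?_, fun x t => ?_⟩
    · have : 0 ≤ ∑ x, ∑ t, |c x t| :=
        Finset.sum_nonneg fun x _ => Finset.sum_nonneg fun t _ => abs_nonneg _
      linarith
    · have h1 : |c x t| ≤ ∑ t, |c x t| :=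
        Finset.single_le_sum (f := fun t => |c x t|) (fun _ _ => abs_nonneg _) (Finset.mem_univ t)
      have h2 : ∑ t, |c x t| ≤ ∑ x, ∑ t, |c x t| :=
        Finset.single_le_sum (f := fun x => ∑ t, |c x t|)
          (fun _ _ => Finset.sum_nonneg fun _ _ => abs_nonneg _) (Finset.mem_univ x)
      linarith
  set B : ℝ := 3 * max b 1 ^ 2 * ∑ k, nK N l n c k ^ 2 with hB
  have hB0 : 0 ≤ B := by
    rw [hB]
    exact mul_nonneg (by positivity) (Finset.sum_nonneg fun k _ => by positivity)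
  refine le_of_forall_pos_le_add fun ε hε => ?_
  set δ : ℝ := min (1 / K) (ε / (2 * (B + 1))) with hδ
  have hδ0 : 0 < δ := lt_min (by positivity) (by positivity)
  have hδK : δ * K ≤ 1 := by
    have : δ ≤ 1 / K := min_le_left _ _
    rwa [le_div_iff₀ (by linarith)] at this
  have hδ1 : δ ≤ 1 := by nlinarith
  have hδB : δ * (2 * (B + 1)) ≤ ε := by
    have : δ ≤ ε / (2 * (B + 1)) := min_le_right _ _
    rwa [le_div_iff₀ (by positivity)] at this
  have h1 := H513.e2_Lg hN hb hl hMs hm0 hM (δ • J) (δ • w) (fun x t => δ * c x t)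
    (fun x t => by
      rw [abs_mul, abs_of_pos hδ0]
      exact (mul_le_mul_of_nonneg_left (hKc x t) hδ0.le).trans hδK)
    (fun x => by
      rw [dvT_smul, Pi.smul_apply, smul_eq_mul, hJ x, Matrix.mulVec_smul, Pi.smul_apply,
        smul_eq_mul]
      ring) hη
  have h2 := H789.Rs_nonneg hE he hK (δ • J)
  unfold Rs at h2
  rw [qf_smul] at h1 h2
  unfold eE2 at h1
  rw [nC_smul] at h1
  simp only [nK_smul, oK_smul] at h1
  have e1 : ∑ k, δ ^ 2 * oK N l n c k = δ ^ 2 * ∑ k, oK N l n c k := by rw [Finset.mul_sum]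
  have e2 : ∑ k, (δ ^ 2 * nK N l n c k) ^ 2 = δ ^ 4 * ∑ k, nK N l n c k ^ 2 := by
    rw [Finset.mul_sum]
    exact Finset.sum_congr rfl fun k _ => by ring
  rw [e1, e2] at h1
  have h4 := scal hδ0 h1 h2
  rw [← hB] at h4
  exact h4.trans (by
    have h6 : δ ^ 2 ≤ δ := by
      rw [pow_two]
      exact mul_le_of_le_one_right hδ0.le hδ1
    have h7 : δ ^ 2 * (2 * B) ≤ δ * (2 * B) := mul_le_mul_of_nonneg_right h6 (by positivity)
    have h8 : δ * (2 * B) ≤ δ * (2 * (B + 1)) :=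
      mul_le_mul_of_nonneg_left (by linarith) hδ0.le
    exact add_le_add le_rfl (h7.trans (h8.trans hδB)))

end blocks

variable {N : ℕ} [NeZero N] {b : ℝ}

lemma oK_one (c : Tor N → Bool → ℝ) (k : Fin N × Fin N) : oK N 1 N c k = 0 := by
  have hs : Fintype.card ↥(H950.blk (0, 0) 1) = 1 := by
    rw [Fintype.card_coe, H950.card_blk]
    simp
  obtain ⟨p0, hp0⟩ := Fintype.card_eq_one_iff.1 hs
  unfold oK H513.mK
  have h1 : ∀ f : ↥(H950.blk (0, 0) 1) → ℝ, ∑ p, f p = f p0 := by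
    intro f
    rw [Fintype.sum_eq_single p0 fun p hp => absurd (hp0 p) hp]
  rw [h1, h1, h1]
  simp

lemma stiff_one_le (hb : 0 ≤ b) : stiff 1 b ≤ b := by
  have h1 := H950.Qform_le muInf (fun _ : EB 1 => b) (H513.chB 1) (fun _ => hb)
    (fun e : EB 1 => if e.2 then (0 : ℝ) else 1)
  rw [H513.QB_const b 1 le_rfl] at h1
  have h2 : ∑ e : EB 1, b * (if e.2 then (0 : ℝ) else 1) ^ 2 = b := by
    rw [Fintype.sum_prod_type]
    simp [H950.card_blk]
  rw [h2] at h1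
  simpa using h1

/-- **bare form** -/
theorem gm_bare (hb : 0 ≤ b) {M : Matrix (Tor N) (Tor N) ℝ}
    (hMs : Mᵀ = M) {m0 : ℝ} (hm0 : 0 < m0) (hM : ∀ u : Tor N → ℝ, m0 * ∑ x, u x ^ 2 ≤ qf M u)
    (J w : Tor N → ℝ) (c : Tor N → Bool → ℝ)
    (hJ : ∀ x, J x = (M *ᵥ w) x + dvT c x) :
    qf (Gm (wM (wT b N) M)) J ≤ qf M w + b * nC c := by
  refine le_of_forall_pos_le_add fun ε hε => ?_
  have hS : stiff 1 b ≤ b := by
    exact stiff_one_le hb
  have hC := H513.nC_nonneg c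
  have h1 := gm_blocks (n := N) (l := 1) (by simp) hb le_rfl hMs hm0 hM J w c hJ
    (η := ε / (b * nC c + 1)) (by have := mul_nonneg hb hC; positivity)
  simp only [oK_one, Finset.sum_const_zero, mul_zero, add_zero] at h1
  have h2 : (1 + ε / (b * nC c + 1)) * (stiff 1 b * nC c) ≤
      (1 + ε / (b * nC c + 1)) * (b * nC c) := by
    have := mul_nonneg hb hC
    exact mul_le_mul_of_nonneg_left (mul_le_mul_of_nonneg_right hS hC) (by positivity)
  have h3 : ε / (b * nC c + 1) * (b * nC c) ≤ ε := by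
    have := mul_nonneg hb hC
    rw [div_mul_eq_mul_div, div_le_iff₀ (by positivity)]
    nlinarith
  linarith

/-- the edge field `κ grad w` -/
def ge (κ : ℝ) (w : V N → ℝ) (x : Tor N) (t : Bool) : ℝ :=
  if t then κ * (w (x + (1, 0)) - w x) else κ * (w (x + (0, 1)) - w x)

lemma dvT_ge (κ : ℝ) (w : V N → ℝ) (x : V N) : dvT (ge κ w) x = κ * (lapM *ᵥ w) x := by
  rw [H340.lapM_mulVec]
  unfold dvT ge
  simp only [if_true, Bool.false_eq_true, if_false, sub_add_cancel]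
  ring

lemma nC_ge (κ : ℝ) (w : V N → ℝ) : nC (ge κ w) = κ ^ 2 * grd w := by
  unfold nC ge grd Q
  rw [← Finset.sum_add_distrib, Finset.mul_sum]
  refine Finset.sum_congr rfl fun x _ => ?_
  simp only [if_true, Bool.false_eq_true, if_false]
  ring

lemma qf_of_mul {I : Type*} [Fintype I] [DecidableEq I] {A : Matrix I I ℝ} (hA : IsUnit A)
    (v : I → ℝ) : qf A (A⁻¹ *ᵥ v) = qf A⁻¹ v := by
  have hdet : IsUnit A.det := (Matrix.isUnit_iff_isUnit_det A).1 hA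
  rw [qf_eq, qf_eq, Matrix.mulVec_mulVec, Matrix.mul_nonsing_inv _ hdet, Matrix.one_mulVec,
    dotProduct_comm]

/-- **bare domination** -/
theorem gm_le_res (hb : 0 ≤ b) {M : Matrix (V N) (V N) ℝ}
    (hMs : Mᵀ = M) {m0 : ℝ} (hm0 : 0 < m0) (hM : ∀ u : V N → ℝ, m0 * ∑ x, u x ^ 2 ≤ qf M u)
    {κ : ℝ} (hκ : 0 ≤ κ) (hbκ : b * κ ≤ 1) (v : V N → ℝ) :
    qf (Gm (wM (wT b N) M)) v ≤ qf (M + κ • lapM)⁻¹ v := by
  set A : Matrix (V N) (V N) ℝ := M + κ • lapM with hA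
  have hA0 : ∀ u, m0 * ∑ x, u x ^ 2 ≤ qf A u := by
    intro u
    rw [hA, qf_add_mat, qf_smul_mat, qf_lapM]
    have := mul_nonneg hκ (grd_nonneg u)
    linarith [hM u]
  have hAs : Aᵀ = A := by
    rw [hA, transpose_add, transpose_smul, hMs, ti_lapM.transpose]
  have hAu : IsUnit A := by
    have h1 : (A - m0 • (1 : Matrix (V N) (V N) ℝ)).PosSemidef := by
      refine psd_of (by rw [transpose_sub, transpose_smul, transpose_one, hAs]) fun u => ?_
      have h2 := qf_add_mat (A - m0 • (1 : Matrix (V N) (V N) ℝ)) (m0 • 1) u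
      rw [sub_add_cancel, qf_smul_one] at h2
      linarith [hA0 u]
    have h3 := pd_add h1 hm0
    rw [add_comm, sub_add_cancel] at h3
    exact h3.isUnit
  set w : V N → ℝ := A⁻¹ *ᵥ v with hw
  have hdet : IsUnit A.det := (Matrix.isUnit_iff_isUnit_det A).1 hAu
  have h1 := gm_bare hb hMs hm0 hM v w (ge κ w) (fun x => by
    have : v = A *ᵥ w := by
      rw [hw, Matrix.mulVec_mulVec, Matrix.mul_nonsing_inv _ hdet, Matrix.one_mulVec]
    have h2 := congrFun this x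
    rw [h2, hA, Matrix.add_mulVec, Matrix.smul_mulVec, Pi.add_apply, Pi.smul_apply, smul_eq_mul,
      dvT_ge])
  rw [nC_ge] at h1
  have h3 : qf A w = qf A⁻¹ v := qf_of_mul hAu v
  rw [hA, qf_add_mat, qf_smul_mat, qf_lapM, ← hA] at h3
  have h4 : b * (κ ^ 2 * grd w) ≤ κ * grd w := by
    have := mul_nonneg hκ (grd_nonneg w)
    nlinarith
  linarith

end

end Vale.Agent.P159.H859
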