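import Vale.Agent.P159.H859.Cf3
import Vale.Agent.P159.H817.St13

/-!
P159 / CUT (helper859), numbers of the ideal correction, part 1: the Dirichlet energy of the partially
cut fields `YP θ H` (helper191) for a deterministic field `H`.
-/

open Finset

set_option linter.unusedSectionVars false

namespace Vale.Agent.P159.H859.Gn

open Vale.Agent.P159.TM.Spec (V)
open Vale.Agent.P159.H817 (gr nrm GB sz eb gr_eq gr_add gr_sub gr_neg gr_smul gr_mul gr_const U abs_U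
  U_nonneg U_le_one U_one U_zero U_GB sz_sub_comm nrm_local)
open Vale.Agent.P159.H191 (mn Wts chi a0 hp TP YP plp hps cst0 YP_eq)
open Vale.Agent.P159.H859.Cf (abs_mn)

noncomputable section

variable {N l : ℕ} [NeZero N]

/-! ### Dirichlet energies -/

lemma nrm_eq (f : V N → ℝ) : nrm (gr f) = ∑ b : Bool, ∑ x : V N, gr f (x, b) ^ 2 := by
  unfold nrm
  rw [Fintype.sum_prod_type, Finset.sum_comm]

lemma nrm_nonneg (f : V N → ℝ) : 0 ≤ nrm (gr f) := Finset.sum_nonneg fun _ _ => sq_nonneg _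

lemma nrm_mono_sum {f g h : V N → ℝ} {a c : ℝ} (hh : ∀ e, gr f e ^ 2 ≤ a * gr g e ^ 2 + c * gr h e ^ 2) :
    nrm (gr f) ≤ a * nrm (gr g) + c * nrm (gr h) := by
  unfold nrm
  rw [Finset.mul_sum, Finset.mul_sum, ← Finset.sum_add_distrib]
  exact Finset.sum_le_sum fun e _ => hh e

lemma nrm_add_le (f g : V N → ℝ) :
    nrm (gr fun x => f x + g x) ≤ 2 * nrm (gr f) + 2 * nrm (gr g) :=
  nrm_mono_sum fun e => by
    rw [gr_add]
    nlinarith [sq_nonneg (gr f e - gr g e)]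

lemma nrm_sub_le (f g : V N → ℝ) :
    nrm (gr fun x => f x - g x) ≤ 2 * nrm (gr f) + 2 * nrm (gr g) :=
  nrm_mono_sum fun e => by
    rw [gr_sub]
    nlinarith [sq_nonneg (gr f e + gr g e)]

lemma nrm_smul (c : ℝ) (f : V N → ℝ) : nrm (gr fun x => c * f x) = c ^ 2 * nrm (gr f) := by
  unfold nrm
  rw [Finset.mul_sum]
  exact Finset.sum_congr rfl fun e _ => by rw [gr_smul, mul_pow]

lemma nrm_sub_const (f : V N → ℝ) (c : ℝ) : nrm (gr fun x => f x - c) = nrm (gr f) := by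
  unfold nrm
  refine Finset.sum_congr rfl fun e _ => ?_
  have h := gr_sub f (fun _ => c) e
  rw [gr_const, sub_zero] at h
  rw [h]

lemma nrm_neg (f : V N → ℝ) : nrm (gr fun x => -f x) = nrm (gr f) := by
  unfold nrm
  exact Finset.sum_congr rfl fun e _ => by rw [gr_neg, neg_sq]

lemma nrm_shift (f : V N → ℝ) (a : V N) : nrm (gr fun x => f (x + a)) = nrm (gr f) := by
  rw [nrm_eq, nrm_eq]
  refine Finset.sum_congr rfl fun b _ => ?_
  rw [← Equiv.sum_comp (Equiv.addRight a) fun x => gr f (x, b) ^ 2]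
  refine Finset.sum_congr rfl fun x _ => ?_
  simp only [Equiv.coe_addRight, gr_eq]
  rw [add_right_comm]

lemma nrm_shift_sub (f : V N → ℝ) (a : V N) : nrm (gr fun x => f (x - a)) = nrm (gr f) := by
  have h := nrm_shift f (-a)
  simpa only [← sub_eq_add_neg] using h

lemma nrm_mul_le {χ f : V N → ℝ} {A B : ℝ} (hχ : ∀ x, |χ x| ≤ A) (hf : ∀ x, |f x| ≤ B) :
    nrm (gr fun x => χ x * f x) ≤ 2 * A ^ 2 * nrm (gr f) + 2 * B ^ 2 * nrm (gr χ) := by
  refine nrm_mono_sum fun e => ?_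
  obtain ⟨x, b⟩ := e
  have h1 : gr (fun x => χ x * f x) (x, b) = χ x * gr f (x, b) + gr χ (x, b) * f (x + eb b) := by
    simp only [gr_eq]
    ring
  rw [h1]
  have h2 : (χ x * gr f (x, b)) ^ 2 ≤ A ^ 2 * gr f (x, b) ^ 2 := by
    rw [mul_pow]
    exact mul_le_mul_of_nonneg_right (sq_le_sq' (abs_le.1 (hχ x)).1 (abs_le.1 (hχ x)).2)
      (sq_nonneg _)
  have h3 : (gr χ (x, b) * f (x + eb b)) ^ 2 ≤ B ^ 2 * gr χ (x, b) ^ 2 := by
    rw [mul_pow, mul_comm]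
    exact mul_le_mul_of_nonneg_right (sq_le_sq' (abs_le.1 (hf _)).1 (abs_le.1 (hf _)).2)
      (sq_nonneg _)
  nlinarith [sq_nonneg (χ x * gr f (x, b) - gr χ (x, b) * f (x + eb b))]

/-- weighted averages -/
lemma nrm_avg {ι : Type*} [Fintype ι] {w : ι → ℝ} (hw : ∀ i, 0 ≤ w i) (hw1 : ∑ i, w i = 1)
    (f : ι → V N → ℝ) {C : ℝ} (hf : ∀ i, nrm (gr (f i)) ≤ C) :
    nrm (gr fun x => ∑ i, w i * f i x) ≤ C := by
  have h1 : ∀ e, gr (fun x => ∑ i, w i * f i x) e = ∑ i, w i * gr (f i) e := by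
    rintro ⟨x, b⟩
    simp only [gr_eq]
    rw [← Finset.sum_sub_distrib]
    exact Finset.sum_congr rfl fun i _ => by ring
  have h2 : ∀ e, gr (fun x => ∑ i, w i * f i x) e ^ 2 ≤ ∑ i, w i * gr (f i) e ^ 2 := by
    intro e
    rw [h1]
    have h3 := (even_two.convexOn_pow (𝕜 := ℝ)).map_sum_le (t := (univ : Finset ι)) (w := w)
      (p := fun i => gr (f i) e) (fun i _ => hw i) hw1 fun i _ => Set.mem_univ _
    simpa only [smul_eq_mul] using h3
  unfold nrm at hf ⊢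
  refine (Finset.sum_le_sum fun e _ => h2 e).trans ?_
  rw [Finset.sum_comm]
  have h4 : ∀ i, ∑ e, w i * gr (f i) e ^ 2 ≤ w i * C := by
    intro i
    rw [← Finset.mul_sum]
    exact mul_le_mul_of_nonneg_left (hf i) (hw i)
  refine (Finset.sum_le_sum fun i _ => h4 i).trans (le_of_eq ?_)
  rw [← Finset.sum_mul, hw1, one_mul]

/-- energy of a field from the sup of its gradient -/
lemma nrm_GB {s : ℝ} {f : V N → ℝ} (hf : GB s f) : nrm (gr f) ≤ 2 * (N : ℝ) ^ 2 * s ^ 2 := by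
  unfold nrm
  have h1 : ∀ e, gr f e ^ 2 ≤ s ^ 2 := fun e => sq_le_sq' (abs_le.1 (hf e)).1 (abs_le.1 (hf e)).2
  refine (Finset.sum_le_sum fun e _ => h1 e).trans (le_of_eq ?_)
  rw [Finset.sum_const, Finset.card_univ, nsmul_eq_mul]
  have h2 : Fintype.card (V N × Bool) = N * N * 2 := by
    rw [Fintype.card_prod, Fintype.card_prod, ZMod.card, Fintype.card_bool]
  rw [h2]
  push_cast
  ring

/-! ### the cut-offs -/

lemma nrm_chi (hl : 0 < l) : nrm (gr (chi (N := N) l)) ≤ 882 := by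
  have h1 : GB ((1 / 2 : ℝ) / l) (chi (N := N) l) := by
    have h2 := U_GB (N := N) (18 * l) (l := 2 * l) (by omega)
    have e : (1 / 2 : ℝ) / l = 1 / ((2 * l : ℕ) : ℝ) := by
      push_cast
      rw [div_div]
    rw [e]
    exact h2
  have h3 := nrm_local (w := (0 : V N)) hl h1 fun x hx => by
    rw [sub_zero] at hx
    exact U_zero (by omega)
  linarith

lemma nrm_U {L : ℕ} (hL : 0 < L) : nrm (gr (U (N := N) (30 * L) L)) ≤ 14112 := by
  have h1 : GB ((2 : ℝ) / (2 * L : ℕ)) (U (N := N) (30 * L) L) := by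
    have h2 := U_GB (N := N) (30 * L) hL
    have e : (2 : ℝ) / (2 * L : ℕ) = 1 / (L : ℝ) := by
      have hL' : (L : ℝ) ≠ 0 := by exact_mod_cast hL.ne'
      push_cast
      field_simp
    rw [e]
    exact h2
  have h3 := nrm_local (w := (0 : V N)) (by omega : 1 ≤ 2 * L) h1 fun x hx => by
    rw [sub_zero] at hx
    exact U_zero (by omega)
  linarith

lemma chi_nonneg (x : V N) : 0 ≤ chi l x := U_nonneg _ _ _

lemma chi_le_one (x : V N) : chi l x ≤ 1 := U_le_one _ _ _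

lemma abs_a0 (p q x : V N) : |a0 l p q x| ≤ 1 := by
  unfold a0
  have h1 := chi_nonneg (l := l) (x - p)
  have h2 := chi_nonneg (l := l) (x - q)
  have h3 := chi_le_one (l := l) (x - p)
  have h4 := chi_le_one (l := l) (x - q)
  rw [abs_le]
  constructor <;> linarith

lemma nrm_a0 (hl : 0 < l) (p q : V N) : nrm (gr (a0 l p q)) ≤ 3528 := by
  have h1 : nrm (gr (a0 l p q)) ≤ 2 * nrm (gr fun x => chi l (x - p)) +
      2 * nrm (gr fun x => chi l (x - q)) := by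
    refine nrm_mono_sum fun e => ?_
    obtain ⟨x, b⟩ := e
    simp only [gr_eq]
    unfold a0
    nlinarith [sq_nonneg ((chi l (x + eb b - p) - chi l (x - p)) -
      (chi l (x + eb b - q) - chi l (x - q)))]
  rw [nrm_shift_sub (chi l) p, nrm_shift_sub (chi l) q] at h1
  have h2 := nrm_chi (N := N) hl
  linarith

/-! ### the removed field -/

section

variable {μ pl : V N → ℝ} {p q : V N} {H : V N → ℝ} {B : ℝ}

lemma abs_pl_chi (hpl0 : ∀ x, 0 ≤ pl x) (hpl1 : ∀ x, pl x ≤ 1) (x : V N) :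
    |pl x - chi l x| ≤ 1 := by
  have h3 := chi_le_one (l := l) x
  have h4 := chi_nonneg (l := l) x
  have h5 := hpl0 x
  have h6 := hpl1 x
  rw [abs_le]
  constructor <;> linarith

/-- size of the removed field -/
lemma abs_hp (hμ : ∀ z, 0 ≤ μ z) (hμ1 : ∑ z, μ z = 1) (hpl0 : ∀ x, 0 ≤ pl x)
    (hpl1 : ∀ x, pl x ≤ 1) (hH : ∀ x, |H x| ≤ B) (x : V N) : |hp l pl μ p q H x| ≤ 4 * B := by
  have h1 := abs_mn hμ hμ1 hH p
  have h2 := abs_mn hμ hμ1 hH q
  have h3 : |H x - mn μ p H| ≤ 2 * B := (abs_sub _ _).trans (by linarith [hH x])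
  have h4 : |mn μ q H - mn μ p H| ≤ 2 * B := (abs_sub _ _).trans (by linarith)
  unfold hp
  refine (abs_sub _ _).trans ?_
  rw [abs_mul, abs_mul]
  have h5 : |a0 l p q x| * |H x - mn μ p H| ≤ 1 * (2 * B) :=
    mul_le_mul (abs_a0 p q x) h3 (abs_nonneg _) zero_le_one
  have h6 : |mn μ q H - mn μ p H| * |pl (x - q) - chi l (x - q)| ≤ 2 * B * 1 :=
    mul_le_mul h4 (abs_pl_chi hpl0 hpl1 _) (abs_nonneg _) ((abs_nonneg _).trans h4)
  linarith

/-- energy of the removed field -/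
lemma nrm_hp (hl : 0 < l) (hμ : ∀ z, 0 ≤ μ z) (hμ1 : ∑ z, μ z = 1) (hpl0 : ∀ x, 0 ≤ pl x)
    (hpl1 : ∀ x, pl x ≤ 1) (hH : ∀ x, |H x| ≤ B) :
    nrm (gr (hp l pl μ p q H)) ≤ 4 * nrm (gr H) + B ^ 2 * (70560 + 16 * nrm (gr pl)) := by
  have h1 := abs_mn hμ hμ1 hH p
  have h2 := abs_mn hμ hμ1 hH q
  have hB : 0 ≤ B := (abs_nonneg _).trans (hH 0)
  have h3 : ∀ x, |H x - mn μ p H| ≤ 2 * B := fun x => (abs_sub _ _).trans (by linarith [hH x])
  have h4 : |mn μ q H - mn μ p H| ≤ 2 * B := (abs_sub _ _).trans (by linarith)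
  have k1 : nrm (gr (hp l pl μ p q H)) ≤ 2 * nrm (gr fun x => a0 l p q x * (H x - mn μ p H)) +
      2 * nrm (gr fun x => (mn μ q H - mn μ p H) * (pl (x - q) - chi l (x - q))) :=
    nrm_sub_le _ _
  have k2 := nrm_mul_le (abs_a0 (l := l) p q) h3
  rw [nrm_sub_const] at k2
  have k3 := nrm_smul (mn μ q H - mn μ p H) fun x => pl (x - q) - chi l (x - q)
  have k4 := nrm_sub_le (fun x => pl (x - q)) fun x => chi l (x - q)
  rw [nrm_shift_sub pl q, nrm_shift_sub (chi l) q] at k4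
  have k5 := nrm_chi (N := N) hl
  have k6 := nrm_a0 (N := N) hl p q
  have k7 : (mn μ q H - mn μ p H) ^ 2 ≤ (2 * B) ^ 2 := sq_le_sq' (abs_le.1 h4).1 (abs_le.1 h4).2
  have k8 : nrm (gr fun x => (mn μ q H - mn μ p H) * (pl (x - q) - chi l (x - q))) ≤
      (2 * B) ^ 2 * (2 * nrm (gr pl) + 2 * 882) := by
    rw [k3]
    exact mul_le_mul k7 (by linarith) (nrm_nonneg _) (by positivity)
  have k9 : (2 * B) ^ 2 * nrm (gr (a0 l p q)) ≤ (2 * B) ^ 2 * 3528 :=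
    mul_le_mul_of_nonneg_left k6 (by positivity)
  nlinarith

/-- **energy of the smeared removed field** -/
theorem nrm_hps {w ψ : V N → ℝ} {s : ℕ} (hw : Wts w s) (hl : 0 < l) (hμ : ∀ z, 0 ≤ μ z)
    (hμ1 : ∑ z, μ z = 1) (hpl0 : ∀ x, 0 ≤ pl x) (hpl1 : ∀ x, pl x ≤ 1) (hψ : ∀ x, |ψ x| ≤ 1)
    (hH : ∀ x, |H x| ≤ B) :
    nrm (gr (hps l pl μ w p q ψ H)) ≤ 8 * nrm (gr H) +
      B ^ 2 * (141120 + 32 * nrm (gr pl) + 32 * nrm (gr ψ)) := by
  unfold hps
  refine nrm_avg hw.nn hw.one (fun v x => ψ (x - v) * hp l pl μ p q (fun y => H (y + v)) (x - v))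
    fun v => ?_
  rw [nrm_shift_sub (fun x => ψ x * hp l pl μ p q (fun y => H (y + v)) x) v]
  have hHv : ∀ x, |(fun y => H (y + v)) x| ≤ B := fun x => hH _
  have h1 := nrm_mul_le hψ (abs_hp (l := l) (p := p) (q := q) hμ hμ1 hpl0 hpl1 hHv)
  have h2 := nrm_hp (p := p) (q := q) hl hμ hμ1 hpl0 hpl1 hHv
  rw [nrm_shift H v] at h2
  nlinarith

/-- **energy of the partially cut field** -/
theorem nrm_YP {w θ : V N → ℝ} {s : ℕ} (hw : Wts w s) (hl : 0 < l) (hμ : ∀ z, 0 ≤ μ z)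
    (hμ1 : ∑ z, μ z = 1) (hpl0 : ∀ x, 0 ≤ pl x) (hpl1 : ∀ x, pl x ≤ 1) (hθ : ∀ x, |θ x| ≤ 1)
    (hH : ∀ x, |H x| ≤ B) :
    nrm (gr (YP l pl μ w p q θ H)) ≤ 18 * nrm (gr H) +
      B ^ 2 * (282240 + 64 * nrm (gr pl) + 64 * nrm (gr θ)) := by
  have h1 : YP l pl μ w p q θ H =
      fun x => (H x - cst0 μ w p H) - hps l pl μ w p q θ H x := by
    funext x
    rw [YP_eq hw]
  rw [h1]
  have h2 := nrm_sub_le (fun x => H x - cst0 μ w p H) (hps l pl μ w p q θ H)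
  rw [nrm_sub_const] at h2
  have h3 := nrm_hps (p := p) (q := q) hw hl hμ hμ1 hpl0 hpl1 hθ hH
  linarith

/-- **energy of `YP θ H - H`** -/
theorem nrm_YP_sub {w θ : V N → ℝ} {s : ℕ} (hw : Wts w s) (hl : 0 < l) (hμ : ∀ z, 0 ≤ μ z)
    (hμ1 : ∑ z, μ z = 1) (hpl0 : ∀ x, 0 ≤ pl x) (hpl1 : ∀ x, pl x ≤ 1) (hθ : ∀ x, |θ x| ≤ 1)
    (hH : ∀ x, |H x| ≤ B) :
    nrm (gr fun x => YP l pl μ w p q θ H x - H x) ≤ 8 * nrm (gr H) +
      B ^ 2 * (141120 + 32 * nrm (gr pl) + 32 * nrm (gr θ)) := by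
  have h1 : (fun x => YP l pl μ w p q θ H x - H x) =
      fun x => -hps l pl μ w p q θ H x - cst0 μ w p H := by
    funext x
    rw [YP_eq hw]
    ring
  rw [h1, nrm_sub_const (fun x => -hps l pl μ w p q θ H x), nrm_neg]
  exact nrm_hps (p := p) (q := q) hw hl hμ hμ1 hpl0 hpl1 hθ hH

end

end

end Vale.Agent.P159.H859.Gn
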