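import Vale.Agent.P159.H859.Gn3
import Vale.Agent.P159.H789.StK
import Vale.Agent.P159.H663.Kap

/-!
P159 / S, plateau (helper859): the differences of the means of `T (F + g)` on helper789's sup event.
-/

open Finset MeasureTheory

set_option linter.unusedSectionVars false

namespace Vale.Agent.P159.H859.Gn

open Vale.Agent.P159.TM.Spec (V)
open Vale.Agent.P159.H817 (gr nrm GB sz e1)
open Vale.Agent.P159.H191 (Wts mn)
open Vale.Agent.P159.H663.Dr (tT kT mn_kT wts_kT)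
open Vale.Agent.P159.H145.Sp (muK)
open Vale.Agent.P159.H789 (supE supD Sv osc_pair)
open Vale.Agent.P159.H859.Idl (gsR gsR_spec Prm s0)
open Vale.Agent.P159.H859.Cf (dM dM_add_le)

noncomputable section

variable {N q h : ℕ} [NeZero N]

/-- **differences of the means on the sup event** -/
theorem dM_supE (hq : 0 < q) (hh : 0 < h) {K : ℕ} (hN : N = 2 ^ K * h) {ρ : ℕ} (hρ : 2 * h ≤ ρ)
    {w : V N → ℝ} {s : ℕ} (hw : Wts w s) (p p' : V N) {Λ : ℝ} {F : V N → ℝ}
    (hF : F ∈ supE N q h K Λ) {g : V N → ℝ} {B : ℝ} (hg : ∀ x, |g x| ≤ B) :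
    dM (muK N ρ (kT h)) w p p' (tT N q (F + g)) ≤ 6 * K * Λ + 2 * B := by
  have hF' : tT N q F ∈ supD N h K Λ := by
    unfold H789.supE at hF
    rwa [Set.mem_ofPred_eq] at hF
  have hμ := wts_kT (N := N) hh hρ
  have h1 := dM_add_le hw hμ.nn hμ.one p p' (tT N q F) (G := tT N q g) (abs_tT hq hg)
  have e2 : tT N q (F + g) = fun x => tT N q F x + tT N q g x := by
    rw [H663.Dr.tT_add]
    rfl
  rw [e2]
  refine h1.trans ?_
  have h2 : dM (muK N ρ (kT h)) w p p' (tT N q F) ≤ 6 * K * Λ := by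
    unfold H859.Cf.dM
    have h3 : ∀ v, w v * |mn (muK N ρ (kT h)) (p' + v) (tT N q F) -
        mn (muK N ρ (kT h)) (p + v) (tT N q F)| ≤ w v * (6 * K * Λ) := by
      intro v
      refine mul_le_mul_of_nonneg_left ?_ (hw.nn v)
      have h4 : |Sv N h (tT N q F) (p' + v) - Sv N h (tT N q F) (p + v)| ≤ 6 * K * Λ :=
        osc_pair hh hN hF' (p' + v) (p + v)
      unfold H789.Sv at h4
      rw [mn_kT hρ, mn_kT hρ]
      exact h4
    refine (Finset.sum_le_sum fun v _ => h3 v).trans (le_of_eq ?_)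
    rw [← Finset.sum_mul, hw.one, one_mul]
  linarith

/-- the same with the ideal correction -/
theorem dM_gs {N1 : ℕ} [NeZero N1] {R1 lR R : ℕ} (H : Prm N N1 lR R R1) (hq : 0 < q) (hh : 0 < h)
    {K : ℕ} (hN : N = 2 ^ K * h) {ρ : ℕ} (hρ : 2 * h ≤ ρ) {w : V N → ℝ} {s : ℕ} (hw : Wts w s)
    (p p' : V N) {Λ : ℝ} {F : V N → ℝ} (hF : F ∈ supE N q h K Λ) :
    dM (muK N ρ (kT h)) w p p' (tT N q (F + gsR N N1 R1 lR R)) ≤
      6 * K * Λ + 656 * s0 * ((lR : ℝ) / R) := by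
  refine (dM_supE hq hh hN hρ hw p p' hF (gsR_spec H).le).trans (le_of_eq ?_)
  ring

end

end Vale.Agent.P159.H859.Gn
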