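import Vale.Agent.P159.Bdl.B8

/-!
P159 (helper859), HOLE-4, part 1: a spin coupled to finitely many sites changes the two point
functions by a bounded factor only (pair couplings, any finite graph).
-/

open MeasureTheory Filter Topology

set_option linter.unusedSectionVars false

namespace Vale.Agent.P159.XY.H859


noncomputable section

variable {V : Type*} [Fintype V]

/-- Simon type inequality for one site -/
theorem simon1 (J : V → V → ℝ) (hJ : ∀ u v, 0 ≤ J u v) (hsym : ∀ u v, J u v = J v u)
    [DecidableEq V] {S z : V} (hz : z ≠ S) :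
    corr J S z ≤ 2 * ∑ v, (if v = S then 0 else J S v * corr J v z) := by
  have h := crossing_ineq J hJ hsym (fun v => v = S) (x := S) (z := z) rfl hz
  refine h.trans ?_
  have h1 : ∀ u v, (if (u = S ↔ v = S) then 0 else J u v) * (corr J S u * corr J v z) ≤
      (if u = S then (if v = S then 0 else J S v * corr J v z) else 0) +
      (if v = S then (if u = S then 0 else J S u * corr J u z) else 0) := by
    intro u v
    by_cases hu : u = S
    · by_cases hv : v = S
      · simp [hu, hv]
      · simp only [hu, hv, true_iff, if_false, if_true, corr_self, one_mul, add_zero, le_refl]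
    · by_cases hv : v = S
      · simp only [hu, hv, false_iff, not_true_eq_false, if_false, if_true, zero_add]
        rw [hsym u S]
        exact mul_le_mul_of_nonneg_left (by
          have := corr_supermul J hJ u S z
          rwa [corr_comm J u S] at this) (hJ _ _)
      · simp [hu, hv]
  refine (Finset.sum_le_sum fun u _ => Finset.sum_le_sum fun v _ => h1 u v).trans (le_of_eq ?_)
  simp only [Finset.sum_add_distrib]
  have e1 : ∑ u, ∑ v, (if u = S then (if v = S then 0 else J S v * corr J v z) else 0) =
      ∑ v, (if v = S then 0 else J S v * corr J v z) := by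
    rw [Finset.sum_eq_single S]
    · simp
    · intro u _ hu
      simp [hu]
    · intro h
      exact absurd (Finset.mem_univ _) h
  have e2 : ∑ u, ∑ v, (if v = S then (if u = S then 0 else J S u * corr J u z) else 0) =
      ∑ v, (if v = S then 0 else J S v * corr J v z) := by
    refine Finset.sum_congr rfl fun u _ => ?_
    rw [Finset.sum_eq_single S]
    · simp
    · intro v _ hv
      simp [hv]
    · intro h
      exact absurd (Finset.mem_univ _) h
  rw [e1, e2]
  ring

/-- the star of couplings of `S` -/
def starB [DecidableEq V] (S : V) (Bd : V → ℝ) (u v : V) : ℝ :=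
  (if u = S then Bd v else 0) + (if v = S then Bd u else 0)

theorem starB_symm [DecidableEq V] (S : V) (Bd : V → ℝ) (u v : V) :
    starB S Bd u v = starB S Bd v u := by
  unfold starB
  ring

theorem starB_nonneg [DecidableEq V] (S : V) {Bd : V → ℝ} (h : ∀ v, 0 ≤ Bd v) (u v : V) :
    0 ≤ starB S Bd u v := by
  unfold starB
  split_ifs <;> simp [h, add_nonneg]

theorem starB_sum [DecidableEq V] (S : V) (Bd : V → ℝ) (g : V → V → ℝ) :
    ∑ u, ∑ v, starB S Bd u v * g u v = ∑ v, Bd v * g S v + ∑ u, Bd u * g u S := by
  unfold starB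
  simp only [add_mul, Finset.sum_add_distrib]
  congr 1
  · rw [Finset.sum_eq_single S]
    · simp
    · intro u _ hu
      simp [hu]
    · intro h
      exact absurd (Finset.mem_univ _) h
  · refine Finset.sum_congr rfl fun u _ => ?_
    rw [Finset.sum_eq_single S]
    · simp
    · intro v _ hv
      simp [hv]
    · intro h
      exact absurd (Finset.mem_univ _) h

/-- **adding a star of couplings costs a bounded factor** -/
theorem star_le [DecidableEq V] {J0 : V → V → ℝ} (hJ : ∀ u v, 0 ≤ J0 u v)
    (hsym : ∀ u v, J0 u v = J0 v u) {S : V} (hS : ∀ v, J0 S v = 0) {Bd : V → ℝ}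
    (hB : ∀ v, 0 ≤ Bd v) (hBS : Bd S = 0) {β c0 : ℝ} (hβ : ∑ v, Bd v ≤ β) (hc : 0 < c0)
    {m z : V} (hm : ∀ v, Bd v ≠ 0 → c0 ≤ corr J0 m v) (hz : z ≠ S) :
    corr (fun u v => J0 u v + starB S Bd u v) m z ≤
        Real.exp ((β + 2 * β ^ 2) / c0) * corr J0 m z ∧
      corr (fun u v => J0 u v + starB S Bd u v) S z ≤
        2 * β / c0 * (Real.exp ((β + 2 * β ^ 2) / c0) * corr J0 m z) := by
  set B : V → V → ℝ := starB S Bd with hBdef
  have hβ0 : 0 ≤ β := (Finset.sum_nonneg fun v _ => hB v).trans hβ
  have hJt : ∀ t : ℝ, 0 ≤ t → ∀ u v, 0 ≤ J0 u v + t * B u v := fun t ht u v =>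
    add_nonneg (hJ u v) (mul_nonneg ht (starB_nonneg S hB u v))
  have hst : ∀ t : ℝ, ∀ u v, J0 u v + t * B u v = J0 v u + t * B v u := fun t u v => by
    rw [hsym u v, hBdef, starB_symm]
  -- bounds of the correlations of the star by the one at `m`
  have hv : ∀ t : ℝ, 0 ≤ t → ∀ v, Bd v * corr (fun u v => J0 u v + t * B u v) v z ≤
      Bd v * (corr (fun u v => J0 u v + t * B u v) m z / c0) := by
    intro t ht v
    by_cases h0 : Bd v = 0
    · rw [h0, zero_mul, zero_mul]
    refine mul_le_mul_of_nonneg_left ?_ (hB v)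
    rw [le_div_iff₀ hc]
    have h1 := corr_supermul _ (hJt t ht) m v z
    have h2 : c0 ≤ corr (fun u v => J0 u v + t * B u v) m v :=
      (hm v h0).trans (corr_mono hJ (fun u v => by
        have := mul_nonneg ht (starB_nonneg S hB u v)
        linarith) m v)
    have h3 := corr_nonneg _ (hJt t ht) v z
    nlinarith [h1, h2, h3]
  have hsum : ∀ t : ℝ, 0 ≤ t → ∑ v, Bd v * corr (fun u v => J0 u v + t * B u v) v z ≤
      β / c0 * corr (fun u v => J0 u v + t * B u v) m z := by
    intro t ht
    refine (Finset.sum_le_sum fun v _ => hv t ht v).trans ?_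
    rw [← Finset.sum_mul]
    refine (mul_le_mul_of_nonneg_right hβ (div_nonneg (corr_nonneg _ (hJt t ht) m z) hc.le)).trans
      (le_of_eq ?_)
    ring
  have hSz : ∀ t : ℝ, 0 ≤ t → corr (fun u v => J0 u v + t * B u v) S z ≤
      2 * t * (β / c0 * corr (fun u v => J0 u v + t * B u v) m z) := by
    intro t ht
    have h1 := simon1 _ (hJt t ht) (hst t) hz
    refine h1.trans ?_
    have h2 : ∑ v, (if v = S then 0 else (J0 S v + t * B S v) *
        corr (fun u v => J0 u v + t * B u v) v z) =
        t * ∑ v, Bd v * corr (fun u v => J0 u v + t * B u v) v z := by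
      rw [Finset.mul_sum]
      refine Finset.sum_congr rfl fun v _ => ?_
      by_cases h : v = S
      · rw [if_pos h, h, hBS, zero_mul, mul_zero]
      · rw [if_neg h, hS v, hBdef]
        unfold starB
        rw [if_pos rfl, if_neg h]
        ring
    rw [h2]
    have h3 := mul_le_mul_of_nonneg_left (hsum t ht) (show (0 : ℝ) ≤ 2 * t by linarith)
    linarith
  -- the derivative
  let g : ℝ → ℝ := fun t => corr (fun u v => J0 u v + t * B u v) m z
  have hg : ∀ t, HasDerivAt g (dcorr (fun u v => J0 u v + t * B u v) B m z) t :=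
    fun t => hasDerivAt_corr J0 B m z t
  have hd : ∀ t, 0 ≤ t → t ≤ 1 → dcorr (fun u v => J0 u v + t * B u v) B m z ≤
      (β + 2 * β ^ 2) / c0 * g t := by
    intro t ht ht1
    refine (dcorr_le _ B (hJt t ht) (starB_nonneg S hB) (starB_symm S Bd) m z).trans ?_
    rw [hBdef, starB_sum]
    have hgn : 0 ≤ g t := corr_nonneg _ (hJt t ht) m z
    have a1 : ∑ v, Bd v * (corr (fun u v => J0 u v + t * starB S Bd u v) m S *
        corr (fun u v => J0 u v + t * starB S Bd u v) v z) ≤ β / c0 * g t := by
      refine (Finset.sum_le_sum fun v _ => ?_).trans (hsum t ht)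
      refine mul_le_mul_of_nonneg_left ?_ (hB v)
      have h1 := corr_le_one (fun u v => J0 u v + t * starB S Bd u v) m S
      have h2 := corr_nonneg _ (hJt t ht) v z
      calc _ ≤ 1 * corr (fun u v => J0 u v + t * starB S Bd u v) v z :=
            mul_le_mul_of_nonneg_right h1 h2
        _ = _ := one_mul _
    have a2 : ∑ u, Bd u * (corr (fun u v => J0 u v + t * starB S Bd u v) m u *
        corr (fun u v => J0 u v + t * starB S Bd u v) S z) ≤ β * (2 * (β / c0 * g t)) := by
      have h4 : corr (fun u v => J0 u v + t * starB S Bd u v) S z ≤ 2 * (β / c0 * g t) := by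
        refine (hSz t ht).trans ?_
        have h5 : 0 ≤ β / c0 * g t := by positivity
        nlinarith
      have h3 : ∀ u ∈ Finset.univ, Bd u * (corr (fun u v => J0 u v + t * starB S Bd u v) m u *
          corr (fun u v => J0 u v + t * starB S Bd u v) S z) ≤ Bd u * (2 * (β / c0 * g t)) := by
        intro u _
        refine mul_le_mul_of_nonneg_left ?_ (hB u)
        have h1 := corr_le_one (fun u v => J0 u v + t * starB S Bd u v) m u
        have h2 := corr_nonneg _ (hJt t ht) S z
        calc _ ≤ 1 * corr (fun u v => J0 u v + t * starB S Bd u v) S z :=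
              mul_le_mul_of_nonneg_right h1 h2
          _ = _ := one_mul _
          _ ≤ _ := h4
      refine (Finset.sum_le_sum h3).trans ?_
      rw [← Finset.sum_mul]
      exact mul_le_mul_of_nonneg_right hβ (by positivity)
    calc _ ≤ β / c0 * g t + β * (2 * (β / c0 * g t)) := add_le_add a1 a2
      _ = (β + 2 * β ^ 2) / c0 * g t := by ring
  -- Gronwall
  set K : ℝ := (β + 2 * β ^ 2) / c0 with hK
  let f : ℝ → ℝ := fun t => Real.exp (-(K * t)) * g t
  have hf : ∀ t, HasDerivAt f (Real.exp (-(K * t)) * (-K) * g t + Real.exp (-(K * t)) *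
      dcorr (fun u v => J0 u v + t * B u v) B m z) t := by
    intro t
    have h1 : HasDerivAt (fun t : ℝ => -(K * t)) (-K) t := by
      have h := ((hasDerivAt_id t).const_mul K).neg
      rw [mul_one] at h
      exact h
    exact (h1.exp).mul (hg t)
  have hanti : AntitoneOn f (Set.Icc 0 1) := by
    apply antitoneOn_of_deriv_nonpos (convex_Icc 0 1)
    · exact fun t _ => (hf t).continuousAt.continuousWithinAt
    · exact fun t _ => (hf t).differentiableAt.differentiableWithinAt
    · intro t ht
      rw [interior_Icc] at ht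
      rw [(hf t).deriv]
      have h1 := hd t ht.1.le ht.2.le
      have h2 := Real.exp_pos (-(K * t))
      nlinarith [h1, h2]
  have h01 := hanti (Set.left_mem_Icc.2 zero_le_one) (Set.right_mem_Icc.2 zero_le_one) zero_le_one
  have e0 : f 0 = corr J0 m z := by
    show Real.exp (-(K * 0)) * corr (fun u v => J0 u v + 0 * B u v) m z = _
    rw [mul_zero, neg_zero, Real.exp_zero, one_mul]
    congr 1
    funext u v
    rw [zero_mul, add_zero]
  have e1 : f 1 = Real.exp (-K) * corr (fun u v => J0 u v + starB S Bd u v) m z := by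
    show Real.exp (-(K * 1)) * corr (fun u v => J0 u v + 1 * B u v) m z = _
    rw [mul_one]
    congr 2
    funext u v
    rw [one_mul]
  rw [e0, e1] at h01
  have hfin : corr (fun u v => J0 u v + starB S Bd u v) m z ≤ Real.exp K * corr J0 m z := by
    have h1 := mul_le_mul_of_nonneg_left h01 (Real.exp_pos K).le
    rw [← mul_assoc, ← Real.exp_add, add_neg_cancel, Real.exp_zero, one_mul] at h1
    exact h1
  refine ⟨hfin, ?_⟩
  have h1 := hSz 1 zero_le_one
  have e2 : (fun u v => J0 u v + 1 * B u v) = fun u v => J0 u v + starB S Bd u v := by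
    funext u v
    rw [one_mul]
  rw [e2] at h1
  refine h1.trans ?_
  have h2 : 0 ≤ β / c0 := by positivity
  have h3 := mul_le_mul_of_nonneg_left hfin h2
  calc 2 * 1 * (β / c0 * corr (fun u v => J0 u v + starB S Bd u v) m z) ≤
        2 * 1 * (β / c0 * (Real.exp K * corr J0 m z)) := by linarith
    _ = _ := by ring

end

end Vale.Agent.P159.XY.H859
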