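import Vale.Agent.P159.H817.St8

/-!
P159 / ideal pair (helper859), part 1: comparison of the near field of a pair on the torus `N` with
the near field of the axis pair of ANY other torus `N1` (same integer offset).
-/

set_option linter.unusedSectionVars false

namespace Vale.Agent.P159.H859.Idl

open Finset
open Vale.Agent.P159.TM.Spec (V)
open Vale.Agent.P159.H817

noncomputable section

/-- near field, on offsets, of the axis pair `(0, R1 e1)` of the torus of side `N1` -/
def bC (N1 : ℕ) [NeZero N1] (R1 : ℕ) (i j : ℤ) (b : Bool) : ℝ :=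
  bD (0 : V N1) (R1 • e1) (((i : ZMod N1), (j : ZMod N1)), b)

/-- the point of the torus with given integer coordinates -/
def ofs (N : ℕ) (i j : ℤ) : V N := ((i : ZMod N), (j : ZMod N))

section

variable {N : ℕ} [NeZero N]

lemma ofs_vma (x : V N) : ofs N x.1.valMinAbs x.2.valMinAbs = x := by
  unfold ofs
  rw [ZMod.coe_valMinAbs, ZMod.coe_valMinAbs]

lemma vma_int {i : ℤ} (h : 2 * i.natAbs < N) : ((i : ℤ) : ZMod N).valMinAbs = i := by
  refine (ZMod.valMinAbs_spec _ _).2 ⟨by push_cast; rfl, ?_⟩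
  rw [Set.mem_Ioc]
  omega

lemma sz_ofs {i j : ℤ} (hi : 2 * i.natAbs < N) (hj : 2 * j.natAbs < N) :
    sz (ofs N i j) = max i.natAbs j.natAbs := by
  unfold sz ofs
  simp only
  rw [vma_int hi, vma_int hj]

/-- the offset of a unit vector -/
def ue (b : Bool) : ℤ × ℤ := if b then (0, 1) else (1, 0)

lemma eb_ofs (b : Bool) : (eb b : V N) = ofs N (ue b).1 (ue b).2 := by
  cases b
  · unfold ofs ue
    simp [eb, e1]
  · unfold ofs ue
    simp [eb, e2]

lemma ofs_sub (i j i' j' : ℤ) : ofs N (i - i') (j - j') = ofs N i j - ofs N i' j' := by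
  unfold ofs
  ext
  · push_cast
    simp
  · push_cast
    simp

lemma ofs_add (i j i' j' : ℤ) : ofs N (i + i') (j + j') = ofs N i j + ofs N i' j' := by
  unfold ofs
  ext
  · push_cast
    simp
  · push_cast
    simp

lemma ofs_zero : ofs N 0 0 = 0 := by
  unfold ofs
  simp

end

/-- gradient kernel on integer offsets -/
def gG (N : ℕ) [NeZero N] (c : Bool) (i j : ℤ) : ℝ := D (eb c) G0 (ofs N i j)

lemma gG_congr {A B : ℕ} [NeZero A] [NeZero B] (h : A = B) (c : Bool) (i j : ℤ) :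
    gG A c i j = gG B c i j := by
  subst h
  rfl

lemma gG_mul (N M : ℕ) [NeZero N] [NeZero M] (c : Bool) {i j : ℤ} {K : ℕ} (hK : 4 * K + 4 ≤ N)
    (hi : i.natAbs ≤ K) (hj : j.natAbs ≤ K) :
    |gG N c i j - gG (M * N) c i j| ≤ 2 * CG / (1 + K) := by
  have hMN : N ≤ M * N := Nat.le_mul_of_pos_left N (NeZero.pos M)
  have hs : sz (ofs (M * N) i j) ≤ K := by
    rw [sz_ofs (by omega) (by omega)]
    omega
  have h1 := D_HG (N := N) (M := M) (eb_cases c) hK hs
  have h2 : prj (N := N) M (ofs (M * N) i j) = ofs N i j := by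
    unfold prj ofs
    simp only
    rw [map_intCast, map_intCast]
  have h3 : D (eb c) (HG N M) (ofs (M * N) i j) = gG N c i j - gG (M * N) c i j := by
    unfold D HG gG D
    rw [prj_add, prj_eb, h2]
    ring
  rw [h3] at h1
  exact h1

/-- **the gradient kernels of two tori** at the same small offset -/
lemma gG_cmp (N N1 : ℕ) [NeZero N] [NeZero N1] (c : Bool) {i j : ℤ} {K : ℕ} (hK : 4 * K + 4 ≤ N)
    (hK1 : 4 * K + 4 ≤ N1) (hi : i.natAbs ≤ K) (hj : j.natAbs ≤ K) :
    |gG N c i j - gG N1 c i j| ≤ 4 * CG / (1 + K) := by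
  have h1 := gG_mul N N1 c hK hi hj
  have h2 := gG_mul N1 N c hK1 hi hj
  have h3 : gG (N1 * N) c i j = gG (N * N1) c i j := gG_congr (Nat.mul_comm _ _) c i j
  rw [h3] at h1
  have e : 4 * CG / (1 + (K : ℝ)) = 2 * CG / (1 + K) + 2 * CG / (1 + K) := by ring
  rw [e]
  rw [abs_le] at h1 h2 ⊢
  constructor <;> linarith

lemma eq_zero_of_sz {N : ℕ} [NeZero N] {x : V N} (h : sz x = 0) : x = 0 := by
  unfold sz at h
  have h1 : x.1.valMinAbs.natAbs = 0 := by omega
  have h2 : x.2.valMinAbs.natAbs = 0 := by omega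
  refine Prod.ext ?_ ?_
  · exact (ZMod.valMinAbs_eq_zero x.1).1 (Int.natAbs_eq_zero.1 h1)
  · exact (ZMod.valMinAbs_eq_zero x.2).1 (Int.natAbs_eq_zero.1 h2)

section

variable {N : ℕ} [NeZero N] {N1 : ℕ} [NeZero N1]

/-- the point of the torus `N1` with the same offset -/
def tr (N1 : ℕ) (z : V N) : V N1 := ofs N1 z.1.valMinAbs z.2.valMinAbs

lemma tr_add {z : V N} (b : Bool) (h : 2 * (sz z + 1) < N) :
    tr N1 (z + eb b) = tr N1 z + eb b := by
  have h1 := natAbs_le_sz z
  unfold tr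
  rw [eb_ofs (N := N1), ← ofs_add]
  cases b
  · have a1 : (z + eb false).1.valMinAbs = z.1.valMinAbs + 1 := by
      have e : (z + eb false).1 = ((z.1.valMinAbs + 1 : ℤ) : ZMod N) := by
        push_cast
        rfl
      rw [e, vma_int (by omega)]
    have a2 : (z + eb false).2.valMinAbs = z.2.valMinAbs + 0 := by
      have e : (z + eb false).2 = z.2 := by
        show z.2 + 0 = z.2
        ring
      rw [e, add_zero]
    rw [a1, a2]
    rfl
  · have a1 : (z + eb true).1.valMinAbs = z.1.valMinAbs + 0 := by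
      have e : (z + eb true).1 = z.1 := by
        show z.1 + 0 = z.1
        ring
      rw [e, add_zero]
    have a2 : (z + eb true).2.valMinAbs = z.2.valMinAbs + 1 := by
      have e : (z + eb true).2 = ((z.2.valMinAbs + 1 : ℤ) : ZMod N) := by
        push_cast
        rfl
      rw [e, vma_int (by omega)]
    rw [a1, a2]
    rfl

lemma sz_tr {z : V N} (h : 2 * sz z < N1) : sz (tr N1 z) = sz z := by
  have h1 := natAbs_le_sz z
  unfold tr
  rw [sz_ofs (by omega) (by omega)]
  rfl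

lemma tr_zero : tr N1 (0 : V N) = 0 := by
  unfold tr
  simp [ofs]

/-- curl of the difference of the near fields -/
lemma cu_near {z1 : V N1} {p q x : V N} (hN : 2 * (sz (x - p) + 1) < N)
    (hN1 : 2 * sz (x - p) < N1) (hz : sz (x - p) < sz z1) (hq : sz (x - p) < sz (q - p)) :
    cu (fun e => bD p q e - bD (0 : V N1) z1 (tr N1 (e.1 - p), e.2)) x = 0 := by
  have h1 : cu (fun e : V N × Bool => bD (0 : V N1) z1 (tr N1 (e.1 - p), e.2)) x =
      cu (bD (0 : V N1) z1) (tr N1 (x - p)) := by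
    have a1 : tr N1 (x + e1 - p) = tr N1 (x - p) + e1 := by
      have h3 := tr_add (N1 := N1) (z := x - p) false hN
      rw [add_sub_right_comm]
      exact h3
    have a2 : tr N1 (x + e2 - p) = tr N1 (x - p) + e2 := by
      have h3 := tr_add (N1 := N1) (z := x - p) true hN
      rw [add_sub_right_comm]
      exact h3
    unfold cu
    simp only
    rw [a1, a2]
  rw [cu_sub, h1, cu_bD, cu_bD]
  have hxq : x ≠ q := by
    intro h
    rw [h] at hq
    exact lt_irrefl _ hq
  have hsz := sz_tr (N1 := N1) hN1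
  have h3 : tr N1 (x - p) ≠ z1 := by
    intro h
    rw [h] at hsz
    omega
  have h4 : (if tr N1 (x - p) = 0 then (1 : ℝ) else 0) = if x = p then 1 else 0 := by
    by_cases hxp : x = p
    · rw [hxp, sub_self, tr_zero, if_pos rfl, if_pos rfl]
    · rw [if_neg hxp, if_neg]
      intro h5
      rw [h5, sz_zero] at hsz
      exact hxp (sub_eq_zero.1 (eq_zero_of_sz hsz.symm))
  rw [h4, if_neg hxq, if_neg h3]
  ring

/-- **size of the difference of the near fields** -/
lemma near_le (z1 : V N1) (p q x : V N) (b : Bool) {K : ℕ} (hK : 4 * K + 4 ≤ N)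
    (hK1 : 4 * K + 4 ≤ N1) (hx : sz (x - p) + 1 ≤ K) {ρ ρ1 : ℕ} (h1 : ρ + 1 ≤ sz (x - q))
    (h2 : ρ1 + 1 ≤ sz (tr N1 (x - p) - z1)) :
    |bD p q (x, b) - bD (0 : V N1) z1 (tr N1 (x - p), b)| ≤
      (|(v1 p q : ℝ)| + |(v2 p q : ℝ)|) / (N : ℝ) ^ 2 +
        (|(v1 0 z1 : ℝ)| + |(v2 0 z1 : ℝ)|) / (N1 : ℝ) ^ 2 + CG / (1 + ρ) + CG / (1 + ρ1) +
          4 * CG / (1 + K) := by
  have hC := CG_pos
  have hN := N_pos_real (N := N)
  have hN' := N_pos_real (N := N1)
  have key : ∀ c : Bool, |pf (D (eb c) G0) p q (x - eb c) -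
      pf (D (eb c) G0) 0 z1 (tr N1 (x - p) - eb c)| ≤
        CG / (1 + ρ) + CG / (1 + ρ1) + 4 * CG / (1 + K) := by
    intro c
    have hs := (sz_step (x - eb c - q) c).2
    have e1' : x - eb c - q + eb c = x - q := by abel
    rw [e1'] at hs
    have hs2 := (sz_step (tr N1 (x - p) - eb c - z1) c).2
    have e2' : tr N1 (x - p) - eb c - z1 + eb c = tr N1 (x - p) - z1 := by abel
    rw [e2'] at hs2
    have g1 := grad_G0 (eb_cases (N := N) c) (x - eb c - q)
    have g2 := grad_G0 (eb_cases (N := N1) c) (tr N1 (x - p) - eb c - z1)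
    rw [pow_one] at g1 g2
    have hnat := natAbs_le_sz (x - p)
    have g3 := gG_cmp N N1 c (i := (x - p).1.valMinAbs - (ue c).1)
      (j := (x - p).2.valMinAbs - (ue c).2) hK hK1
      (by cases c <;> simp only [ue, Bool.false_eq_true, if_true, if_false] <;> omega)
      (by cases c <;> simp only [ue, Bool.false_eq_true, if_true, if_false] <;> omega)
    have e4 : gG N c ((x - p).1.valMinAbs - (ue c).1) ((x - p).2.valMinAbs - (ue c).2) =
        D (eb c) G0 (x - eb c - p) := by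
      unfold gG
      rw [ofs_sub, ofs_vma, ← eb_ofs]
      congr 1
      abel
    have e5 : gG N1 c ((x - p).1.valMinAbs - (ue c).1) ((x - p).2.valMinAbs - (ue c).2) =
        D (eb c) G0 (tr N1 (x - p) - eb c) := by
      unfold gG tr
      rw [ofs_sub, ← eb_ofs]
    rw [e4, e5] at g3
    have b1 : CG / (1 + (sz (x - eb c - q) : ℝ)) ≤ CG / (1 + ρ) := by
      refine div_le_div_of_nonneg_left hC.le (by positivity) ?_
      have : ρ ≤ sz (x - eb c - q) := by omega
      have : (ρ : ℝ) ≤ sz (x - eb c - q) := by exact_mod_cast this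
      linarith
    have b2 : CG / (1 + (sz (tr N1 (x - p) - eb c - z1) : ℝ)) ≤ CG / (1 + ρ1) := by
      refine div_le_div_of_nonneg_left hC.le (by positivity) ?_
      have : ρ1 ≤ sz (tr N1 (x - p) - eb c - z1) := by omega
      have : (ρ1 : ℝ) ≤ sz (tr N1 (x - p) - eb c - z1) := by exact_mod_cast this
      linarith
    unfold pf
    rw [sub_zero]
    rw [abs_le] at g1 g2 g3 ⊢
    constructor <;> linarith
  have hA : ∀ a c : ℝ, |a| / (N : ℝ) ^ 2 + |c| / (N1 : ℝ) ^ 2 ≥
      |a / (N : ℝ) ^ 2 - c / (N1 : ℝ) ^ 2| := by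
    intro a c
    refine (abs_sub _ _).trans (le_of_eq ?_)
    rw [abs_div, abs_div, abs_of_pos (by positivity : (0 : ℝ) < (N : ℝ) ^ 2),
      abs_of_pos (by positivity : (0 : ℝ) < (N1 : ℝ) ^ 2)]
  have hB1 : 0 ≤ |(v1 p q : ℝ)| / (N : ℝ) ^ 2 := by positivity
  have hB2 : 0 ≤ |(v2 p q : ℝ)| / (N : ℝ) ^ 2 := by positivity
  have hB3 : 0 ≤ |(v1 0 z1 : ℝ)| / (N1 : ℝ) ^ 2 := by positivity
  have hB4 : 0 ≤ |(v2 0 z1 : ℝ)| / (N1 : ℝ) ^ 2 := by positivity
  unfold bD
  rw [add_div, add_div]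
  cases b
  · rw [jD_false, jD_false]
    have k := key true
    have a := hA (-(v2 p q : ℝ)) (-(v2 0 z1 : ℝ))
    rw [abs_neg, abs_neg] at a
    change |pf (D e2 G0) p q (x - e2) - pf (D e2 G0) 0 z1 (tr N1 (x - p) - e2)| ≤ _ at k
    rw [ge_iff_le] at a
    rw [abs_le] at k a ⊢
    constructor <;> linarith
  · rw [jD_true, jD_true]
    have k := key false
    have a := hA (v1 p q : ℝ) (v1 0 z1 : ℝ)
    change |pf (D e1 G0) p q (x - e1) - pf (D e1 G0) 0 z1 (tr N1 (x - p) - e1)| ≤ _ at k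
    rw [ge_iff_le] at a
    rw [abs_le] at k a ⊢
    constructor <;> linarith

end

end

end Vale.Agent.P159.H859.Idl
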