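import Vale.Agent.P159.H859.Idl1
import Vale.Agent.P159.H817.Id1

/-!
P159 / ideal pair (helper859), part 2: existence of the smooth function `gid` which makes a pair
ideal (near both cores the field is the near field of the axis pair of the small torus), its size,
support, energy, symmetries; instances for the tori `N` and `M N`; reflection of the near field.
-/

set_option linter.unusedSectionVars false

namespace Vale.Agent.P159.H859.Idl

open Finset
open Vale.Agent.P159.TM.Spec (V)
open Vale.Agent.P159.H817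

noncomputable section

/-! ### the base point -/

section

variable {N : ℕ} [NeZero N]

lemma vma_nat {n : ℕ} (h : 2 * n < N) : ((n : ℕ) : ZMod N).valMinAbs = n := by
  refine (ZMod.valMinAbs_spec _ _).2 ⟨by push_cast; rfl, ?_⟩
  rw [Set.mem_Ioc]
  omega

lemma z0_sz {n : ℕ} (h : 2 * n < N) : sz (n • (e1 : V N)) = n := by
  rw [nsmul_e1]
  unfold sz
  simp only
  rw [vma_nat h]
  simp

lemma v1_z0 {n : ℕ} (h : 2 * n < N) : v1 (0 : V N) (n • (e1 : V N)) = n := by
  unfold v1
  rw [sub_zero, nsmul_e1]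
  exact vma_nat h

lemma v2_z0 (n : ℕ) : v2 (0 : V N) (n • (e1 : V N)) = 0 := by
  unfold v2
  rw [sub_zero, nsmul_e1]
  simp

end

/-- slope constant -/
def s0 : ℝ := 1 + 17 * CG

lemma s0_pos : 0 < s0 := by
  have := CG_pos
  unfold s0
  linarith

/-- the parameters: pairs of distance about `r` on the torus `N`, near field of the axis pair
`(0, R1 e1)` of the torus `N1` -/
structure Prm (N N1 l r R1 : ℕ) : Prop where
  hl : 4 ≤ l
  hlr : 256 * l ≤ r
  hrN : 64 * r ≤ N
  hR : 64 * R1 ≤ N1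
  h1 : r ≤ 4 * R1

section

variable {N N1 : ℕ} [NeZero N] [NeZero N1]

lemma nf_bC (R1 : ℕ) (p : V N) (e : V N × Bool) :
    nf (bC N1 R1) p e = bD (0 : V N1) (R1 • e1) (tr N1 (e.1 - p), e.2) := rfl

lemma abs_v {p q : V N} : |(v1 p q : ℝ)| ≤ sz (q - p) ∧ |(v2 p q : ℝ)| ≤ sz (q - p) := by
  have h1 := natAbs_le_sz (q - p)
  have b3 : |(v2 p q : ℝ)| = ((q - p).2.valMinAbs.natAbs : ℝ) := by
    rw [Nat.cast_natAbs, Int.cast_abs]; rfl
  have b4 : |(v1 p q : ℝ)| = ((q - p).1.valMinAbs.natAbs : ℝ) := by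
    rw [Nat.cast_natAbs, Int.cast_abs]; rfl
  rw [b3, b4]
  exact ⟨by exact_mod_cast h1.1, by exact_mod_cast h1.2⟩

/-- the slope of the difference of the two near fields -/
theorem slope {l r R1 : ℕ} (H : Prm N N1 l r R1) {p q : V N} (hf : Far r p q) {x : V N} (b : Bool)
    (hx : sz (x - p) ≤ 41 * l) : |bD p q (x, b) - nf (bC N1 R1) p (x, b)| ≤ s0 / r := by
  have hC := CG_pos
  have hl := H.hl
  have hlr := H.hlr
  have hrN := H.hrN
  have hR := H.hR
  have h1 := H.h1
  have hr0 : (0 : ℝ) < r := by exact_mod_cast (by omega : 0 < r)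
  have hz := z0_sz (N := N1) (n := R1) (by omega)
  have hs := sz_tr (N1 := N1) (z := x - p) (by omega)
  have a1 : r / 4 + 1 ≤ sz (x - q) := by
    have h3 := sz_add_le (q - x) (x - p)
    rw [sub_add_sub_cancel, sz_sub_comm q x] at h3
    have := hf.1
    omega
  have a2 : r / 12 + 1 ≤ sz (tr N1 (x - p) - R1 • e1) := by
    have h3 := sz_add_le (R1 • (e1 : V N1) - tr N1 (x - p)) (tr N1 (x - p))
    rw [sub_add_cancel, hz, sz_sub_comm, hs] at h3
    omega
  have h3 := near_le (R1 • e1) p q x b (K := 4 * r - 1) (by omega) (by omega) (by omega) a1 a2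
  rw [nf_bC]
  refine h3.trans ?_
  rw [v1_z0 (by omega), v2_z0]
  have hN : (64 : ℝ) * r ≤ N := by exact_mod_cast hrN
  have hN1 : (16 : ℝ) * r ≤ N1 := by exact_mod_cast (by omega : 16 * r ≤ N1)
  have hN2 : (64 : ℝ) * R1 ≤ N1 := by exact_mod_cast hR
  obtain ⟨w1, w2⟩ := abs_v (p := p) (q := q)
  have w3 : (sz (q - p) : ℝ) ≤ 4 * r := by exact_mod_cast hf.2
  have c1 : (|(v1 p q : ℝ)| + |(v2 p q : ℝ)|) / (N : ℝ) ^ 2 ≤ 1 / (2 * r) := by
    rw [div_le_div_iff₀ (by nlinarith) (by positivity)]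
    nlinarith
  have c2 : (|(((R1 : ℕ) : ℤ) : ℝ)| + |((0 : ℤ) : ℝ)|) / (N1 : ℝ) ^ 2 ≤ 1 / (2 * r) := by
    have : |(((R1 : ℕ) : ℤ) : ℝ)| = R1 := by
      rw [Int.cast_natCast]
      exact abs_of_nonneg (Nat.cast_nonneg _)
    rw [this, Int.cast_zero, abs_zero, add_zero, div_le_div_iff₀ (by nlinarith) (by positivity)]
    have h0 : (0 : ℝ) ≤ R1 := Nat.cast_nonneg _
    nlinarith
  have c3 : CG / (1 + ((r / 4 : ℕ) : ℝ)) ≤ 4 * CG / r := by
    have h5 : (r : ℝ) ≤ 4 * (1 + ((r / 4 : ℕ) : ℝ)) := by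
      have : r ≤ 4 * (1 + r / 4) := by omega
      exact_mod_cast this
    rw [div_le_div_iff₀ (by positivity) hr0]
    nlinarith
  have c4 : CG / (1 + ((r / 12 : ℕ) : ℝ)) ≤ 12 * CG / r := by
    have h5 : (r : ℝ) ≤ 12 * (1 + ((r / 12 : ℕ) : ℝ)) := by
      have : r ≤ 12 * (1 + r / 12) := by omega
      exact_mod_cast this
    rw [div_le_div_iff₀ (by positivity) hr0]
    nlinarith
  have c5 : 4 * CG / (1 + ((4 * r - 1 : ℕ) : ℝ)) = CG / r := by
    have h5 : 1 + ((4 * r - 1 : ℕ) : ℝ) = 4 * r := by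
      have : 1 + (4 * r - 1) = 4 * r := by omega
      exact_mod_cast this
    rw [h5]
    field_simp
  have e : s0 / (r : ℝ) = 1 / (2 * r) + 1 / (2 * r) + 4 * CG / r + 12 * CG / r + CG / r := by
    unfold s0
    field_simp
    ring
  rw [e, c5]
  linarith

lemma closed {l r R1 : ℕ} (H : Prm N N1 l r R1) {p q : V N} (hf : Far r p q) {x : V N}
    (hx : sz (x - p) ≤ 41 * l) : cu (fun e => bD p q e - nf (bC N1 R1) p e) x = 0 := by
  have hl := H.hl
  have hlr := H.hlr
  have hrN := H.hrN
  have hR := H.hR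
  have h1 := H.h1
  have h3 := hf.1
  have hz := z0_sz (N := N1) (n := R1) (by omega)
  refine cu_near (by omega) (by omega) ?_ ?_
  · rw [hz]
    omega
  · omega

end

/-! ### the potentials -/

section

variable {N' : ℕ} [NeZero N']

/-- a potential of the difference of the near fields -/
def Pot (b0 : ℤ → ℤ → Bool → ℝ) (l r : ℕ) (v : V N') (f : V N' → ℝ) : Prop :=
  f 0 = 0 ∧ (∀ x b, sz x ≤ 41 * l → gr f (x, b) = bD 0 v (x, b) - nf b0 0 (x, b)) ∧
    ∀ x, sz x ≤ 41 * l → |f x| ≤ 328 * l * (s0 / r)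

open Classical in
/-- the chosen potential -/
def fh (b0 : ℤ → ℤ → Bool → ℝ) (l r : ℕ) (v : V N') : V N' → ℝ :=
  if h : ∃ f : V N' → ℝ, Pot b0 l r v f then h.choose else fun _ => 0

/-- **the smooth function which makes the pair `p, q` ideal** -/
def gid (b0 : ℤ → ℤ → Bool → ℝ) (l r : ℕ) (p q x : V N') : ℝ :=
  U (20 * l + 1) (19 * l) (x - q) * fh b0 l r (p - q) (x - q) -
    U (20 * l + 1) (19 * l) (x - p) * fh b0 l r (q - p) (x - p)

lemma gid_neg (b0 : ℤ → ℤ → Bool → ℝ) (l r : ℕ) (p q x : V N') :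
    gid b0 l r q p x = -gid b0 l r p q x := by
  unfold gid
  ring

lemma gid_shift (b0 : ℤ → ℤ → Bool → ℝ) (l r : ℕ) (p q a x : V N') :
    gid b0 l r (p + a) (q + a) (x + a) = gid b0 l r p q x := by
  unfold gid
  rw [add_sub_add_right_eq_sub, add_sub_add_right_eq_sub, add_sub_add_right_eq_sub,
    add_sub_add_right_eq_sub]

lemma nf_shift (b0 : ℤ → ℤ → Bool → ℝ) (p x : V N') (b : Bool) :
    nf b0 p (x, b) = nf b0 0 (x - p, b) := by
  unfold nf
  simp only [sub_zero]

lemma bD_shift0 (p q x : V N') (b : Bool) : bD p q (x, b) = bD 0 (q - p) (x - p, b) := by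
  have h := bD_shift 0 (q - p) p (x - p) b
  rw [zero_add, sub_add_cancel, sub_add_cancel] at h
  exact h

/-- properties of the function which makes the pair ideal -/
structure Gid (b0 : ℤ → ℤ → Bool → ℝ) (l r : ℕ) (p q : V N') (g : V N' → ℝ) : Prop where
  idl : Idl b0 (20 * l) p q g
  gb : GB (37 * s0 / r) g
  le : ∀ x, |g x| ≤ 328 * s0 * (l / r)
  far : ∀ x, 40 * l ≤ sz (x - p) → 40 * l ≤ sz (x - q) → g x = 0
  zp : g p = 0
  zq : g q = 0
  en : nrm (gr g) ≤ 60000000 * s0 ^ 2 * ((l : ℝ) / r) ^ 2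

variable {b0 : ℤ → ℤ → Bool → ℝ} {l r : ℕ}

lemma fh_spec {v : V N'} (h : ∃ f : V N' → ℝ, Pot b0 l r v f) : Pot b0 l r v (fh b0 l r v) := by
  unfold fh
  rw [dif_pos h]
  exact h.choose_spec

lemma cut_gb {v : V N'} (hl : 4 ≤ l) (hr : 0 < r) (h : Pot b0 l r v (fh b0 l r v))
    (hs : ∀ x b, sz x ≤ 41 * l → |bD 0 v (x, b) - nf b0 0 (x, b)| ≤ s0 / r) :
    GB (37 / 2 * s0 / r) (fun x => U (20 * l + 1) (19 * l) x * fh b0 l r v x) := by
  have hl' : (0 : ℝ) < l := by exact_mod_cast (by omega : 0 < l)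
  have hr' : (0 : ℝ) < r := by exact_mod_cast hr
  have hs0 := s0_pos
  have h2 := GB.cut (w := (0 : V N')) (m := 41 * l) (k := 20 * l + 1) (l := 19 * l)
    (s := s0 / r) (B := 328 * l * (s0 / r)) (f := fh b0 l r v) (by omega) (by omega)
    (by positivity)
    (fun x b hx => by rw [sub_zero] at hx; rw [h.2.1 x b hx]; exact hs x b hx)
    (fun x hx => by rw [sub_zero] at hx; exact h.2.2 x hx)
  simp only [sub_zero] at h2
  refine h2.mono ?_
  push_cast
  have e : s0 / (r : ℝ) + 328 * l * (s0 / r) / (19 * l) = (1 + 328 / 19) * (s0 / r) := by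
    field_simp
  have e2 : 37 / 2 * s0 / (r : ℝ) = 37 / 2 * (s0 / r) := by ring
  rw [e, e2]
  exact mul_le_mul_of_nonneg_right (by norm_num) (by positivity)

lemma cut_le {v : V N'} (hl : 4 ≤ l) (h : Pot b0 l r v (fh b0 l r v)) (x : V N') :
    |U (20 * l + 1) (19 * l) x * fh b0 l r v x| ≤ 328 * l * (s0 / r) := by
  have hs0 := s0_pos
  rcases le_or_gt (sz x) (41 * l) with h1 | h1
  · rw [abs_mul]
    calc _ ≤ 1 * |fh b0 l r v x| := mul_le_mul_of_nonneg_right (abs_U _ _ _) (abs_nonneg _)
      _ ≤ _ := by rw [one_mul]; exact h.2.2 x h1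
  · rw [U_zero (by omega), zero_mul, abs_zero]
    positivity

/-- the main statement, from the slope bounds -/
theorem gid_of (hl : 4 ≤ l) (hlr : 256 * l ≤ r) (hrN : 64 * r ≤ N') {p q : V N'} (hf : Far r p q)
    (hpot : ∀ v : V N', r ≤ 2 * sz v → sz v ≤ 4 * r → (∃ f : V N' → ℝ, Pot b0 l r v f) ∧
      ∀ x b, sz x ≤ 41 * l → |bD 0 v (x, b) - nf b0 0 (x, b)| ≤ s0 / r) :
    Gid b0 l r p q (gid b0 l r p q) := by
  classical
  have hs0 := s0_pos
  have hl' : (0 : ℝ) < l := by exact_mod_cast (by omega : 0 < l)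
  have hr' : (0 : ℝ) < r := by exact_mod_cast (by omega : 0 < r)
  have hf1 := hf.1
  have hf2 := hf.2
  obtain ⟨w1, w2⟩ := hpot (q - p) hf1 hf2
  obtain ⟨w3, w4⟩ := hpot (p - q) (by rw [sz_sub_comm]; exact hf1) (by rw [sz_sub_comm]; exact hf2)
  have sp := fh_spec w1
  have sq := fh_spec w3
  set A : V N' → ℝ := fun x => U (20 * l + 1) (19 * l) (x - p) * fh b0 l r (q - p) (x - p) with hA
  set B : V N' → ℝ := fun x => U (20 * l + 1) (19 * l) (x - q) * fh b0 l r (p - q) (x - q) with hB
  have hAz : ∀ x, 39 * l + 1 ≤ sz (x - p) → A x = 0 := by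
    intro x hx
    simp only [hA]
    rw [U_zero (by omega), zero_mul]
  have hBz : ∀ x, 39 * l + 1 ≤ sz (x - q) → B x = 0 := by
    intro x hx
    simp only [hB]
    rw [U_zero (by omega), zero_mul]
  have hAB : ∀ x, gid b0 l r p q x = B x - A x := fun x => rfl
  have sepp : ∀ x, sz (x - p) ≤ 41 * l → 41 * l < sz (x - q) := by
    intro x hx
    have h3 := sz_add_le (q - x) (x - p)
    rw [sub_add_sub_cancel, sz_sub_comm q x] at h3
    omega
  have sepq : ∀ x, sz (x - q) ≤ 41 * l → 41 * l < sz (x - p) := by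
    intro x hx
    have h3 := sz_add_le (q - x) (x - p)
    rw [sub_add_sub_cancel, sz_sub_comm q x] at h3
    omega
  have gA : GB (37 / 2 * s0 / r) A := by
    have := (cut_gb hl (by omega) sp w2).shift p
    exact this
  have gB : GB (37 / 2 * s0 / r) B := by
    have := (cut_gb hl (by omega) sq w4).shift q
    exact this
  have gg : GB (37 * s0 / r) (gid b0 l r p q) := by
    have h3 := gB.sub gA
    have e : (fun x => B x - A x) = gid b0 l r p q := by
      funext x
      rw [hAB]
    rw [e] at h3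
    refine h3.mono (le_of_eq ?_)
    ring
  have hstep : ∀ (x c : V N') (b : Bool), sz (x + eb b - c) ≤ sz (x - c) + 1 := by
    intro x c b
    rw [add_sub_right_comm]
    exact (sz_step (x - c) b).2
  refine ⟨⟨?_, ?_⟩, gg, ?_, ?_, ?_, ?_, ?_⟩
  · rintro ⟨x, b⟩ hx
    simp only at hx
    have h5 := hstep x p b
    have a1 : B x = 0 := hBz x (by have := sepp x (by omega); omega)
    have a2 : B (x + eb b) = 0 := hBz _ (by have := sepp (x + eb b) (by omega); omega)
    have a3 : A x = fh b0 l r (q - p) (x - p) := by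
      simp only [hA]
      rw [U_one (by omega) (by omega), one_mul]
    have a4 : A (x + eb b) = fh b0 l r (q - p) (x + eb b - p) := by
      simp only [hA]
      rw [U_one (by omega) (by omega), one_mul]
    have h6 := sp.2.1 (x - p) b (by omega)
    rw [gr_eq] at h6
    have h7 : x - p + eb b = x + eb b - p := by abel
    rw [h7] at h6
    rw [gr_eq, hAB, hAB, a1, a2, a3, a4, bD_shift0, nf_shift]
    linarith
  · rintro ⟨x, b⟩ hx
    simp only at hx
    have h5 := hstep x q b
    have a1 : A x = 0 := hAz x (by have := sepq x (by omega); omega)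
    have a2 : A (x + eb b) = 0 := hAz _ (by have := sepq (x + eb b) (by omega); omega)
    have a3 : B x = fh b0 l r (p - q) (x - q) := by
      simp only [hB]
      rw [U_one (by omega) (by omega), one_mul]
    have a4 : B (x + eb b) = fh b0 l r (p - q) (x + eb b - q) := by
      simp only [hB]
      rw [U_one (by omega) (by omega), one_mul]
    have h6 := sq.2.1 (x - q) b (by omega)
    rw [gr_eq] at h6
    have h7 : x - q + eb b = x + eb b - q := by abel
    rw [h7] at h6
    have h8 : bD p q (x, b) = -bD q p (x, b) := by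
      refine bD_neg ?_ _
      rw [sz_sub_comm]
      omega
    rw [gr_eq, hAB, hAB, a1, a2, a3, a4, h8, bD_shift0 q p, nf_shift]
    linarith
  · intro x
    rw [hAB]
    have e : 328 * s0 * ((l : ℝ) / r) = 328 * l * (s0 / r) := by ring
    rw [e]
    rcases le_or_gt (sz (x - p)) (41 * l) with h1 | h1
    · rw [hBz x (by have := sepp x h1; omega), zero_sub, abs_neg]
      exact cut_le hl sp (x - p)
    · rw [hAz x (by omega), sub_zero]
      exact cut_le hl sq (x - q)
  · intro x h1 h2
    rw [hAB, hAz x (by omega), hBz x (by omega), sub_zero]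
  · rw [hAB]
    have h1 := sepp p (by rw [sub_self, sz_zero]; omega)
    rw [hBz p (by omega)]
    simp only [hA]
    rw [sub_self, sp.1]
    ring
  · rw [hAB]
    have h1 := sepq q (by rw [sub_self, sz_zero]; omega)
    rw [hAz q (by omega)]
    simp only [hB]
    rw [sub_self, sq.1]
    ring
  · -- energy
    set S : Finset (V N' × Bool) := (univ : Finset (V N' × Bool)).filter
      fun e => sz (e.1 - p) ≤ 40 * l ∨ sz (e.1 - q) ≤ 40 * l with hS
    have hz : ∀ e ∉ S, gr (gid b0 l r p q) e = 0 := by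
      rintro ⟨x, b⟩ he
      rw [hS, Finset.mem_filter] at he
      simp only [Finset.mem_univ, true_and, not_or, not_le] at he
      have h5 := (sz_step (x - p) b).1
      have h6 := (sz_step (x - q) b).1
      rw [gr_eq, hAB, hAB, hAz x (by omega), hBz x (by omega),
        hAz (x + eb b) (by rw [add_sub_right_comm]; omega),
        hBz (x + eb b) (by rw [add_sub_right_comm]; omega)]
      ring
    have hsum : nrm (gr (gid b0 l r p q)) = ∑ e ∈ S, gr (gid b0 l r p q) e ^ 2 := by
      unfold nrm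
      refine (Finset.sum_subset (Finset.subset_univ S) ?_).symm
      intro e _ he
      rw [hz e he]
      ring
    have hcard : (S.card : ℝ) ≤ 4 * (4 * ((40 * l : ℕ) + 1 : ℝ) ^ 2) := by
      have box : ∀ c : V N', (((univ : Finset (V N')).filter fun z => sz (z - c) ≤ 40 * l).card : ℝ) ≤
          4 * (((40 * l : ℕ) : ℝ) + 1) ^ 2 := by
        intro c
        refine le_trans (le_of_eq ?_) (card_box (N := N') (40 * l))
        congr 1
        refine Finset.card_bij' (fun z _ => z - c) (fun z _ => z + c) ?_ ?_ ?_ ?_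
        · intro z hz
          rw [Finset.mem_filter] at hz ⊢
          exact ⟨Finset.mem_univ _, hz.2⟩
        · intro z hz
          rw [Finset.mem_filter] at hz ⊢
          refine ⟨Finset.mem_univ _, ?_⟩
          rw [add_sub_cancel_right]
          exact hz.2
        · intro z _
          exact sub_add_cancel _ _
        · intro z _
          exact add_sub_cancel_right _ _
      have hsub : S ⊆ (((univ : Finset (V N')).filter fun z => sz (z - p) ≤ 40 * l) ∪
          ((univ : Finset (V N')).filter fun z => sz (z - q) ≤ 40 * l)) ×ˢ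
            (univ : Finset Bool) := by
        rintro ⟨x, b⟩ hx
        rw [hS, Finset.mem_filter] at hx
        rw [Finset.mem_product, Finset.mem_union, Finset.mem_filter, Finset.mem_filter]
        simp only [Finset.mem_univ, true_and, and_true]
        exact hx.2
      have h3 := Finset.card_le_card hsub
      rw [Finset.card_product] at h3
      have h4 := Finset.card_union_le ((univ : Finset (V N')).filter fun z => sz (z - p) ≤ 40 * l)
        ((univ : Finset (V N')).filter fun z => sz (z - q) ≤ 40 * l)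
      have h5 : (univ : Finset Bool).card = 2 := rfl
      rw [h5] at h3
      have h6 : (S.card : ℝ) ≤ ((((univ : Finset (V N')).filter fun z => sz (z - p) ≤ 40 * l).card +
          ((univ : Finset (V N')).filter fun z => sz (z - q) ≤ 40 * l).card : ℕ) : ℝ) * 2 := by
        exact_mod_cast h3.trans (Nat.mul_le_mul_right 2 h4)
      push_cast at h6
      have b1 := box p
      have b2 := box q
      push_cast at b1 b2 ⊢
      linarith
    rw [hsum]
    have h7 : ∑ e ∈ S, gr (gid b0 l r p q) e ^ 2 ≤ ∑ _e ∈ S, (37 * s0 / r) ^ 2 := by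
      refine Finset.sum_le_sum fun e _ => ?_
      have h8 := gg e
      rw [← sq_abs]
      exact pow_le_pow_left₀ (abs_nonneg _) h8 2
    refine h7.trans ?_
    rw [Finset.sum_const, nsmul_eq_mul]
    have h9 : (4 : ℝ) * (4 * (((40 * l : ℕ) : ℝ) + 1) ^ 2) ≤ 4 * (4 * (41 * l) ^ 2) := by
      push_cast
      have : (1 : ℝ) ≤ l := by exact_mod_cast (by omega : 1 ≤ l)
      nlinarith
    have h10 : (0 : ℝ) ≤ (37 * s0 / r) ^ 2 := by positivity
    calc (S.card : ℝ) * (37 * s0 / r) ^ 2 ≤ 4 * (4 * (41 * l) ^ 2) * (37 * s0 / r) ^ 2 :=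
          mul_le_mul_of_nonneg_right (hcard.trans h9) h10
      _ = 36820624 * s0 ^ 2 * ((l : ℝ) / r) ^ 2 := by
          field_simp
          ring
      _ ≤ _ := by
          have : 0 ≤ s0 ^ 2 * ((l : ℝ) / r) ^ 2 := by positivity
          nlinarith

end

/-! ### the instance -/

section

variable {N N1 : ℕ} [NeZero N] [NeZero N1]

/-- **the ideal pairs of the torus `N`**, with the near field of the axis pair `(0, R1 e1)` of the
torus `N1` -/
theorem gid_spec {l r R1 : ℕ} (H : Prm N N1 l r R1) {p q : V N} (hf : Far r p q) :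
    Gid (bC N1 R1) l r p q (gid (bC N1 R1) l r p q) := by
  have hl := H.hl
  have hlr := H.hlr
  have hrN := H.hrN
  refine gid_of hl hlr hrN hf fun v h1 h2 => ?_
  have hf0 : Far r (0 : V N) v := by
    unfold Far
    rw [sub_zero]
    exact ⟨h1, h2⟩
  have hs : ∀ x b, sz x ≤ 41 * l → |bD (0 : V N) v (x, b) - nf (bC N1 R1) 0 (x, b)| ≤ s0 / r := by
    intro x b hx
    exact slope H hf0 b (by rw [sub_zero]; exact hx)
  refine ⟨?_, hs⟩
  obtain ⟨f, f1, f2, f3⟩ := box_pot (fun e => bD (0 : V N) v e - nf (bC N1 R1) 0 e) 0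
    (m := 41 * l) (by omega) (s := s0 / r)
    (fun x b hx => hs x b (by rw [sub_zero] at hx; exact hx))
    (fun x hx => closed H hf0 hx)
  refine ⟨f, f1, fun x b hx => f2 x b (by rw [sub_zero]; exact hx), fun x hx => ?_⟩
  refine (f3 x (by rw [sub_zero]; exact hx)).trans (le_of_eq ?_)
  push_cast
  ring

theorem hasId {l r R1 : ℕ} (H : Prm N N1 l r R1) (hr : 328 * s0 * l ≤ r) :
    HasId N (bC N1 R1) l r (37 * s0) := by
  intro p q hf
  have h := gid_spec H hf
  refine ⟨_, h.idl, h.gb, fun x => (h.le x).trans ?_⟩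
  have hl := H.hl
  have hlr := H.hlr
  have hr' : (0 : ℝ) < r := by exact_mod_cast (by omega : 0 < r)
  rw [← mul_div_assoc, div_le_one hr']
  exact hr

end

/-! ### reflection of the near field -/

section

variable {N : ℕ} [NeZero N]

lemma sR_z0 (n : ℕ) : sR (n • (e1 : V N)) = n • (e1 : V N) := by
  rw [nsmul_e1]
  unfold sR
  simp

lemma sF_z0 (n : ℕ) : sF (n • (e1 : V N)) = n • (e1 : V N) + -e2 := by
  unfold sF
  rw [sR_z0, sub_eq_add_neg]

lemma sF_zero : sF (0 : V N) = 0 + -e2 := by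
  unfold sF sR
  ext <;> simp

/-- the axis pair under the reflection -/
lemma Rf_axis {n : ℕ} (h : 2 * n < N) (x : V N) (b : Bool) :
    Rf (bD (0 : V N) (n • e1)) (x, b) = -bD (0 : V N) (n • e1) (x + e2, b) := by
  have hz := z0_sz (N := N) h
  rw [Rf_bD (by rw [sub_zero, hz]; exact h), sF_z0, sF_zero]
  have h1 := bD_shift (0 : V N) (n • e1) (-e2) (x + e2) b
  have h2 : x + e2 + -e2 = x := by abel
  rw [h2] at h1
  rw [h1]

/-- **the near field is odd under the reflection** -/
theorem refB {n : ℕ} (h : 2 * n < N) (m : ℕ) : RefB (bC N n) m := by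
  intro i j _ _
  constructor
  · have h1 := Rf_axis h (((i : ZMod N), ((-j : ℤ) : ZMod N)) : V N) false
    rw [Rf_false] at h1
    have h2 : sR (((i : ZMod N), ((-j : ℤ) : ZMod N)) : V N) = ((i : ZMod N), (j : ZMod N)) := by
      unfold sR
      simp
    have h3 : (((i : ZMod N), ((-j : ℤ) : ZMod N)) : V N) + e2 =
        ((i : ZMod N), ((1 - j : ℤ) : ZMod N)) := by
      unfold e2
      ext
      · simp
      · push_cast
        simp only [Prod.snd_add]
        ring
    rw [h2, h3] at h1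
    exact h1
  · have h1 := Rf_axis h (((i : ZMod N), ((-j - 1 : ℤ) : ZMod N)) : V N) true
    rw [Rf_true] at h1
    have h2 : sR (((i : ZMod N), ((-j - 1 : ℤ) : ZMod N)) : V N) - e2 =
        ((i : ZMod N), (j : ZMod N)) := by
      unfold sR e2
      ext
      · simp
      · push_cast
        simp only [Prod.snd_sub]
        ring
    have h3 : (((i : ZMod N), ((-j - 1 : ℤ) : ZMod N)) : V N) + e2 =
        ((i : ZMod N), ((-j : ℤ) : ZMod N)) := by
      unfold e2
      ext
      · simp
      · push_cast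
        simp only [Prod.snd_add]
        ring
    rw [h2, h3] at h1
    exact neg_inj.1 h1

end

end

end Vale.Agent.P159.H859.Idl
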