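import Vale.Agent.P159.H817.St4

/-!
P159 / LocK (helper859): the fields of the class `KK` away from the cores, and the choice of a gap
away from at most eight points.
-/

open Finset

set_option linter.unusedSectionVars false

namespace Vale.Agent.P159.H859.Kg

open Vale.Agent.P159.TM.Spec (V)
open Vale.Agent.P159.H817

noncomputable section

variable {N : ℕ} [NeZero N]

/-- a real field -/
lemma gr_away {l : ℕ} {Λ : ℝ} {g : V N → ℝ} (hg : GB (Λ / l) g) (e : V N × Bool) (x : V N) :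
    |gr g e| ≤ Λ / l ∧ cu (gr g) x = 0 := ⟨hg e, cu_gr g x⟩

/-- a decorated pair away from its cores -/
lemma cfg_away {l l0 d : ℕ} {Λ : ℝ} {F0 F1 : ℤ → ℤ → ℝ} (h0 : SuppD l0 F0) (h1 : SuppD l0 F1)
    {p q : V N} {g : V N → ℝ} (hg : GB (Λ / l) g) (hd : l0 + 2 ≤ d) {x : V N} (b : Bool)
    (hp : d ≤ sz (x - p)) (hq : d ≤ sz (x - q)) :
    |cfg F0 F1 p q g (x, b)| ≤ 1 / N + 4 * CG / (1 + d) + Λ / l := by
  unfold cfg
  rw [gr_dec_zero h0 b (by omega), gr_dec_zero h1 b (by omega), add_zero, add_zero]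
  exact (abs_add_le _ _).trans (add_le_add (bD_le p q x b hp hq) (hg _))

/-- the curl of a decorated pair away from its cores -/
lemma cu_away {F0 F1 : ℤ → ℤ → ℝ} {p q : V N} {g : V N → ℝ} {d : ℕ} (hd : 1 ≤ d) {x : V N}
    (hp : d ≤ sz (x - p)) (hq : d ≤ sz (x - q)) : cu (cfg F0 F1 p q g) x = 0 := by
  refine cu_cfg (fun h => ?_) fun h => ?_
  · rw [h, sub_self, sz_zero] at hp
    omega
  · rw [h, sub_self, sz_zero] at hq
    omega

/-- **the fields of `KK` away from at most two points** -/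
theorem kk_away {l r l0 : ℕ} {Λ : ℝ} {D0 D1 : Dec} {β : V N × Bool → ℝ}
    (hβ : KK l r Λ D0 D1 β) (h0 : ∀ F ∈ D0, SuppD l0 F) (h1 : ∀ F ∈ D1, SuppD l0 F) :
    ∃ S : Finset (V N), S.card ≤ 2 ∧ ∀ d, l0 + 2 ≤ d → ∀ x, (∀ p ∈ S, d ≤ sz (x - p)) →
      cu β x = 0 ∧ ∀ b, |β (x, b)| ≤ 1 / N + 4 * CG / (1 + d) + Λ / l := by
  classical
  rcases hβ with ⟨g, hg, rfl⟩ | ⟨F0, hF0, F1, hF1, p, q, g, _, hg, rfl⟩
  · refine ⟨∅, by simp, fun d hd x _ => ⟨cu_gr g x, fun b => (hg _).trans ?_⟩⟩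
    have hC := CG_pos
    have h : (0 : ℝ) ≤ 1 / N + 4 * CG / (1 + d) := by positivity
    linarith
  · refine ⟨{p, q}, card_le_two, fun d hd x hx => ⟨?_, fun b => ?_⟩⟩
    · exact cu_away (by omega) (hx p (by simp)) (hx q (by simp))
    · exact cfg_away (h0 F0 hF0) (h1 F1 hF1) hg hd b (hx p (by simp)) (hx q (by simp))

/-- the number: at distance at least `l / 25` -/
lemma away_num {l d : ℕ} {Λ : ℝ} (hl : 0 < l) (hlN : l ≤ N) (hd : l ≤ 25 * (d + 1)) :
    1 / (N : ℝ) + 4 * CG / (1 + d) + Λ / l ≤ (1 + 100 * CG + Λ) / l := by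
  have hC := CG_pos
  have hl' : (0 : ℝ) < l := by exact_mod_cast hl
  have h1 : 1 / (N : ℝ) ≤ 1 / l := one_div_le_one_div_of_le hl' (by exact_mod_cast hlN)
  have h2 : 4 * CG / (1 + (d : ℝ)) ≤ 100 * CG / l := by
    rw [div_le_div_iff₀ (by positivity) hl']
    have h3 : (l : ℝ) ≤ 25 * ((d : ℝ) + 1) := by exact_mod_cast hd
    nlinarith
  rw [add_div, add_div]
  linarith

/-- **a gap away from at most eight radii** -/
theorem exists_gap (S : Finset ℕ) (hS : S.card ≤ 8) (m w : ℕ) :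
    ∃ j < 25, ∀ s ∈ S, s + w ≤ m + j * w ∨ m + (j + 2) * w ≤ s := by
  classical
  rcases Nat.eq_zero_or_pos w with rfl | hw
  · refine ⟨0, by norm_num, fun s _ => ?_⟩
    simp only [Nat.mul_zero, Nat.add_zero]
    exact le_total s m
  set T : Finset ℕ := S.biUnion fun s => {(s - m) / w - 1, (s - m) / w, (s - m) / w + 1} with hT
  have hc : T.card < (range 25).card := by
    rw [card_range]
    have h1 : T.card ≤ ∑ s ∈ S, ({(s - m) / w - 1, (s - m) / w, (s - m) / w + 1} : Finset ℕ).card :=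
      card_biUnion_le
    have h2 : ∑ s ∈ S, ({(s - m) / w - 1, (s - m) / w, (s - m) / w + 1} : Finset ℕ).card ≤
        ∑ s ∈ S, 3 := sum_le_sum fun s _ => card_le_three
    rw [sum_const, smul_eq_mul] at h2
    omega
  obtain ⟨j, hj, hjT⟩ := exists_mem_notMem_of_card_lt_card hc
  refine ⟨j, mem_range.1 hj, fun s hs => ?_⟩
  have h3 : j ∉ ({(s - m) / w - 1, (s - m) / w, (s - m) / w + 1} : Finset ℕ) := fun h =>
    hjT (mem_biUnion.2 ⟨s, hs, h⟩)
  simp only [mem_insert, mem_singleton, not_or] at h3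
  set c := (s - m) / w with hc'
  have h4 : c * w ≤ s - m := Nat.div_mul_le_self _ _
  have h5 : s - m < (c + 1) * w := by
    exact Nat.lt_mul_of_div_lt (Nat.lt_succ_self _) hw
  rcases Nat.lt_or_ge j c with h6 | h6
  · right
    have h7 : j + 2 ≤ c := by omega
    have h8 : (j + 2) * w ≤ c * w := Nat.mul_le_mul_right _ h7
    have h9 : 2 * w ≤ (j + 2) * w := Nat.mul_le_mul_right _ (by omega)
    omega
  · left
    have h7 : c + 2 ≤ j := by omega
    have h8 : (c + 2) * w ≤ j * w := Nat.mul_le_mul_right _ h7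
    have h9 : (c + 2) * w = (c + 1) * w + w := by ring
    omega

/-- the same for at most eight points of the torus and the radius around `w₀` -/
theorem exists_gap_pts (S : Finset (V N)) (hS : S.card ≤ 8) (w₀ : V N) (m w : ℕ) :
    ∃ j < 25, ∀ p ∈ S, ∀ x : V N, m + j * w ≤ sz (x - w₀) → sz (x - w₀) ≤ m + (j + 1) * w →
      w ≤ sz (x - p) := by
  classical
  obtain ⟨j, hj, h⟩ := exists_gap (S.image fun p => sz (p - w₀)) (card_image_le.trans hS) m w
  refine ⟨j, hj, fun p hp x h1 h2 => ?_⟩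
  have h3 := h (sz (p - w₀)) (mem_image_of_mem _ hp)
  have h4 : sz (x - w₀) ≤ sz (x - p) + sz (p - w₀) := by
    have e : x - w₀ = (x - p) + (p - w₀) := by abel
    rw [e]
    exact sz_add_le _ _
  have h5 : sz (p - w₀) ≤ sz (x - p) + sz (x - w₀) := by
    have e : p - w₀ = -(x - p) + (x - w₀) := by abel
    rw [e]
    refine (sz_add_le _ _).trans ?_
    rw [sz_neg]
  have h6 : (j + 2) * w = (j + 1) * w + w := by ring
  have h7 : (j + 1) * w = j * w + w := by ring
  rcases h3 with h3 | h3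
  · omega
  · omega

end

end Vale.Agent.P159.H859.Kg
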