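import Mathlib

/-!
P159 (helper859), LINKW (B), piece Lw4: the stream function of the diamond pyramid on the faces of
the square lattice, its box average, and the three bounds: the Laplacian of the average, its
square sum, and the energy of the difference.
-/

set_option linter.unusedSectionVars false

namespace Vale.Agent.P159.H859

open Finset

noncomputable section

/-! ### integer functions -/

/-- `|u + 1/2| - 1/2` -/
def m1 (u : ℤ) : ℤ := max u (-1 - u)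

/-- one dimensional tent -/
def tz (P u : ℤ) : ℤ := max 0 (P - m1 u)

/-- second difference of the tent -/
def d2 (P u : ℤ) : ℤ := 2 * tz P u - tz P (u + 1) - tz P (u - 1)

theorem d2_zero {P : ℤ} (hP : P ≤ 0) (u : ℤ) : d2 P u = 0 := by
  unfold d2 tz m1
  omega

theorem d2_abs (P u : ℤ) : |d2 P u| ≤ 1 := by
  unfold d2 tz m1
  rw [abs_le]
  omega

theorem d2_ne {P u : ℤ} (h : d2 P u ≠ 0) : u = 0 ∨ u = -1 ∨ u = P ∨ u = -1 - P := by
  unfold d2 tz m1 at h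
  omega

/-- support of the second difference -/
def Ts (P : ℤ) : Finset ℤ := {0, -1, P, -1 - P}

theorem Ts_card (P : ℤ) : (Ts P).card ≤ 4 := by
  unfold Ts
  exact Finset.card_le_four

theorem mem_Ts {P u : ℤ} (h : d2 P u ≠ 0) : u ∈ Ts P := by
  unfold Ts
  simp only [Finset.mem_insert, Finset.mem_singleton]
  exact d2_ne h

/-- sum of the second differences of the tent over any injective family is at most four -/
theorem sum_d2 {ι : Type*} (S : Finset ι) (a : ι → ℤ) (ha : Set.InjOn a S) (P : ℤ) :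
    ∑ i ∈ S, |d2 P (a i)| ≤ 4 := by
  classical
  have h1 : ∑ i ∈ S, |d2 P (a i)| ≤ ∑ i ∈ S, if a i ∈ Ts P then (1 : ℤ) else 0 := by
    refine Finset.sum_le_sum fun i _ => ?_
    split
    · exact d2_abs _ _
    · rename_i h
      have h2 : d2 P (a i) = 0 := by
        by_contra h3
        exact h (mem_Ts h3)
      rw [h2, abs_zero]
  refine h1.trans ?_
  rw [Finset.sum_ite, Finset.sum_const_zero, add_zero, Finset.sum_const, nsmul_eq_mul, mul_one]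
  have h2 : (S.filter fun i => a i ∈ Ts P).card ≤ (Ts P).card := by
    refine Finset.card_le_card_of_injOn a (fun i hi => ?_) (ha.mono ?_)
    · exact (Finset.mem_filter.1 hi).2
    · intro i hi
      exact (Finset.mem_filter.1 hi).1
  exact_mod_cast h2.trans (Ts_card P)

/-- stream function of the pyramid with centre `0` -/
def pz (p : ℤ) (c : ℤ × ℤ) : ℤ := max 0 (p - 1 - m1 c.1 - m1 c.2)

theorem pz_tz1 (p : ℤ) (c : ℤ × ℤ) : pz p c = tz (p - 1 - m1 c.2) c.1 := by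
  unfold pz tz
  congr 1
  ring

theorem pz_tz2 (p : ℤ) (c : ℤ × ℤ) : pz p c = tz (p - 1 - m1 c.1) c.2 := rfl

theorem pz_lip (p : ℤ) (c d : ℤ × ℤ) : |pz p c - pz p d| ≤ |c.1 - d.1| + |c.2 - d.2| := by
  unfold pz m1
  rw [abs_le]
  rcases abs_cases (c.1 - d.1) with ⟨h, _⟩ | ⟨h, _⟩ <;>
    rcases abs_cases (c.2 - d.2) with ⟨h', _⟩ | ⟨h', _⟩ <;> rw [h, h'] <;> omega

theorem pz_nonneg (p : ℤ) (c : ℤ × ℤ) : 0 ≤ pz p c := le_max_left _ _

theorem pz_le (p : ℤ) (hp : 0 ≤ p) (c : ℤ × ℤ) : pz p c ≤ p := by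
  unfold pz m1
  omega

theorem pz_ne {p : ℤ} {c : ℤ × ℤ} (h : pz p c ≠ 0) :
    -p < c.1 ∧ c.1 < p - 1 ∧ -p < c.2 ∧ c.2 < p - 1 := by
  unfold pz m1 at h
  omega

/-- horizontal second difference -/
theorem D1_eq (p : ℤ) (c : ℤ × ℤ) :
    2 * pz p c - pz p (c + (1, 0)) - pz p (c - (1, 0)) = d2 (p - 1 - m1 c.2) c.1 := by
  rw [pz_tz1, pz_tz1, pz_tz1]
  unfold d2
  simp

theorem D2_eq (p : ℤ) (c : ℤ × ℤ) :
    2 * pz p c - pz p (c + (0, 1)) - pz p (c - (0, 1)) = d2 (p - 1 - m1 c.1) c.2 := by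
  rw [pz_tz2, pz_tz2, pz_tz2]
  unfold d2
  simp

/-- sum over any finite set of faces of one family of second differences -/
theorem sum_D (p : ℤ) (hp : 1 ≤ p) (S : Finset (ℤ × ℤ)) :
    ∑ c ∈ S, |d2 (p - 1 - m1 c.2) c.1| ≤ 8 * (p - 1) := by
  classical
  -- group by the second coordinate
  have h0 : ∑ c ∈ S, |d2 (p - 1 - m1 c.2) c.1| =
      ∑ v ∈ S.image Prod.snd, ∑ c ∈ S.filter (fun c => c.2 = v), |d2 (p - 1 - m1 v) c.1| := by
    rw [← Finset.sum_fiberwise_of_maps_to (t := S.image Prod.snd) (g := Prod.snd)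
      (fun c hc => Finset.mem_image_of_mem _ hc)]
    refine Finset.sum_congr rfl fun v _ => Finset.sum_congr rfl fun c hc => ?_
    rw [(Finset.mem_filter.1 hc).2]
  rw [h0]
  have h1 : ∀ v : ℤ, ∑ c ∈ S.filter (fun c => c.2 = v), |d2 (p - 1 - m1 v) c.1| ≤
      if v ∈ Finset.Ico (-(p - 1)) (p - 1) then 4 else 0 := by
    intro v
    split
    · refine sum_d2 _ _ ?_ _
      intro a ha b hb h
      have ha' := (Finset.mem_filter.1 ha).2
      have hb' := (Finset.mem_filter.1 hb).2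
      exact Prod.ext h (ha'.trans hb'.symm)
    · rename_i h
      refine le_of_eq (Finset.sum_eq_zero fun c _ => ?_)
      rw [d2_zero, abs_zero]
      unfold m1
      rw [Finset.mem_Ico] at h
      omega
  refine (Finset.sum_le_sum fun v _ => h1 v).trans ?_
  rw [Finset.sum_ite, Finset.sum_const_zero, add_zero, Finset.sum_const, nsmul_eq_mul]
  have h2 : ((S.image Prod.snd).filter fun v => v ∈ Finset.Ico (-(p - 1)) (p - 1)).card ≤
      (Finset.Ico (-(p - 1)) (p - 1)).card :=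
    Finset.card_le_card fun v hv => (Finset.mem_filter.1 hv).2
  rw [Int.card_Ico] at h2
  have h3 : (((S.image Prod.snd).filter fun v => v ∈ Finset.Ico (-(p - 1)) (p - 1)).card : ℤ) ≤
      2 * (p - 1) := by
    refine (Int.ofNat_le.2 h2).trans ?_
    omega
  linarith

theorem sum_D' (p : ℤ) (hp : 1 ≤ p) (S : Finset (ℤ × ℤ)) :
    ∑ c ∈ S, |d2 (p - 1 - m1 c.1) c.2| ≤ 8 * (p - 1) := by
  have h := sum_D p hp (S.map (Equiv.prodComm ℤ ℤ).toEmbedding)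
  rw [Finset.sum_map] at h
  exact h

/-! ### real functions on the faces -/

/-- `- Laplacian` on the square lattice -/
def lapz (f : ℤ × ℤ → ℝ) (c : ℤ × ℤ) : ℝ :=
  (f c - f (c + (1, 0))) + (f c - f (c - (1, 0))) + (f c - f (c + (0, 1))) + (f c - f (c - (0, 1)))

/-- density of the energy -/
def gdz (f : ℤ × ℤ → ℝ) (c : ℤ × ℤ) : ℝ := (f (c + (1, 0)) - f c) ^ 2 + (f (c + (0, 1)) - f c) ^ 2

/-- stream function of the pyramid of radius `p` with centre `(x0, y0)` -/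
def pf (x0 y0 p : ℤ) (c : ℤ × ℤ) : ℝ := (pz p (c - (x0, y0)) : ℝ)

/-- the translates -/
def trz (q : ℤ × ℤ) (f : ℤ × ℤ → ℝ) (c : ℤ × ℤ) : ℝ := f (c + q)

/-- the box of the average -/
def bx (s : ℕ) : Finset (ℤ × ℤ) := Finset.Ico (0 : ℤ) s ×ˢ Finset.Ico (0 : ℤ) s

/-- the box average -/
def smz (s : ℕ) (f : ℤ × ℤ → ℝ) (c : ℤ × ℤ) : ℝ := (∑ q ∈ bx s, f (c + q)) / (s : ℝ) ^ 2

theorem bx_card (s : ℕ) : (bx s).card = s ^ 2 := by
  unfold bx
  rw [Finset.card_product, Int.card_Ico]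
  simp [sq]

theorem mem_bx {s : ℕ} {q : ℤ × ℤ} (h : q ∈ bx s) : 0 ≤ q.1 ∧ q.1 < s ∧ 0 ≤ q.2 ∧ q.2 < s := by
  unfold bx at h
  rw [Finset.mem_product, Finset.mem_Ico, Finset.mem_Ico] at h
  exact ⟨h.1.1, h.1.2, h.2.1, h.2.2⟩

theorem lapz_pf (x0 y0 p : ℤ) (c : ℤ × ℤ) :
    lapz (pf x0 y0 p) c = (d2 (p - 1 - m1 (c.2 - y0)) (c.1 - x0) : ℤ) +
      (d2 (p - 1 - m1 (c.1 - x0)) (c.2 - y0) : ℤ) := by
  have h1 := D1_eq p (c - (x0, y0))
  have h2 := D2_eq p (c - (x0, y0))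
  have e : ∀ q : ℤ × ℤ, c + q - (x0, y0) = c - (x0, y0) + q := fun q => by abel
  have e' : ∀ q : ℤ × ℤ, c - q - (x0, y0) = c - (x0, y0) - q := fun q => by abel
  unfold lapz pf
  rw [e, e', e, e']
  simp only [Prod.fst_sub, Prod.snd_sub] at h1 h2
  rw [← h1, ← h2]
  push_cast
  ring

theorem lapz_pf_le (x0 y0 p : ℤ) (c : ℤ × ℤ) :
    |lapz (pf x0 y0 p) c| ≤ |(d2 (p - 1 - m1 (c.2 - y0)) (c.1 - x0) : ℝ)| +
      |(d2 (p - 1 - m1 (c.1 - x0)) (c.2 - y0) : ℝ)| := by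
  rw [lapz_pf]
  exact abs_add_le _ _

theorem lapz_abs (x0 y0 p : ℤ) (c : ℤ × ℤ) : |lapz (pf x0 y0 p) c| ≤ 2 := by
  refine (lapz_pf_le x0 y0 p c).trans ?_
  have h1 := d2_abs (p - 1 - m1 (c.2 - y0)) (c.1 - x0)
  have h2 := d2_abs (p - 1 - m1 (c.1 - x0)) (c.2 - y0)
  have h1' : |(d2 (p - 1 - m1 (c.2 - y0)) (c.1 - x0) : ℝ)| ≤ 1 := by exact_mod_cast h1
  have h2' : |(d2 (p - 1 - m1 (c.1 - x0)) (c.2 - y0) : ℝ)| ≤ 1 := by exact_mod_cast h2
  linarith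

/-- the total mass of the Laplacian of the pyramid -/
theorem sum_lapz (x0 y0 : ℤ) {p : ℤ} (hp : 1 ≤ p) (S : Finset (ℤ × ℤ)) :
    ∑ c ∈ S, |lapz (pf x0 y0 p) c| ≤ 16 * ((p : ℝ) - 1) := by
  classical
  refine (Finset.sum_le_sum fun c _ => lapz_pf_le x0 y0 p c).trans ?_
  rw [Finset.sum_add_distrib]
  have h1 := sum_D p hp (S.map (addRightEmbedding (-(x0, y0))))
  have h2 := sum_D' p hp (S.map (addRightEmbedding (-(x0, y0))))
  rw [Finset.sum_map] at h1 h2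
  have e1 : ∑ c ∈ S, |(d2 (p - 1 - m1 (c.2 - y0)) (c.1 - x0) : ℝ)| ≤ 8 * ((p : ℝ) - 1) := by
    have h3 : ((∑ c ∈ S, |d2 (p - 1 - m1 (c.2 - y0)) (c.1 - x0)| : ℤ) : ℝ) ≤
        ((8 * (p - 1) : ℤ) : ℝ) := by
      refine Int.cast_le.2 ((le_of_eq ?_).trans h1)
      refine Finset.sum_congr rfl fun c _ => ?_
      simp [sub_eq_add_neg]
    push_cast at h3
    exact h3
  have e2 : ∑ c ∈ S, |(d2 (p - 1 - m1 (c.1 - x0)) (c.2 - y0) : ℝ)| ≤ 8 * ((p : ℝ) - 1) := by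
    have h3 : ((∑ c ∈ S, |d2 (p - 1 - m1 (c.1 - x0)) (c.2 - y0)| : ℤ) : ℝ) ≤
        ((8 * (p - 1) : ℤ) : ℝ) := by
      refine Int.cast_le.2 ((le_of_eq ?_).trans h2)
      refine Finset.sum_congr rfl fun c _ => ?_
      simp [sub_eq_add_neg]
    push_cast at h3
    exact h3
  linarith

theorem sum_trz {f : ℤ × ℤ → ℝ} {A : ℝ} (h : ∀ S : Finset (ℤ × ℤ), ∑ c ∈ S, f c ≤ A)
    (q : ℤ × ℤ) (S : Finset (ℤ × ℤ)) : ∑ c ∈ S, f (c + q) ≤ A := by
  have h1 := h (S.map (addRightEmbedding q))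
  rw [Finset.sum_map] at h1
  exact h1

theorem lapz_smz (s : ℕ) (f : ℤ × ℤ → ℝ) (c : ℤ × ℤ) :
    lapz (smz s f) c = (∑ q ∈ bx s, lapz f (c + q)) / (s : ℝ) ^ 2 := by
  have e : ∀ q a : ℤ × ℤ, c + q + a = c + a + q := fun q a => by abel
  have e' : ∀ q a : ℤ × ℤ, c + q - a = c - a + q := fun q a => by abel
  unfold lapz smz
  simp only [e, e', Finset.sum_add_distrib, Finset.sum_sub_distrib]
  ring

/-- mass of the Laplacian of the pyramid in a box of side `s` -/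
theorem box_lapz (x0 y0 p : ℤ) (s : ℕ) (c : ℤ × ℤ) :
    ∑ q ∈ bx s, |lapz (pf x0 y0 p) (c + q)| ≤ 8 * (s : ℝ) := by
  classical
  refine (Finset.sum_le_sum fun q _ => lapz_pf_le x0 y0 p (c + q)).trans ?_
  rw [Finset.sum_add_distrib]
  have h1 : ∀ v : ℤ, ∑ u ∈ Finset.Ico (0 : ℤ) s,
      |(d2 (p - 1 - m1 (c.2 + v - y0)) (c.1 + u - x0) : ℝ)| ≤ 4 := by
    intro v
    have h := sum_d2 (Finset.Ico (0 : ℤ) s) (fun u => c.1 + u - x0)
      (fun a _ b _ hab => by simpa using hab) (p - 1 - m1 (c.2 + v - y0))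
    exact_mod_cast h
  have h2 : ∀ u : ℤ, ∑ v ∈ Finset.Ico (0 : ℤ) s,
      |(d2 (p - 1 - m1 (c.1 + u - x0)) (c.2 + v - y0) : ℝ)| ≤ 4 := by
    intro u
    have h := sum_d2 (Finset.Ico (0 : ℤ) s) (fun v => c.2 + v - y0)
      (fun a _ b _ hab => by simpa using hab) (p - 1 - m1 (c.1 + u - x0))
    exact_mod_cast h
  have e1 : ∑ q ∈ bx s, |(d2 (p - 1 - m1 ((c + q).2 - y0)) ((c + q).1 - x0) : ℝ)| ≤ 4 * s := by
    unfold bx
    rw [Finset.sum_product_right]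
    refine (Finset.sum_le_sum fun v _ => h1 v).trans (le_of_eq ?_)
    rw [Finset.sum_const, Int.card_Ico]
    simp
    ring
  have e2 : ∑ q ∈ bx s, |(d2 (p - 1 - m1 ((c + q).1 - x0)) ((c + q).2 - y0) : ℝ)| ≤ 4 * s := by
    unfold bx
    rw [Finset.sum_product]
    refine (Finset.sum_le_sum fun u _ => h2 u).trans (le_of_eq ?_)
    rw [Finset.sum_const, Int.card_Ico]
    simp
    ring
  linarith

/-- **the Laplacian of the smoothed pyramid is at most `8 / s`** -/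
theorem lapz_smz_le (x0 y0 p : ℤ) {s : ℕ} (hs : 1 ≤ s) (c : ℤ × ℤ) :
    |lapz (smz s (pf x0 y0 p)) c| ≤ 8 / s := by
  have hs0 : (0 : ℝ) < s := by exact_mod_cast hs
  rw [lapz_smz, abs_div, abs_of_pos (show (0 : ℝ) < (s : ℝ) ^ 2 by positivity),
    div_le_div_iff₀ (by positivity) hs0]
  have h1 := (Finset.abs_sum_le_sum_abs (fun q => lapz (pf x0 y0 p) (c + q)) (bx s)).trans
    (box_lapz x0 y0 p s c)
  nlinarith [h1, hs0]

/-- total mass of the Laplacian of the smoothed pyramid -/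
theorem sum_lapz_smz (x0 y0 : ℤ) {p : ℤ} (hp : 1 ≤ p) {s : ℕ} (hs : 1 ≤ s) (S : Finset (ℤ × ℤ)) :
    ∑ c ∈ S, |lapz (smz s (pf x0 y0 p)) c| ≤ 16 * ((p : ℝ) - 1) := by
  have hs0 : (0 : ℝ) < s := by exact_mod_cast hs
  have h1 : ∀ c ∈ S, |lapz (smz s (pf x0 y0 p)) c| ≤
      (∑ q ∈ bx s, |lapz (pf x0 y0 p) (c + q)|) / (s : ℝ) ^ 2 := by
    intro c _
    rw [lapz_smz, abs_div, abs_of_pos (show (0 : ℝ) < (s : ℝ) ^ 2 by positivity)]
    exact div_le_div_of_nonneg_right (Finset.abs_sum_le_sum_abs _ _) (by positivity)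
  refine (Finset.sum_le_sum h1).trans ?_
  rw [← Finset.sum_div, Finset.sum_comm, div_le_iff₀ (by positivity)]
  refine (Finset.sum_le_sum fun q _ =>
    sum_trz (f := fun c => |lapz (pf x0 y0 p) c|) (sum_lapz x0 y0 hp) q S).trans ?_
  rw [Finset.sum_const, bx_card, nsmul_eq_mul]
  push_cast
  exact le_of_eq (by ring)

/-- **the square sum of the Laplacian of the smoothed pyramid is at most `128 (p - 1) / s`** -/
theorem sq_lapz_smz (x0 y0 : ℤ) {p : ℤ} (hp : 1 ≤ p) {s : ℕ} (hs : 1 ≤ s) (S : Finset (ℤ × ℤ)) :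
    ∑ c ∈ S, lapz (smz s (pf x0 y0 p)) c ^ 2 ≤ 128 * ((p : ℝ) - 1) / s := by
  have hs0 : (0 : ℝ) < s := by exact_mod_cast hs
  have h1 : ∀ c ∈ S, lapz (smz s (pf x0 y0 p)) c ^ 2 ≤
      8 / s * |lapz (smz s (pf x0 y0 p)) c| := by
    intro c _
    have h2 := lapz_smz_le x0 y0 p hs c
    rw [← sq_abs, sq]
    exact mul_le_mul_of_nonneg_right h2 (abs_nonneg _)
  refine (Finset.sum_le_sum h1).trans ?_
  rw [← Finset.mul_sum]
  refine (mul_le_mul_of_nonneg_left (sum_lapz_smz x0 y0 hp hs S) (by positivity)).trans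
    (le_of_eq ?_)
  field_simp
  ring

/-! ### functions of finite support -/

/-- finite support -/
def Fsu (h : ℤ × ℤ → ℝ) : Prop := (Function.support h).Finite

/-- total energy -/
def enz (h : ℤ × ℤ → ℝ) : ℝ := ∑' c, gdz h c

theorem Fsu.trz {h : ℤ × ℤ → ℝ} (hh : Fsu h) (q : ℤ × ℤ) : Fsu (trz q h) := by
  unfold Fsu at hh ⊢
  have e : Function.support (H859.trz q h) = (fun c => c + q) ⁻¹' Function.support h := rfl
  rw [e]
  exact hh.preimage (add_left_injective q).injOn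

theorem Fsu.sub {h k : ℤ × ℤ → ℝ} (hh : Fsu h) (hk : Fsu k) : Fsu (fun c => h c - k c) :=
  (hh.union hk).subset (Function.support_sub h k)

theorem Fsu.mul {h : ℤ × ℤ → ℝ} (hh : Fsu h) (k : ℤ × ℤ → ℝ) : Fsu (fun c => h c * k c) :=
  hh.subset (Function.support_mul_subset_left h k)

theorem Fsu.add {h k : ℤ × ℤ → ℝ} (hh : Fsu h) (hk : Fsu k) : Fsu (fun c => h c + k c) :=
  (hh.union hk).subset (Function.support_add h k)

theorem Fsu.sum {ι : Type*} (S : Finset ι) {h : ι → ℤ × ℤ → ℝ} (hh : ∀ i ∈ S, Fsu (h i)) :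
    Fsu (fun c => ∑ i ∈ S, h i c) := by
  classical
  induction S using Finset.induction_on with
  | empty =>
    have : (fun c : ℤ × ℤ => ∑ i ∈ (∅ : Finset ι), h i c) = fun _ => (0 : ℝ) := by
      funext c
      simp
    rw [this]
    unfold Fsu
    simp
  | insert a S ha ih =>
    have : (fun c : ℤ × ℤ => ∑ i ∈ insert a S, h i c) =
        fun c => h a c + ∑ i ∈ S, h i c := by
      funext c
      rw [Finset.sum_insert ha]
    rw [this]
    exact (hh a (Finset.mem_insert_self _ _)).add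
      (ih fun i hi => hh i (Finset.mem_insert_of_mem hi))

theorem Fsu.summable {h : ℤ × ℤ → ℝ} (hh : Fsu h) : Summable h :=
  summable_of_hasFiniteSupport hh

theorem tsum_trz (h : ℤ × ℤ → ℝ) (q : ℤ × ℤ) : ∑' c, h (c + q) = ∑' c, h c :=
  (Equiv.addRight q).tsum_eq h

/-- summation by parts in one direction -/
theorem sbp {h : ℤ × ℤ → ℝ} (hh : Fsu h) (e : ℤ × ℤ) :
    Fsu (fun c => (h (c + e) - h c) ^ 2) ∧
    Fsu (fun c => h c * ((h c - h (c + e)) + (h c - h (c - e)))) ∧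
    ∑' c, (h (c + e) - h c) ^ 2 = ∑' c, h c * ((h c - h (c + e)) + (h c - h (c - e))) := by
  have f1 : Fsu (fun c => h (c + e)) := hh.trz e
  have f2 : Fsu (fun c => (h (c + e) - h c) ^ 2) := by
    have := (f1.sub hh).mul (fun c => h (c + e) - h c)
    simpa only [sq] using this
  have f3 : Fsu (fun c => h c * ((h c - h (c + e)) + (h c - h (c - e)))) := hh.mul _
  refine ⟨f2, f3, ?_⟩
  have g1 : Fsu (fun c => h (c + e) * h (c + e)) := f1.mul _
  have g2 : Fsu (fun c => h c * h (c + e)) := hh.mul _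
  have g3 : Fsu (fun c => h c * h c) := hh.mul _
  have g4 : Fsu (fun c => h c * h (c - e)) := hh.mul _
  have a1 : ∑' c, (h (c + e) - h c) ^ 2 = ∑' c, h (c + e) * h (c + e) -
      2 * ∑' c, h c * h (c + e) + ∑' c, h c * h c := by
    rw [← tsum_mul_left, ← (g1.summable.tsum_sub (g2.summable.mul_left 2)),
      ← ((g1.summable.sub (g2.summable.mul_left 2)).tsum_add g3.summable)]
    refine tsum_congr fun c => ?_
    ring
  have a2 : ∑' c, h c * ((h c - h (c + e)) + (h c - h (c - e))) = 2 * ∑' c, h c * h c -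
      ∑' c, h c * h (c + e) - ∑' c, h c * h (c - e) := by
    rw [← tsum_mul_left, ← ((g3.summable.mul_left 2).tsum_sub g2.summable),
      ← (((g3.summable.mul_left 2).sub g2.summable).tsum_sub g4.summable)]
    refine tsum_congr fun c => ?_
    ring
  have a3 : ∑' c, h (c + e) * h (c + e) = ∑' c, h c * h c := tsum_trz (fun c => h c * h c) e
  have a4 : ∑' c, h c * h (c - e) = ∑' c, h c * h (c + e) := by
    rw [← tsum_trz (fun c => h c * h (c - e)) e]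
    refine tsum_congr fun c => ?_
    rw [add_sub_cancel_right]
    ring
  rw [a1, a2, a3, a4]
  ring

theorem gdz_fsu {h : ℤ × ℤ → ℝ} (hh : Fsu h) : Fsu (gdz h) :=
  (sbp hh (1, 0)).1.add (sbp hh (0, 1)).1

/-- the energy is the form of the Laplacian -/
theorem enz_eq {h : ℤ × ℤ → ℝ} (hh : Fsu h) : enz h = ∑' c, h c * lapz h c := by
  obtain ⟨a1, a2, a3⟩ := sbp hh (1, 0)
  obtain ⟨b1, b2, b3⟩ := sbp hh (0, 1)
  unfold enz gdz
  rw [a1.summable.tsum_add b1.summable, a3, b3, ← a2.summable.tsum_add b2.summable]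
  refine tsum_congr fun c => ?_
  unfold lapz
  ring

theorem enz_le {h : ℤ × ℤ → ℝ} (hh : Fsu h) {A B : ℝ} (hA : 0 ≤ A) (h1 : ∀ c, |h c| ≤ A)
    (h2 : ∀ S : Finset (ℤ × ℤ), ∑ c ∈ S, |lapz h c| ≤ B) : enz h ≤ A * B := by
  rw [enz_eq hh]
  have hf : Fsu (fun c => h c * lapz h c) := hh.mul _
  refine hf.summable.tsum_le_of_sum_le fun S => ?_
  have h3 : ∀ c ∈ S, h c * lapz h c ≤ A * |lapz h c| := by
    intro c _
    refine (le_abs_self _).trans ?_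
    rw [abs_mul]
    exact mul_le_mul_of_nonneg_right (h1 c) (abs_nonneg _)
  refine (Finset.sum_le_sum h3).trans ?_
  rw [← Finset.mul_sum]
  exact mul_le_mul_of_nonneg_left (h2 S) hA

theorem gdz_nonneg (h : ℤ × ℤ → ℝ) (c : ℤ × ℤ) : 0 ≤ gdz h c := by
  unfold gdz
  positivity

theorem sum_le_enz {h : ℤ × ℤ → ℝ} (hh : Fsu h) (S : Finset (ℤ × ℤ)) :
    ∑ c ∈ S, gdz h c ≤ enz h :=
  (gdz_fsu hh).summable.sum_le_tsum S fun c _ => gdz_nonneg h c

/-! ### the energy of the pyramid and of its average -/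

theorem pf_fsu (x0 y0 p : ℤ) : Fsu (pf x0 y0 p) := by
  refine (Finset.finite_toSet ((Finset.Ioo (x0 - p) (x0 + p)) ×ˢ
    (Finset.Ioo (y0 - p) (y0 + p)))).subset fun c hc => ?_
  have h1 : pz p (c - (x0, y0)) ≠ 0 := by
    intro h
    refine hc ?_
    unfold pf
    rw [h, Int.cast_zero]
  have h2 := pz_ne h1
  simp only [Prod.fst_sub, Prod.snd_sub] at h2
  simp only [Finset.coe_product, Finset.coe_Ioo, Set.mem_prod, Set.mem_Ioo]
  omega

theorem pf_nonneg (x0 y0 p : ℤ) (c : ℤ × ℤ) : 0 ≤ pf x0 y0 p c := by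
  unfold pf
  exact_mod_cast pz_nonneg p _

theorem pf_le (x0 y0 : ℤ) {p : ℤ} (hp : 0 ≤ p) (c : ℤ × ℤ) : pf x0 y0 p c ≤ p := by
  unfold pf
  exact_mod_cast pz_le p hp _

theorem pf_ne {x0 y0 p : ℤ} {c : ℤ × ℤ} (h : pf x0 y0 p c ≠ 0) :
    x0 - p < c.1 ∧ c.1 < x0 + p - 1 ∧ y0 - p < c.2 ∧ c.2 < y0 + p - 1 := by
  have h1 : pz p (c - (x0, y0)) ≠ 0 := by
    intro h'
    refine h ?_
    unfold pf
    rw [h', Int.cast_zero]
  have h2 := pz_ne h1
  simp only [Prod.fst_sub, Prod.snd_sub] at h2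
  omega

theorem pf_lip (x0 y0 p : ℤ) (c q : ℤ × ℤ) :
    |pf x0 y0 p c - pf x0 y0 p (c + q)| ≤ (|q.1| + |q.2| : ℤ) := by
  unfold pf
  have h := pz_lip p (c - (x0, y0)) (c + q - (x0, y0))
  have e : |(c - (x0, y0)).1 - (c + q - (x0, y0)).1| + |(c - (x0, y0)).2 - (c + q - (x0, y0)).2| =
      |q.1| + |q.2| := by
    rw [← abs_neg q.1, ← abs_neg q.2]
    congr 2
    · simp only [Prod.fst_sub, Prod.fst_add]
      ring
    · simp only [Prod.snd_sub, Prod.snd_add]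
      ring
  rw [e] at h
  exact_mod_cast h

/-- the energy of the difference of the pyramid and its translate -/
theorem enz_tr (x0 y0 : ℤ) {p : ℤ} (hp : 1 ≤ p) (q : ℤ × ℤ) :
    enz (fun c => pf x0 y0 p c - pf x0 y0 p (c + q)) ≤
      ((|q.1| + |q.2| : ℤ) : ℝ) * (32 * ((p : ℝ) - 1)) := by
  refine enz_le ((pf_fsu x0 y0 p).sub ((pf_fsu x0 y0 p).trz q)) (by positivity)
    (fun c => pf_lip x0 y0 p c q) fun S => ?_
  have h1 : ∀ c ∈ S, |lapz (fun c => pf x0 y0 p c - pf x0 y0 p (c + q)) c| ≤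
      |lapz (pf x0 y0 p) c| + |lapz (pf x0 y0 p) (c + q)| := by
    intro c _
    have e : lapz (fun c => pf x0 y0 p c - pf x0 y0 p (c + q)) c =
        lapz (pf x0 y0 p) c - lapz (pf x0 y0 p) (c + q) := by
      have e1 : ∀ a : ℤ × ℤ, c + q + a = c + a + q := fun a => by abel
      have e2 : ∀ a : ℤ × ℤ, c + q - a = c - a + q := fun a => by abel
      unfold lapz
      simp only [e1, e2]
      ring
    rw [e]
    exact abs_sub _ _
  refine (Finset.sum_le_sum h1).trans ?_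
  rw [Finset.sum_add_distrib]
  have h2 := sum_lapz x0 y0 hp S
  have h3 := sum_trz (f := fun c => |lapz (pf x0 y0 p) c|) (sum_lapz x0 y0 hp) q S
  linarith

/-- average of squares -/
theorem avg_sq (s : ℕ) (g : ℤ × ℤ → ℝ) :
    ((∑ q ∈ bx s, g q) / (s : ℝ) ^ 2) ^ 2 ≤ (∑ q ∈ bx s, g q ^ 2) / (s : ℝ) ^ 2 := by
  rcases Nat.eq_zero_or_pos s with h | h
  · subst h
    simp
  have hs0 : (0 : ℝ) < s := by exact_mod_cast h
  have h1 := sq_sum_le_card_mul_sum_sq (s := bx s) (f := g)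
  rw [bx_card] at h1
  push_cast at h1
  rw [div_pow, div_le_div_iff₀ (by positivity) (by positivity)]
  have h2 : (0 : ℝ) < (s : ℝ) ^ 2 := by positivity
  calc (∑ q ∈ bx s, g q) ^ 2 * (s : ℝ) ^ 2 ≤ ((s : ℝ) ^ 2 * ∑ q ∈ bx s, g q ^ 2) * (s : ℝ) ^ 2 :=
        mul_le_mul_of_nonneg_right h1 h2.le
    _ = (∑ q ∈ bx s, g q ^ 2) * ((s : ℝ) ^ 2) ^ 2 := by ring

/-- the energy density of an average of functions -/
theorem gdz_avg (s : ℕ) (g : ℤ × ℤ → ℤ × ℤ → ℝ) (c : ℤ × ℤ) :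
    gdz (fun c => (∑ q ∈ bx s, g q c) / (s : ℝ) ^ 2) c ≤
      (∑ q ∈ bx s, gdz (g q) c) / (s : ℝ) ^ 2 := by
  unfold gdz
  have e : ∀ a : ℤ × ℤ, (∑ q ∈ bx s, g q (c + a)) / (s : ℝ) ^ 2 -
      (∑ q ∈ bx s, g q c) / (s : ℝ) ^ 2 = (∑ q ∈ bx s, (g q (c + a) - g q c)) / (s : ℝ) ^ 2 := by
    intro a
    rw [Finset.sum_sub_distrib, sub_div]
  rw [e, e, Finset.sum_add_distrib, add_div]
  exact add_le_add (avg_sq s _) (avg_sq s _)

theorem smz_fsu {f : ℤ × ℤ → ℝ} (hf : Fsu f) (s : ℕ) : Fsu (smz s f) := by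
  have h1 : Fsu (fun c => ∑ q ∈ bx s, f (c + q)) := Fsu.sum _ fun q _ => hf.trz q
  have h2 := h1.mul (fun _ => ((s : ℝ) ^ 2)⁻¹)
  exact h2

theorem enz_avg (s : ℕ) {g : ℤ × ℤ → ℤ × ℤ → ℝ} (hg : ∀ q ∈ bx s, Fsu (g q)) {B : ℝ}
    (hB : ∀ q ∈ bx s, enz (g q) ≤ B) (hs : 1 ≤ s) :
    enz (fun c => (∑ q ∈ bx s, g q c) / (s : ℝ) ^ 2) ≤ B := by
  have hs0 : (0 : ℝ) < s := by exact_mod_cast hs
  have hf : Fsu (fun c => (∑ q ∈ bx s, g q c) / (s : ℝ) ^ 2) :=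
    (Fsu.sum (bx s) hg).mul (fun _ => ((s : ℝ) ^ 2)⁻¹)
  unfold enz
  refine (gdz_fsu hf).summable.tsum_le_of_sum_le fun S => ?_
  refine (Finset.sum_le_sum fun c _ => gdz_avg s g c).trans ?_
  rw [← Finset.sum_div, Finset.sum_comm, div_le_iff₀ (by positivity)]
  refine (Finset.sum_le_sum fun q hq => (sum_le_enz (hg q hq) S).trans (hB q hq)).trans ?_
  rw [Finset.sum_const, bx_card, nsmul_eq_mul]
  push_cast
  exact le_of_eq (by ring)

theorem enz_trz (h : ℤ × ℤ → ℝ) (q : ℤ × ℤ) : enz (fun c => h (c + q)) = enz h := by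
  unfold enz
  rw [← tsum_trz (gdz h) q]
  refine tsum_congr fun c => ?_
  unfold gdz
  have e1 : ∀ a : ℤ × ℤ, c + a + q = c + q + a := fun a => by abel
  simp only [e1]

/-- the average has less energy -/
theorem enz_smz_le {f : ℤ × ℤ → ℝ} (hf : Fsu f) {s : ℕ} (hs : 1 ≤ s) : enz (smz s f) ≤ enz f :=
  enz_avg s (g := fun q c => f (c + q)) (fun q _ => hf.trz q)
    (fun q _ => (enz_trz f q).le) hs

/-- **the energy of the difference is at most `64 (p - 1) s`** -/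
theorem enz_diff (x0 y0 : ℤ) {p : ℤ} (hp : 1 ≤ p) {s : ℕ} (hs : 1 ≤ s) :
    enz (fun c => pf x0 y0 p c - smz s (pf x0 y0 p) c) ≤ 64 * ((p : ℝ) - 1) * s := by
  have hs0 : (0 : ℝ) < s := by exact_mod_cast hs
  have hp0 : (0 : ℝ) ≤ (p : ℝ) - 1 := by
    have : (1 : ℝ) ≤ p := by exact_mod_cast hp
    linarith
  have e : (fun c => pf x0 y0 p c - smz s (pf x0 y0 p) c) =
      fun c => (∑ q ∈ bx s, (pf x0 y0 p c - pf x0 y0 p (c + q))) / (s : ℝ) ^ 2 := by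
    funext c
    unfold smz
    rw [Finset.sum_sub_distrib, Finset.sum_const, bx_card, nsmul_eq_mul, sub_div]
    push_cast
    congr 1
    field_simp
  rw [e]
  refine enz_avg s (g := fun q c => pf x0 y0 p c - pf x0 y0 p (c + q))
    (fun q _ => (pf_fsu x0 y0 p).sub ((pf_fsu x0 y0 p).trz q)) (fun q hq => ?_) hs
  refine (enz_tr x0 y0 hp q).trans ?_
  have h1 := mem_bx hq
  have h2 : |q.1| + |q.2| ≤ 2 * (s : ℤ) := by
    rw [abs_of_nonneg h1.1, abs_of_nonneg h1.2.2.1]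
    omega
  have h3 : ((|q.1| + |q.2| : ℤ) : ℝ) ≤ 2 * s := by exact_mod_cast h2
  nlinarith [h3, hp0]

/-- values of the average -/
theorem smz_nonneg {f : ℤ × ℤ → ℝ} (hf : ∀ c, 0 ≤ f c) (s : ℕ) (c : ℤ × ℤ) : 0 ≤ smz s f c := by
  unfold smz
  exact div_nonneg (Finset.sum_nonneg fun q _ => hf _) (by positivity)

theorem smz_le {f : ℤ × ℤ → ℝ} {A : ℝ} (hf : ∀ c, f c ≤ A) {s : ℕ} (hs : 1 ≤ s) (c : ℤ × ℤ) :
    smz s f c ≤ A := by
  have hs0 : (0 : ℝ) < s := by exact_mod_cast hs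
  unfold smz
  rw [div_le_iff₀ (by positivity)]
  refine (Finset.sum_le_sum fun q _ => hf (c + q)).trans ?_
  rw [Finset.sum_const, bx_card, nsmul_eq_mul]
  push_cast
  exact le_of_eq (by ring)

/-- support of the average -/
theorem smz_ne {x0 y0 p : ℤ} {s : ℕ} {c : ℤ × ℤ} (h : smz s (pf x0 y0 p) c ≠ 0) :
    x0 - p - s < c.1 ∧ c.1 < x0 + p - 1 ∧ y0 - p - s < c.2 ∧ c.2 < y0 + p - 1 := by
  by_contra h1
  refine h ?_
  unfold smz
  rw [Finset.sum_eq_zero, zero_div]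
  intro q hq
  by_contra h2
  refine h1 ?_
  have h3 := pf_ne h2
  have h4 := mem_bx hq
  simp only [Prod.fst_add, Prod.snd_add] at h3
  omega

theorem lapz_ne {x0 y0 p : ℤ} {s : ℕ} {c : ℤ × ℤ} (h : lapz (smz s (pf x0 y0 p)) c ≠ 0) :
    x0 - p - s ≤ c.1 ∧ c.1 < x0 + p ∧ y0 - p - s ≤ c.2 ∧ c.2 < y0 + p := by
  by_contra h1
  refine h ?_
  have h2 : ∀ a : ℤ × ℤ, |a.1| + |a.2| ≤ 1 → smz s (pf x0 y0 p) (c + a) = 0 := by
    intro a ha
    by_contra h3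
    have h4 := smz_ne h3
    simp only [Prod.fst_add, Prod.snd_add] at h4
    refine h1 ?_
    rcases abs_cases a.1 with ⟨h, _⟩ | ⟨h, _⟩ <;> rcases abs_cases a.2 with ⟨h', _⟩ | ⟨h', _⟩ <;>
      rw [h, h'] at ha <;> omega
  have h3 : smz s (pf x0 y0 p) c = 0 := by
    have := h2 0 (by simp)
    rwa [add_zero] at this
  unfold lapz
  rw [sub_eq_add_neg c, sub_eq_add_neg c, h3, h2 _ (by simp), h2 _ (by simp), h2 _ (by simp),
    h2 _ (by simp)]
  ring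

/-- the Lipschitz bounds -/
theorem gdz_pf_le (x0 y0 p : ℤ) (c : ℤ × ℤ) : gdz (pf x0 y0 p) c ≤ 2 := by
  unfold gdz
  have h1 := pf_lip x0 y0 p c (1, 0)
  have h2 := pf_lip x0 y0 p c (0, 1)
  simp only [abs_one, abs_zero, add_zero, zero_add, Int.cast_one] at h1 h2
  have h1' := sq_le_one_iff_abs_le_one _ |>.2 h1
  have h2' := sq_le_one_iff_abs_le_one _ |>.2 h2
  nlinarith

/-- lower bound of the energy of the pyramid -/
theorem le_enz (x0 y0 : ℤ) {p : ℤ} (hp : 1 ≤ p) : ((p : ℝ) - 1) ^ 2 / 2 ≤ enz (pf x0 y0 p) := by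
  have h1 := sum_le_enz (pf_fsu x0 y0 p)
    (Finset.Ico x0 (x0 + p / 2) ×ˢ Finset.Ico y0 (y0 + p / 2))
  refine le_trans ?_ h1
  have h2 : ∀ c ∈ Finset.Ico x0 (x0 + p / 2) ×ˢ Finset.Ico y0 (y0 + p / 2),
      (2 : ℝ) ≤ gdz (pf x0 y0 p) c := by
    intro c hc
    rw [Finset.mem_product, Finset.mem_Ico, Finset.mem_Ico] at hc
    unfold gdz pf
    have e1 : pz p (c + (1, 0) - (x0, y0)) = pz p (c - (x0, y0)) - 1 := by
      unfold pz m1
      simp only [Prod.fst_sub, Prod.snd_sub, Prod.fst_add, Prod.snd_add]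
      omega
    have e2 : pz p (c + (0, 1) - (x0, y0)) = pz p (c - (x0, y0)) - 1 := by
      unfold pz m1
      simp only [Prod.fst_sub, Prod.snd_sub, Prod.fst_add, Prod.snd_add]
      omega
    rw [e1, e2]
    push_cast
    nlinarith
  have h3 := Finset.sum_le_sum h2
  refine le_trans ?_ h3
  rw [Finset.sum_const, Finset.card_product, Int.card_Ico, Int.card_Ico, nsmul_eq_mul]
  have h4 : ((p : ℝ) - 1) / 2 ≤ ((p / 2 : ℤ) : ℝ) := by
    have : p - 1 ≤ 2 * (p / 2) := by omega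
    have h5 : ((p - 1 : ℤ) : ℝ) ≤ ((2 * (p / 2) : ℤ) : ℝ) := by exact_mod_cast this
    push_cast at h5
    have h6 : (((p / 2 : ℤ)) : ℝ) = ((p / 2 : ℤ) : ℝ) := rfl
    linarith
  have h5 : (((x0 + p / 2 - x0).toNat : ℕ) : ℝ) = ((p / 2 : ℤ) : ℝ) := by
    have : (((x0 + p / 2 - x0).toNat : ℕ) : ℤ) = p / 2 := by omega
    exact_mod_cast this
  have h6 : (((y0 + p / 2 - y0).toNat : ℕ) : ℝ) = ((p / 2 : ℤ) : ℝ) := by
    have : (((y0 + p / 2 - y0).toNat : ℕ) : ℤ) = p / 2 := by omega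
    exact_mod_cast this
  push_cast
  rw [h5, h6]
  have hp0 : (0 : ℝ) ≤ (p : ℝ) - 1 := by
    have : (1 : ℝ) ≤ p := by exact_mod_cast hp
    linarith
  nlinarith [h4, hp0]

theorem enz_up (x0 y0 : ℤ) {p : ℤ} (hp : 1 ≤ p) : enz (pf x0 y0 p) ≤ 16 * p * ((p : ℝ) - 1) := by
  have hp0 : (0 : ℝ) ≤ (p : ℝ) := by
    have : (1 : ℝ) ≤ p := by exact_mod_cast hp
    linarith
  refine (enz_le (pf_fsu x0 y0 p) hp0 (fun c => ?_) (sum_lapz x0 y0 hp)).trans
    (le_of_eq (by ring))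
  rw [abs_of_nonneg (pf_nonneg x0 y0 p c)]
  exact pf_le x0 y0 (by omega) c

end

end Vale.Agent.P159.H859
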