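import Vale.Agent.P159.H856.Emb
import Vale.Agent.P159.H859.Smo

/-!
P159 (helper859), LINKW (B), piece Lw4 in the letters of the blocks and of the torus: the pyramid is
the field with stream function `pf`, norms of fields with a stream function of finite support,
functions on the torus.
-/

set_option linter.unusedSectionVars false

namespace Vale.Agent.P159.H859

open Vale.Agent.P159 Vale.Agent.P159.H353 Vale.Agent.P159.R2.H254
open Vale.Agent.P159.H950 Vale.Agent.P159.H856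
open Vale.Agent.P159.TM.H764 (grd)
open Vale.Agent.P159.TM.Spec (V)

noncomputable section

/-- **the pyramid is the field with stream function `pf`** -/
theorem pyr_sF (x0 y0 p : ℤ) (hp : 0 ≤ p) : pyr x0 y0 p = sF (pf x0 y0 p) := by
  funext t z
  unfold pyr sF bF
  rcases t with ⟨_ | _, t2⟩
  · simp only [Bool.false_eq_true, if_false]
    have h2 : hv z (false, t2) = hu z (false, t2) + (1, 0) := rfl
    rw [h2]
    set u := hu z (false, t2) with hu'
    unfold aS pf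
    simp only [Prod.fst_add, Prod.snd_add, add_zero]
    have e : (pz p (u - (x0, y0)) : ℝ) - pz p (u - (0, 1) - (x0, y0)) =
        ((pz p (u - (x0, y0)) - pz p (u - (0, 1) - (x0, y0)) : ℤ) : ℝ) := by push_cast; ring
    rw [e]
    have e1 : pz p (u - (x0, y0)) - pz p (u - (0, 1) - (x0, y0)) =
        if |u.1 - x0| + |u.2 - y0| ≤ p ∧ |u.1 + 1 - x0| + |u.2 - y0| ≤ p then
          -(u.2 - y0).sign else 0 := by
      unfold pz m1
      simp only [Prod.fst_sub, Prod.snd_sub, sub_zero]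
      rcases lt_trichotomy (u.2 - y0) 0 with h | h | h
      · rw [Int.sign_eq_neg_one_of_neg h, abs_of_neg h]
        rcases abs_cases (u.1 - x0) with ⟨h', _⟩ | ⟨h', _⟩ <;>
          rcases abs_cases (u.1 + 1 - x0) with ⟨h'', _⟩ | ⟨h'', _⟩ <;> rw [h', h''] <;>
          split <;> omega
      · rw [h, Int.sign_zero, abs_zero]
        rcases abs_cases (u.1 - x0) with ⟨h', _⟩ | ⟨h', _⟩ <;>
          rcases abs_cases (u.1 + 1 - x0) with ⟨h'', _⟩ | ⟨h'', _⟩ <;> rw [h', h''] <;>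
          split <;> omega
      · rw [Int.sign_eq_one_of_pos h, abs_of_pos h]
        rcases abs_cases (u.1 - x0) with ⟨h', _⟩ | ⟨h', _⟩ <;>
          rcases abs_cases (u.1 + 1 - x0) with ⟨h'', _⟩ | ⟨h'', _⟩ <;> rw [h', h''] <;>
          split <;> omega
    rw [e1]
    split <;> push_cast <;> ring
  · simp only [if_true]
    have h2 : hv z (true, t2) = hu z (true, t2) + (0, 1) := rfl
    rw [h2]
    set u := hu z (true, t2) with hu'
    unfold bS pf
    simp only [Prod.fst_add, Prod.snd_add, add_zero]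
    have e : (pz p (u - (1, 0) - (x0, y0)) : ℝ) - pz p (u - (x0, y0)) =
        ((pz p (u - (1, 0) - (x0, y0)) - pz p (u - (x0, y0)) : ℤ) : ℝ) := by push_cast; ring
    rw [e]
    have e1 : pz p (u - (1, 0) - (x0, y0)) - pz p (u - (x0, y0)) =
        if |u.1 - x0| + |u.2 - y0| ≤ p ∧ |u.1 - x0| + |u.2 + 1 - y0| ≤ p then
          (u.1 - x0).sign else 0 := by
      unfold pz m1
      simp only [Prod.fst_sub, Prod.snd_sub, sub_zero]
      rcases lt_trichotomy (u.1 - x0) 0 with h | h | h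
      · rw [Int.sign_eq_neg_one_of_neg h, abs_of_neg h]
        rcases abs_cases (u.2 - y0) with ⟨h', _⟩ | ⟨h', _⟩ <;>
          rcases abs_cases (u.2 + 1 - y0) with ⟨h'', _⟩ | ⟨h'', _⟩ <;> rw [h', h''] <;>
          split <;> omega
      · rw [h, Int.sign_zero, abs_zero]
        rcases abs_cases (u.2 - y0) with ⟨h', _⟩ | ⟨h', _⟩ <;>
          rcases abs_cases (u.2 + 1 - y0) with ⟨h'', _⟩ | ⟨h'', _⟩ <;> rw [h', h''] <;>
          split <;> omega
      · rw [Int.sign_eq_one_of_pos h, abs_of_pos h]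
        rcases abs_cases (u.2 - y0) with ⟨h', _⟩ | ⟨h', _⟩ <;>
          rcases abs_cases (u.2 + 1 - y0) with ⟨h'', _⟩ | ⟨h'', _⟩ <;> rw [h', h''] <;>
          split <;> omega
    rw [e1]
    split <;> push_cast <;> ring

/-! ### the norm -/

/-- energy in one direction -/
def en1 (e : ℤ × ℤ) (h : ℤ × ℤ → ℝ) : ℝ := ∑' c, (h (c + e) - h c) ^ 2

theorem enz_split {h : ℤ × ℤ → ℝ} (hh : Fsu h) : enz h = en1 (1, 0) h + en1 (0, 1) h := by
  unfold enz gdz en1
  exact (sbp hh (1, 0)).1.summable.tsum_add (sbp hh (0, 1)).1.summable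

theorem fwd_le {h : ℤ × ℤ → ℝ} (hh : Fsu h) (e : ℤ × ℤ) (S : Finset (ℤ × ℤ)) :
    ∑ c ∈ S, (h (c + e) - h c) ^ 2 ≤ en1 e h :=
  (sbp hh e).1.summable.sum_le_tsum S fun _ _ => sq_nonneg _

theorem bwd_le {h : ℤ × ℤ → ℝ} (hh : Fsu h) (e : ℤ × ℤ) (S : Finset (ℤ × ℤ)) :
    ∑ c ∈ S, (h c - h (c - e)) ^ 2 ≤ en1 e h := by
  have h1 := sum_trz (f := fun c => (h (c + e) - h c) ^ 2) (fwd_le hh e) (-e) S
  refine (le_of_eq (Finset.sum_congr rfl fun c _ => ?_)).trans h1
  simp only [neg_add_cancel_right]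
  rw [← sub_eq_add_neg]

/-- the four half-bonds of a cell -/
theorem sF_cell (f : ℤ × ℤ → ℝ) (c : ℤ × ℤ) : ∑ t : Bool × Bool, sF f t c ^ 2 =
    (f (c + (0, 1)) - f c) ^ 2 + (f (c + (1, 0)) - f c) ^ 2 +
        ((f c - f (c - (0, 1))) ^ 2 + (f c - f (c - (1, 0))) ^ 2) := by
  rw [Fintype.sum_prod_type]
  simp only [Fintype.sum_bool]
  have e1 : sF f (true, true) c = f c - f (c + (1, 0)) := by
    show bS f (hu c (true, true)) = _
    unfold bS
    have : hu c (true, true) = c + (1, 0) := by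
      unfold hu; ext <;> simp
    rw [this, add_sub_cancel_right]
  have e2 : sF f (true, false) c = f (c - (1, 0)) - f c := by
    show bS f (hu c (true, false)) = _
    unfold bS
    have : hu c (true, false) = c := by
      unfold hu; ext <;> simp
    rw [this]
  have e3 : sF f (false, true) c = f (c + (0, 1)) - f c := by
    show aS f (hu c (false, true)) = _
    unfold aS
    have : hu c (false, true) = c + (0, 1) := by
      unfold hu; ext <;> simp
    rw [this, add_sub_cancel_right]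
  have e4 : sF f (false, false) c = f c - f (c - (0, 1)) := by
    show aS f (hu c (false, false)) = _
    unfold aS
    have : hu c (false, false) = c := by
      unfold hu; ext <;> simp
    rw [this]
  rw [e1, e2, e3, e4]
  ring

theorem nG_reg (R : Finset (ℤ × ℤ)) (y : HF) :
    nG R y = ∑ z ∈ R, ∑ t : Bool × Bool, y t z ^ 2 := by
  unfold nG
  rw [Fintype.sum_prod_type, ← Finset.sum_coe_sort R]

/-- **the norm of a field with stream function of finite support, in any region** -/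
theorem nG_sF_le (R : Finset (ℤ × ℤ)) {h : ℤ × ℤ → ℝ} (hh : Fsu h) :
    nG R (sF h) ≤ 2 * enz h := by
  rw [nG_reg, enz_split hh]
  simp only [sF_cell, Finset.sum_add_distrib]
  have h1 := fwd_le hh (0, 1) R
  have h2 := fwd_le hh (1, 0) R
  have h3 := bwd_le hh (0, 1) R
  have h4 := bwd_le hh (1, 0) R
  linarith

/-- equality if the region contains the support and its neighbours -/
theorem nG_sF_eq {R : Finset (ℤ × ℤ)} {h : ℤ × ℤ → ℝ} (hh : Fsu h)
    (hR : ∀ c, c ∉ R → h c = 0 ∧ h (c + (0, 1)) = 0 ∧ h (c + (1, 0)) = 0 ∧ h (c - (0, 1)) = 0 ∧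
      h (c - (1, 0)) = 0) : nG R (sF h) = 2 * enz h := by
  rw [nG_reg, enz_split hh]
  simp only [sF_cell, Finset.sum_add_distrib]
  have h1 : ∑ c ∈ R, (h (c + (0, 1)) - h c) ^ 2 = en1 (0, 1) h :=
    (tsum_eq_sum fun c hc => by rw [(hR c hc).1, (hR c hc).2.1]; ring).symm
  have h2 : ∑ c ∈ R, (h (c + (1, 0)) - h c) ^ 2 = en1 (1, 0) h :=
    (tsum_eq_sum fun c hc => by rw [(hR c hc).1, (hR c hc).2.2.1]; ring).symm
  have hb : ∀ e : ℤ × ℤ, en1 e h = ∑' c, (h c - h (c - e)) ^ 2 := by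
    intro e
    unfold en1
    rw [← tsum_trz (fun c => (h c - h (c - e)) ^ 2) e]
    refine tsum_congr fun c => ?_
    rw [add_sub_cancel_right]
  have h3 : ∑ c ∈ R, (h c - h (c - (0, 1))) ^ 2 = en1 (0, 1) h := by
    rw [hb]
    exact (tsum_eq_sum fun c hc => by rw [(hR c hc).1, (hR c hc).2.2.2.1]; ring).symm
  have h4 : ∑ c ∈ R, (h c - h (c - (1, 0))) ^ 2 = en1 (1, 0) h := by
    rw [hb]
    exact (tsum_eq_sum fun c hc => by rw [(hR c hc).1, (hR c hc).2.2.2.2]; ring).symm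
  rw [h1, h2, h3, h4]
  ring

/-- linearity of the field in the stream function -/
theorem sF_sub (f g : ℤ × ℤ → ℝ) (t : Bool × Bool) (z : ℤ × ℤ) :
    sF (fun c => f c - g c) t z = sF f t z - sF g t z := by
  unfold sF bF aS bS
  split <;> ring

theorem sF_add (f g : ℤ × ℤ → ℝ) (t : Bool × Bool) (z : ℤ × ℤ) :
    sF (fun c => f c + g c) t z = sF f t z + sF g t z := by
  unfold sF bF aS bS
  split <;> ring

theorem sF_smul (a : ℝ) (f : ℤ × ℤ → ℝ) (t : Bool × Bool) (z : ℤ × ℤ) :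
    sF (fun c => a * f c) t z = a * sF f t z := by
  unfold sF bF aS bS
  split <;> ring

/-! ### the pyramid and its average -/

/-- **the norm of the pyramid minus its average** -/
theorem nG_diff_le (R : Finset (ℤ × ℤ)) (x0 y0 : ℤ) {p : ℤ} (hp : 1 ≤ p) {s : ℕ} (hs : 1 ≤ s) :
    nG R (sF fun c => pf x0 y0 p c - smz s (pf x0 y0 p) c) ≤ 128 * ((p : ℝ) - 1) * s := by
  have h1 := nG_sF_le R ((pf_fsu x0 y0 p).sub (smz_fsu (pf_fsu x0 y0 p) s))
  have h2 := enz_diff x0 y0 hp hs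
  linarith

/-- **two sided bound of the norm of the pyramid in a region containing it** -/
theorem nG_pyr {R : Finset (ℤ × ℤ)} {x0 y0 p : ℤ} (hp : 1 ≤ p)
    (hR : ∀ c : ℤ × ℤ, x0 - p ≤ c.1 → c.1 < x0 + p → y0 - p ≤ c.2 → c.2 < y0 + p → c ∈ R) :
    nG R (pyr x0 y0 p) = 2 * enz (pf x0 y0 p) ∧ ((p : ℝ) - 1) ^ 2 ≤ nG R (pyr x0 y0 p) ∧
      nG R (pyr x0 y0 p) ≤ 32 * p * ((p : ℝ) - 1) := by
  have h1 : nG R (pyr x0 y0 p) = 2 * enz (pf x0 y0 p) := by
    rw [pyr_sF x0 y0 p (by omega)]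
    refine nG_sF_eq (pf_fsu x0 y0 p) fun c hc => ?_
    have h2 : ∀ a : ℤ × ℤ, |a.1| + |a.2| ≤ 1 → pf x0 y0 p (c + a) = 0 := by
      intro a ha
      by_contra h3
      have h4 := pf_ne h3
      simp only [Prod.fst_add, Prod.snd_add] at h4
      have h5 : x0 - p ≤ c.1 ∧ c.1 < x0 + p ∧ y0 - p ≤ c.2 ∧ c.2 < y0 + p := by
        rcases abs_cases a.1 with ⟨h, _⟩ | ⟨h, _⟩ <;>
          rcases abs_cases a.2 with ⟨h', _⟩ | ⟨h', _⟩ <;> rw [h, h'] at ha <;> omega
      exact hc (hR c h5.1 h5.2.1 h5.2.2.1 h5.2.2.2)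
    have h3 := h2 0 (by simp)
    rw [add_zero] at h3
    rw [sub_eq_add_neg c, sub_eq_add_neg c]
    exact ⟨h3, h2 _ (by simp), h2 _ (by simp), h2 _ (by simp), h2 _ (by simp)⟩
  refine ⟨h1, ?_, ?_⟩
  · have := le_enz x0 y0 hp
    linarith
  · have := enz_up x0 y0 hp
    linarith

/-! ### functions on the torus -/

theorem grd_tu {N : ℕ} {f : ℤ × ℤ → ℝ} (hf : Van N f) : grd (tu N f) = enz f := by
  have hh : Fsu f := by
    refine (Finset.finite_toSet ((Finset.Ioo 0 (N : ℤ)) ×ˢ (Finset.Ioo 0 (N : ℤ)))).subset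
      fun c hc => ?_
    by_contra h
    refine hc (hf c fun h' => h ?_)
    simp only [Finset.coe_product, Finset.coe_Ioo, Set.mem_prod, Set.mem_Ioo]
    exact ⟨⟨h'.1, h'.2.1⟩, h'.2.2.1, h'.2.2.2⟩
  have h1 := nG_tu hf
  have h2 : nG (blk 0 (N + 1)) (sF f) = 2 * enz f := by
    refine nG_sF_eq hh fun c hc => ?_
    have h3 : ∀ a : ℤ × ℤ, |a.1| + |a.2| ≤ 1 → f (c + a) = 0 := by
      intro a ha
      refine hf _ fun h4 => hc ?_
      simp only [Prod.fst_add, Prod.snd_add] at h4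
      rw [mem_blk]
      simp only [Prod.fst_zero, Prod.snd_zero]
      push_cast
      rcases abs_cases a.1 with ⟨h, _⟩ | ⟨h, _⟩ <;>
        rcases abs_cases a.2 with ⟨h', _⟩ | ⟨h', _⟩ <;> rw [h, h'] at ha <;> omega
    have h4 := h3 0 (by simp)
    rw [add_zero] at h4
    rw [sub_eq_add_neg c, sub_eq_add_neg c]
    exact ⟨h4, h3 _ (by simp), h3 _ (by simp), h3 _ (by simp), h3 _ (by simp)⟩
  linarith

/-- the Laplacian on the torus -/
theorem nl_tu {N : ℕ} {f : ℤ × ℤ → ℝ} (hf : Van N f) (x : V (N + 1)) :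
    nl (tu N f) x = lapz f ((x.1.val : ℤ), (x.2.val : ℤ)) := by
  have b1 : ∀ x : V (N + 1), tu N f (x - (1, 0)) = f ((x.1.val : ℤ) - 1, (x.2.val : ℤ)) := by
    intro x
    obtain ⟨y, rfl⟩ : ∃ y : V (N + 1), x = y + (1, 0) := ⟨x - (1, 0), (sub_add_cancel _ _).symm⟩
    rw [add_sub_cancel_right]
    show f ((y.1.val : ℤ), (y.2.val : ℤ)) = _
    have e2 : (y + (1, 0)).2 = y.2 := by simp
    have e1 : (y + (1, 0)).1 = y.1 + 1 := rfl
    rw [e1, e2]
    rcases val_add_one N y.1 with ⟨h, _⟩ | ⟨h, h'⟩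
    · rw [h, add_sub_cancel_right]
    · rw [h, h', hf _ (by simp), hf _ (by simp)]
  have b2 : ∀ x : V (N + 1), tu N f (x - (0, 1)) = f ((x.1.val : ℤ), (x.2.val : ℤ) - 1) := by
    intro x
    obtain ⟨y, rfl⟩ : ∃ y : V (N + 1), x = y + (0, 1) := ⟨x - (0, 1), (sub_add_cancel _ _).symm⟩
    rw [add_sub_cancel_right]
    show f ((y.1.val : ℤ), (y.2.val : ℤ)) = _
    have e2 : (y + (0, 1)).2 = y.2 + 1 := rfl
    have e1 : (y + (0, 1)).1 = y.1 := by simp
    rw [e1, e2]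
    rcases val_add_one N y.2 with ⟨h, _⟩ | ⟨h, h'⟩
    · rw [h, add_sub_cancel_right]
    · rw [h, h', hf _ (by simp), hf _ (by simp)]
  unfold nl lapz
  rw [b1, b2, tu_e1 hf, tu_e2 hf]
  simp only [Prod.mk_add_mk, Prod.mk_sub_mk, add_zero, sub_zero]
  rfl

theorem sum_nl_tu {N : ℕ} {f : ℤ × ℤ → ℝ} (hf : Van N f) {B : ℝ}
    (hB : ∀ S : Finset (ℤ × ℤ), ∑ c ∈ S, lapz f c ^ 2 ≤ B) : ∑ x, nl (tu N f) x ^ 2 ≤ B := by
  simp only [nl_tu hf]
  rw [sum_tor N fun c => lapz f c ^ 2]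
  exact hB _

/-- the smoothed pyramid vanishes near the boundary of the block -/
theorem Van_smz {N : ℕ} {x0 y0 p : ℤ} {s : ℕ} (h1 : p + s ≤ x0) (h2 : p + s ≤ y0)
    (h3 : x0 + p ≤ N + 1) (h4 : y0 + p ≤ N + 1) : Van N (smz s (pf x0 y0 p)) := by
  intro c hc
  by_contra h
  have h5 := smz_ne h
  exact hc (by omega)

theorem Van_pf {N : ℕ} {x0 y0 p : ℤ} (h1 : p ≤ x0) (h2 : p ≤ y0)
    (h3 : x0 + p ≤ N + 1) (h4 : y0 + p ≤ N + 1) : Van N (pf x0 y0 p) := by
  intro c hc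
  by_contra h
  have h5 := pf_ne h
  exact hc (by omega)

end

end Vale.Agent.P159.H859
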